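import Vale.Agent.Lib.P113.Defs

/-! Arithmetic of rational codes `(a, b, c) ↦ (a - b) / (c + 1)`, with primitive recursiveness. -/

namespace Vale.Agent.P113

def qnat (n : ℕ) : QCode := (n, 0, 0)

def qneg (q : QCode) : QCode := (q.2.1, q.1, q.2.2)

def qadd (p q : QCode) : QCode :=
  (p.1 * (q.2.2 + 1) + q.1 * (p.2.2 + 1), p.2.1 * (q.2.2 + 1) + q.2.1 * (p.2.2 + 1),
    (p.2.2 + 1) * (q.2.2 + 1) - 1)

def qsub (p q : QCode) : QCode := qadd p (qneg q)

def qmul (p q : QCode) : QCode :=
  (p.1 * q.1 + p.2.1 * q.2.1, p.1 * q.2.1 + p.2.1 * q.1, (p.2.2 + 1) * (q.2.2 + 1) - 1)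

/-- `q / (k + 1)` -/
def qdivs (q : QCode) (k : ℕ) : QCode := (q.1, q.2.1, (q.2.2 + 1) * (k + 1) - 1)

/-- boolean comparison `p ≤ q` -/
def qleb (p q : QCode) : Bool :=
  decide (p.1 * (q.2.2 + 1) + q.2.1 * (p.2.2 + 1) ≤ q.1 * (p.2.2 + 1) + p.2.1 * (q.2.2 + 1))

def qmax (p q : QCode) : QCode := bif qleb p q then q else p

def qmin (p q : QCode) : QCode := bif qleb p q then p else q

def qabs (p : QCode) : QCode := qmax p (qneg p)

def qpow (q : QCode) (n : ℕ) : QCode := Nat.rec (qnat 1) (fun _ r => qmul r q) n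

def qsum (l : List QCode) : QCode := l.foldr qadd (qnat 0)

/-- a natural number bounding the absolute value -/
def qbd (q : QCode) : ℕ := q.1 + q.2.1

def qint (z : ℤ) : QCode := (z.toNat, (-z).toNat, 0)

/-- the integer part, as a code -/
def qfloor (q : QCode) : QCode :=
  ((q.1 - q.2.1) / (q.2.2 + 1), ((q.2.1 - q.1) + q.2.2) / (q.2.2 + 1), 0)

/-- the fractional part -/
def qfract (q : QCode) : QCode := qsub q (qfloor q)

/-! ### values -/

@[simp] theorem ratVal_qnat (n : ℕ) : ratVal (qnat n) = n := by simp [ratVal, qnat]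

@[simp] theorem ratVal_qneg (q : QCode) : ratVal (qneg q) = - ratVal q := by
  simp only [ratVal, qneg]; ring

private theorem cast_den (a b : ℕ) :
    (((a + 1) * (b + 1) - 1 : ℕ) : ℝ) + 1 = ((a : ℝ) + 1) * (b + 1) := by
  have h : 1 ≤ (a + 1) * (b + 1) := Nat.mul_pos (Nat.succ_pos _) (Nat.succ_pos _)
  rw [Nat.cast_sub h]; push_cast; ring

private theorem den_ne (a : ℕ) : ((a : ℝ) + 1) ≠ 0 := by positivity

@[simp] theorem ratVal_qadd (p q : QCode) : ratVal (qadd p q) = ratVal p + ratVal q := by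
  simp only [ratVal, qadd]
  rw [cast_den]
  have h1 := den_ne p.2.2
  have h2 := den_ne q.2.2
  push_cast
  field_simp
  ring

@[simp] theorem ratVal_qsub (p q : QCode) : ratVal (qsub p q) = ratVal p - ratVal q := by
  simp [qsub, sub_eq_add_neg]

@[simp] theorem ratVal_qmul (p q : QCode) : ratVal (qmul p q) = ratVal p * ratVal q := by
  simp only [ratVal, qmul]
  rw [cast_den]
  have h1 := den_ne p.2.2
  have h2 := den_ne q.2.2
  push_cast
  field_simp
  ring

@[simp] theorem ratVal_qdivs (q : QCode) (k : ℕ) : ratVal (qdivs q k) = ratVal q / (k + 1) := by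
  simp only [ratVal, qdivs]
  rw [cast_den]
  have h1 := den_ne q.2.2
  have h2 := den_ne k
  field_simp

theorem qleb_iff (p q : QCode) : qleb p q = true ↔ ratVal p ≤ ratVal q := by
  simp only [qleb, decide_eq_true_eq, ratVal]
  rw [div_le_div_iff₀ (by positivity) (by positivity)]
  have : (p.1 * (q.2.2 + 1) + q.2.1 * (p.2.2 + 1) ≤ q.1 * (p.2.2 + 1) + p.2.1 * (q.2.2 + 1)) ↔
      (((p.1 * (q.2.2 + 1) + q.2.1 * (p.2.2 + 1) : ℕ) : ℝ) ≤
        ((q.1 * (p.2.2 + 1) + p.2.1 * (q.2.2 + 1) : ℕ) : ℝ)) := by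
    rw [Nat.cast_le]
  rw [this]
  push_cast
  constructor <;> intro h <;> nlinarith

theorem qleb_false_iff (p q : QCode) : qleb p q = false ↔ ratVal q < ratVal p := by
  rw [← not_le, ← qleb_iff]; simp

@[simp] theorem ratVal_qmax (p q : QCode) : ratVal (qmax p q) = max (ratVal p) (ratVal q) := by
  unfold qmax
  cases h : qleb p q with
  | true => rw [qleb_iff] at h; simp [max_eq_right h]
  | false => rw [qleb_false_iff] at h; simp [max_eq_left h.le]

@[simp] theorem ratVal_qmin (p q : QCode) : ratVal (qmin p q) = min (ratVal p) (ratVal q) := by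
  unfold qmin
  cases h : qleb p q with
  | true => rw [qleb_iff] at h; simp [min_eq_left h]
  | false => rw [qleb_false_iff] at h; simp [min_eq_right h.le]

@[simp] theorem ratVal_qabs (p : QCode) : ratVal (qabs p) = |ratVal p| := by
  simp [qabs, abs]

@[simp] theorem ratVal_qpow (q : QCode) (n : ℕ) : ratVal (qpow q n) = ratVal q ^ n := by
  induction n with
  | zero => simp [qpow]
  | succ n ih =>
    have : qpow q (n + 1) = qmul (qpow q n) q := rfl
    rw [this, ratVal_qmul, ih, pow_succ]

@[simp] theorem ratVal_qsum (l : List QCode) : ratVal (qsum l) = (l.map ratVal).sum := by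
  induction l with
  | nil => simp [qsum]
  | cons a l ih =>
    have : qsum (a :: l) = qadd a (qsum l) := rfl
    rw [this, ratVal_qadd, ih]; simp

@[simp] theorem ratVal_qint (z : ℤ) : ratVal (qint z) = z := by
  have h1 : ((z.toNat : ℤ) : ℝ) - (((-z).toNat : ℤ) : ℝ) = (z : ℝ) := by
    rw [← Int.cast_sub, Int.toNat_sub_toNat_neg]
  simp only [ratVal, qint, Nat.cast_zero, zero_add, div_one]
  rw [← h1, Int.cast_natCast, Int.cast_natCast]

theorem abs_ratVal_le (q : QCode) : |ratVal q| ≤ qbd q := by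
  simp only [ratVal, qbd]
  rw [abs_div, div_le_iff₀ (by positivity)]
  have h3 : |(q.1 : ℝ) - q.2.1| ≤ q.1 + q.2.1 := by
    rw [abs_le]; constructor <;> have := Nat.cast_nonneg (α := ℝ) q.1 <;>
      have := Nat.cast_nonneg (α := ℝ) q.2.1 <;> linarith
  have h4 : (1 : ℝ) ≤ |(q.2.2 : ℝ) + 1| := by
    rw [abs_of_nonneg (by positivity)]; linarith [Nat.cast_nonneg (α := ℝ) q.2.2]
  push_cast
  calc |(q.1 : ℝ) - q.2.1| ≤ (q.1 + q.2.1) * 1 := by linarith
    _ ≤ _ := by gcongr

@[simp] theorem ratVal_qfloor (q : QCode) : ratVal (qfloor q) = ⌊ratVal q⌋ := by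
  symm
  obtain ⟨a, b, c⟩ := q
  simp only [ratVal, qfloor, Nat.cast_zero, zero_add, div_one]
  have hc : (0 : ℝ) < (c : ℝ) + 1 := by positivity
  rcases le_total b a with h | h
  · have h1 : b - a = 0 := by omega
    have h2 : (0 + c) / (c + 1) = 0 := by rw [Nat.div_eq_zero_iff]; omega
    rw [h1, h2]
    have e : ((a : ℝ) - b) = ((a - b : ℕ) : ℝ) := by rw [Nat.cast_sub h]
    rw [e]
    generalize a - b = m
    have h5 : m < (m / (c + 1) + 1) * (c + 1) := by
      have := Nat.lt_mul_div_succ m (Nat.succ_pos c)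
      rw [mul_comm]; exact this
    have h6 : m / (c + 1) * (c + 1) ≤ m := Nat.div_mul_le_self _ _
    revert h5 h6
    generalize m / (c + 1) = K
    intro h5 h6
    have h3 : ⌊(m : ℝ) / (c + 1)⌋ = (K : ℤ) := by
      rw [Int.floor_eq_iff]
      constructor
      · rw [le_div_iff₀ hc]
        exact_mod_cast h6
      · rw [div_lt_iff₀ hc]
        exact_mod_cast h5
    rw [h3]; simp
  · have h1 : a - b = 0 := by omega
    rw [h1, Nat.zero_div]
    have e : ((a : ℝ) - b) = -((b - a : ℕ) : ℝ) := by rw [Nat.cast_sub h]; ring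
    rw [e]
    generalize b - a = m
    have h5 : m + c < ((m + c) / (c + 1) + 1) * (c + 1) := by
      have := Nat.lt_mul_div_succ (m + c) (Nat.succ_pos c)
      rw [mul_comm]; exact this
    have h6 : (m + c) / (c + 1) * (c + 1) ≤ m + c := Nat.div_mul_le_self _ _
    revert h5 h6
    generalize (m + c) / (c + 1) = K
    intro h5 h6
    have h7 : (K + 1) * (c + 1) = K * (c + 1) + (c + 1) := by ring
    have h8 : m ≤ K * (c + 1) := by omega
    have h9 : K * (c + 1) < m + (c + 1) := by omega
    have h3 : ⌊-(m : ℝ) / (c + 1)⌋ = -(K : ℤ) := by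
      rw [Int.floor_eq_iff]
      constructor
      · rw [le_div_iff₀ hc]
        have h10 : (m : ℝ) ≤ (K : ℝ) * ((c : ℝ) + 1) := by exact_mod_cast h8
        push_cast
        linarith
      · rw [div_lt_iff₀ hc]
        have h10 : (K : ℝ) * ((c : ℝ) + 1) < (m : ℝ) + (c + 1) := by exact_mod_cast h9
        push_cast
        linarith
    rw [h3]; simp

@[simp] theorem ratVal_qfract (q : QCode) : ratVal (qfract q) = Int.fract (ratVal q) := by
  rw [qfract, ratVal_qsub, ratVal_qfloor, Int.self_sub_floor]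

/-! ### primitive recursiveness -/

theorem primrec_qnat : Primrec qnat := by
  unfold qnat
  exact Primrec.pair Primrec.id (Primrec.const (0, 0))

theorem primrec_qneg : Primrec qneg := by
  unfold qneg
  exact Primrec.pair (Primrec.fst.comp Primrec.snd)
    (Primrec.pair Primrec.fst (Primrec.snd.comp Primrec.snd))

section
variable {α : Type*} [Primcodable α]

theorem pr_num {f : α → QCode} (hf : Primrec f) : Primrec (fun x => (f x).1) := Primrec.fst.comp hf
theorem pr_neg {f : α → QCode} (hf : Primrec f) : Primrec (fun x => (f x).2.1) :=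
  Primrec.fst.comp (Primrec.snd.comp hf)
theorem pr_den {f : α → QCode} (hf : Primrec f) : Primrec (fun x => (f x).2.2) :=
  Primrec.snd.comp (Primrec.snd.comp hf)
theorem pr_add {f g : α → ℕ} (hf : Primrec f) (hg : Primrec g) : Primrec (fun x => f x + g x) :=
  Primrec.nat_add.comp hf hg
theorem pr_mul {f g : α → ℕ} (hf : Primrec f) (hg : Primrec g) : Primrec (fun x => f x * g x) :=
  Primrec.nat_mul.comp hf hg
theorem pr_sub {f g : α → ℕ} (hf : Primrec f) (hg : Primrec g) : Primrec (fun x => f x - g x) :=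
  Primrec.nat_sub.comp hf hg
theorem pr_succ {f : α → ℕ} (hf : Primrec f) : Primrec (fun x => f x + 1) :=
  Primrec.succ.comp hf
theorem pr_pow {f g : α → ℕ} (hf : Primrec f) (hg : Primrec g) : Primrec (fun x => f x ^ g x) := by
  have h : Primrec₂ (fun a n : ℕ => a ^ n) := by
    refine Primrec₂.of_eq (f := fun a n : ℕ => Nat.rec (motive := fun _ => ℕ) 1
      (fun _ r => r * a) n) ?_ ?_
    · refine Primrec.nat_rec (f := fun _ : ℕ => (1 : ℕ)) (g := fun (a : ℕ) (p : ℕ × ℕ) => p.2 * a)
        (Primrec.const 1) ?_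
      exact Primrec.nat_mul.comp (Primrec.snd.comp Primrec.snd) Primrec.fst
    · intro a n
      induction n with
      | zero => simp
      | succ n ih => simp only [pow_succ]; rw [← ih]
  exact h.comp hf hg

end

theorem primrec_qadd : Primrec₂ qadd := by
  have hf : Primrec (fun x : QCode × QCode => x.1) := Primrec.fst
  have hg : Primrec (fun x : QCode × QCode => x.2) := Primrec.snd
  unfold qadd
  exact (Primrec.pair (pr_add (pr_mul (pr_num hf) (pr_succ (pr_den hg)))
      (pr_mul (pr_num hg) (pr_succ (pr_den hf))))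
    (Primrec.pair (pr_add (pr_mul (pr_neg hf) (pr_succ (pr_den hg)))
      (pr_mul (pr_neg hg) (pr_succ (pr_den hf))))
      (pr_sub (pr_mul (pr_succ (pr_den hf)) (pr_succ (pr_den hg))) (Primrec.const 1)))).to₂

theorem primrec_qsub : Primrec₂ qsub := by
  unfold qsub
  exact primrec_qadd.comp Primrec.fst (primrec_qneg.comp Primrec.snd)

theorem primrec_qmul : Primrec₂ qmul := by
  have hf : Primrec (fun x : QCode × QCode => x.1) := Primrec.fst
  have hg : Primrec (fun x : QCode × QCode => x.2) := Primrec.snd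
  unfold qmul
  exact (Primrec.pair (pr_add (pr_mul (pr_num hf) (pr_num hg)) (pr_mul (pr_neg hf) (pr_neg hg)))
    (Primrec.pair (pr_add (pr_mul (pr_num hf) (pr_neg hg)) (pr_mul (pr_neg hf) (pr_num hg)))
      (pr_sub (pr_mul (pr_succ (pr_den hf)) (pr_succ (pr_den hg))) (Primrec.const 1)))).to₂

theorem primrec_qdivs : Primrec₂ qdivs := by
  have hf : Primrec (fun x : QCode × ℕ => x.1) := Primrec.fst
  have hg : Primrec (fun x : QCode × ℕ => x.2) := Primrec.snd
  unfold qdivs
  exact (Primrec.pair (pr_num hf) (Primrec.pair (pr_neg hf)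
      (pr_sub (pr_mul (pr_succ (pr_den hf)) (pr_succ hg)) (Primrec.const 1)))).to₂

theorem primrec_qleb : Primrec₂ qleb := by
  have hf : Primrec (fun x : QCode × QCode => x.1) := Primrec.fst
  have hg : Primrec (fun x : QCode × QCode => x.2) := Primrec.snd
  unfold qleb
  exact (PrimrecPred.decide (Primrec.nat_le.comp
    (pr_add (pr_mul (pr_num hf) (pr_succ (pr_den hg)))
      (pr_mul (pr_neg hg) (pr_succ (pr_den hf))))
    (pr_add (pr_mul (pr_num hg) (pr_succ (pr_den hf)))
      (pr_mul (pr_neg hf) (pr_succ (pr_den hg)))))).to₂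

theorem primrec_qmax : Primrec₂ qmax := by
  unfold qmax
  exact (Primrec.cond primrec_qleb Primrec.snd Primrec.fst).to₂

theorem primrec_qmin : Primrec₂ qmin := by
  unfold qmin
  exact (Primrec.cond primrec_qleb Primrec.fst Primrec.snd).to₂

theorem primrec_qabs : Primrec qabs := by
  unfold qabs
  exact primrec_qmax.comp Primrec.id primrec_qneg

theorem primrec_qpow : Primrec₂ qpow := by
  unfold qpow
  exact Primrec.nat_rec (f := fun _ : QCode => qnat 1)
    (g := fun (q : QCode) (p : ℕ × QCode) => qmul p.2 q)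
    (Primrec.const _) (primrec_qmul.comp (Primrec.snd.comp Primrec.snd) Primrec.fst)

theorem primrec_qsum : Primrec qsum := by
  unfold qsum
  exact Primrec.list_foldr (f := fun l : List QCode => l) (g := fun _ => qnat 0)
    (h := fun _ p => qadd p.1 p.2) Primrec.id (Primrec.const _)
    (primrec_qadd.comp (Primrec.fst.comp Primrec.snd) (Primrec.snd.comp Primrec.snd)).to₂

theorem primrec_qbd : Primrec qbd := by
  unfold qbd
  exact pr_add (pr_num Primrec.id) (pr_neg Primrec.id)

theorem primrec_qfloor : Primrec qfloor := by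
  have hf : Primrec (fun x : QCode => x) := Primrec.id
  unfold qfloor
  exact Primrec.pair (Primrec.nat_div.comp (pr_sub (pr_num hf) (pr_neg hf)) (pr_succ (pr_den hf)))
    (Primrec.pair (Primrec.nat_div.comp (pr_add (pr_sub (pr_neg hf) (pr_num hf)) (pr_den hf))
      (pr_succ (pr_den hf))) (Primrec.const 0))

theorem primrec_qfract : Primrec qfract := by
  unfold qfract
  exact primrec_qsub.comp Primrec.id primrec_qfloor

end Vale.Agent.P113
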