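import Vale.Agent.Lib.P113.Eff4
import Vale.Agent.Lib.P113.QCode

/-! # D3, second half: the compiler -/

open Set

namespace Vale.Agent.P113

/-! ### calculus of `pd4` -/

theorem pd4_contDiff {g : (Fin 4 → ℝ) → ℝ} (hg : ContDiff ℝ (⊤ : ℕ∞) g) (i : Fin 4) :
    ContDiff ℝ (⊤ : ℕ∞) (pd4 i g) := by
  have h1 : ContDiff ℝ (⊤ : ℕ∞) (fderiv ℝ g) := hg.fderiv_right (by simp)
  exact h1.clm_apply contDiff_const

theorem pd4_iter_contDiff {g : (Fin 4 → ℝ) → ℝ} (hg : ContDiff ℝ (⊤ : ℕ∞) g) (i : Fin 4) (n : ℕ) :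
    ContDiff ℝ (⊤ : ℕ∞) ((pd4 i)^[n] g) := by
  induction n with
  | zero => simpa using hg
  | succ n ih => rw [Function.iterate_succ', Function.comp_apply]; exact pd4_contDiff ih i

theorem pd4_comm {g : (Fin 4 → ℝ) → ℝ} (hg : ContDiff ℝ (⊤ : ℕ∞) g) (i j : Fin 4) :
    pd4 i (pd4 j g) = pd4 j (pd4 i g) := by
  have hd : Differentiable ℝ (fderiv ℝ g) :=
    (hg.fderiv_right (m := (⊤ : ℕ∞)) (by simp)).differentiable (by simp)
  have key : ∀ (i j : Fin 4) (w : Fin 4 → ℝ), pd4 i (pd4 j g) w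
      = fderiv ℝ (fderiv ℝ g) w (Pi.single i 1) (Pi.single j 1) := by
    intro i j w
    unfold pd4
    rw [fderiv_clm_apply (hd w) (differentiableAt_const _)]
    simp
  funext w
  rw [key, key]
  have hs : IsSymmSndFDerivAt ℝ g w :=
    (hg.contDiffAt (x := w)).isSymmSndFDerivAt (by
      rw [minSmoothness_of_isRCLikeNormedField]
      exact WithTop.coe_le_coe.2 (le_top : (2:ℕ∞) ≤ ⊤))
  exact hs _ _

theorem pd4_iter_comm {g : (Fin 4 → ℝ) → ℝ} (hg : ContDiff ℝ (⊤ : ℕ∞) g) (i j : Fin 4) (n : ℕ) :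
    (pd4 i)^[n] (pd4 j g) = pd4 j ((pd4 i)^[n] g) := by
  induction n with
  | zero => rfl
  | succ n ih =>
    rw [Function.iterate_succ_apply', ih, Function.iterate_succ_apply',
      pd4_comm (pd4_iter_contDiff hg i n)]

theorem pd4_add {g h : (Fin 4 → ℝ) → ℝ} (hg : ContDiff ℝ (⊤ : ℕ∞) g)
    (hh : ContDiff ℝ (⊤ : ℕ∞) h) (i : Fin 4) :
    pd4 i (fun w => g w + h w) = fun w => pd4 i g w + pd4 i h w := by
  funext w
  unfold pd4
  rw [fderiv_fun_add (hg.differentiable (by simp) w) (hh.differentiable (by simp) w)]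
  rfl

theorem pd4_const_mul {g : (Fin 4 → ℝ) → ℝ} (hg : ContDiff ℝ (⊤ : ℕ∞) g) (c : ℝ) (i : Fin 4) :
    pd4 i (fun w => c * g w) = fun w => c * pd4 i g w := by
  funext w
  unfold pd4
  rw [fderiv_const_mul (hg.differentiable (by simp) w)]
  rfl

theorem pd4_iter_lin {g h : (Fin 4 → ℝ) → ℝ} (hg : ContDiff ℝ (⊤ : ℕ∞) g)
    (hh : ContDiff ℝ (⊤ : ℕ∞) h) (c : ℝ) (i : Fin 4) (n : ℕ) :
    (pd4 i)^[n] (fun w => g w + c * h w) = fun w => (pd4 i)^[n] g w + c * (pd4 i)^[n] h w := by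
  induction n with
  | zero => rfl
  | succ n ih =>
    rw [Function.iterate_succ', Function.comp_apply, ih]
    have h1 := pd4_iter_contDiff hg i n
    have h2 := pd4_iter_contDiff hh i n
    rw [pd4_add h1 (contDiff_const.mul h2), pd4_const_mul h2]
    rfl

theorem mixed_contDiff {g : (Fin 4 → ℝ) → ℝ} (hg : ContDiff ℝ (⊤ : ℕ∞) g) (α : ℕ × ℕ × ℕ × ℕ) :
    ContDiff ℝ (⊤ : ℕ∞) (mixedDeriv α g) :=
  pd4_iter_contDiff (pd4_iter_contDiff (pd4_iter_contDiff (pd4_iter_contDiff hg _ _) _ _) _ _) _ _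

theorem mixed_lin {g h : (Fin 4 → ℝ) → ℝ} (hg : ContDiff ℝ (⊤ : ℕ∞) g)
    (hh : ContDiff ℝ (⊤ : ℕ∞) h) (c : ℝ) (α : ℕ × ℕ × ℕ × ℕ) :
    mixedDeriv α (fun w => g w + c * h w) = fun w => mixedDeriv α g w + c * mixedDeriv α h w := by
  unfold mixedDeriv
  rw [pd4_iter_lin hg hh]
  rw [pd4_iter_lin (pd4_iter_contDiff hg _ _) (pd4_iter_contDiff hh _ _)]
  rw [pd4_iter_lin (pd4_iter_contDiff (pd4_iter_contDiff hg _ _) _ _)
    (pd4_iter_contDiff (pd4_iter_contDiff hh _ _) _ _)]
  rw [pd4_iter_lin (pd4_iter_contDiff (pd4_iter_contDiff (pd4_iter_contDiff hg _ _) _ _) _ _)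
    (pd4_iter_contDiff (pd4_iter_contDiff (pd4_iter_contDiff hh _ _) _ _) _ _)]

theorem mixed_pd4_zero (g : (Fin 4 → ℝ) → ℝ) (hg : ContDiff ℝ (⊤ : ℕ∞) g) (a b c d : ℕ) :
    mixedDeriv (a, b, c, d) (pd4 0 g) = mixedDeriv (a + 1, b, c, d) g := by
  unfold mixedDeriv
  dsimp only
  rw [pd4_iter_comm hg, pd4_iter_comm (pd4_iter_contDiff hg _ _),
    pd4_iter_comm (pd4_iter_contDiff (pd4_iter_contDiff hg _ _) _ _),
    Function.iterate_succ, Function.comp_apply]

theorem mixed_pd4_one (g : (Fin 4 → ℝ) → ℝ) (hg : ContDiff ℝ (⊤ : ℕ∞) g) (a b c d : ℕ) :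
    mixedDeriv (a, b, c, d) (pd4 1 g) = mixedDeriv (a, b + 1, c, d) g := by
  unfold mixedDeriv
  dsimp only
  rw [pd4_iter_comm hg, pd4_iter_comm (pd4_iter_contDiff hg _ _),
    Function.iterate_succ (pd4 1), Function.comp_apply]

theorem mixed_pd4_two (g : (Fin 4 → ℝ) → ℝ) (hg : ContDiff ℝ (⊤ : ℕ∞) g) (a b c d : ℕ) :
    mixedDeriv (a, b, c, d) (pd4 2 g) = mixedDeriv (a, b, c + 1, d) g := by
  unfold mixedDeriv
  dsimp only
  rw [pd4_iter_comm hg, Function.iterate_succ (pd4 2), Function.comp_apply]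

theorem mixed_pd4_three (g : (Fin 4 → ℝ) → ℝ) (a b c d : ℕ) :
    mixedDeriv (a, b, c, d) (pd4 3 g) = mixedDeriv (a, b, c, d + 1) g := by
  unfold mixedDeriv
  dsimp only
  rw [Function.iterate_succ (pd4 3), Function.comp_apply]

/-! ### the force as a function of four variables -/

theorem time_deriv_eq {g : (Fin 4 → ℝ) → ℝ} (hg : ContDiff ℝ (⊤ : ℕ∞) g) (t x y z : ℝ) :
    deriv (fun s => g ![s, x, y, z]) t = pd4 0 g ![t, x, y, z] := by
  have h1 : HasDerivAt (fun s : ℝ => (![s, x, y, z] : Fin 4 → ℝ)) (Pi.single 0 1) t := by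
    rw [hasDerivAt_pi]
    intro i
    fin_cases i
    · have := hasDerivAt_id' t
      simpa using this
    · simpa using hasDerivAt_const t x
    · simpa using hasDerivAt_const t y
    · simpa using hasDerivAt_const t z
  have h2 := (hg.differentiable (by simp) ![t, x, y, z]).hasFDerivAt
  have h3 := h2.comp_hasDerivAt t h1
  exact h3.deriv

theorem space_pd_eq {g : (Fin 4 → ℝ) → ℝ} (hg : ContDiff ℝ (⊤ : ℕ∞) g) (t : ℝ) (j : Fin 3)
    (x : R3) :
    pd j (fun y => g ![t, y 0, y 1, y 2]) x = pd4 j.succ g ![t, x 0, x 1, x 2] := by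
  set M : R3 →L[ℝ] (Fin 4 → ℝ) := ContinuousLinearMap.pi
    ![0, ContinuousLinearMap.proj 0, ContinuousLinearMap.proj 1, ContinuousLinearMap.proj 2] with hM
  have h1 : HasFDerivAt (fun y : R3 => (![t, y 0, y 1, y 2] : Fin 4 → ℝ)) M x := by
    rw [hasFDerivAt_pi]
    intro i
    fin_cases i
    · simpa using hasFDerivAt_const t x
    · exact hasFDerivAt_apply (𝕜 := ℝ) (0 : Fin 3) x
    · exact hasFDerivAt_apply (𝕜 := ℝ) (1 : Fin 3) x
    · exact hasFDerivAt_apply (𝕜 := ℝ) (2 : Fin 3) x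
  have h2 := (hg.differentiable (by simp) ![t, x 0, x 1, x 2]).hasFDerivAt
  have h3 := h2.comp x h1
  unfold pd pd4
  have h4 : (fun y : R3 => g ![t, y 0, y 1, y 2]) = g ∘ fun y => ![t, y 0, y 1, y 2] := rfl
  rw [h4, h3.fderiv]
  simp only [ContinuousLinearMap.comp_apply]
  congr 1
  funext i
  fin_cases j <;> fin_cases i <;> simp [hM]

theorem vec4_eta (w : Fin 4 → ℝ) : ![w 0, w 1, w 2, w 3] = w := by
  funext i; fin_cases i <;> rfl

theorem force_eq (ν : ℝ) (L : Fin 3 → List TermCode) (i : Fin 3) :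
    (fun w : Fin 4 → ℝ => force ν L (w 0) ![w 1, w 2, w 3] i) = fun w =>
      pd4 0 (evalTerms (L i)) w + (-ν) * ((pd4 1 (pd4 1 (evalTerms (L i))) w
        + 1 * pd4 2 (pd4 2 (evalTerms (L i))) w) + 1 * pd4 3 (pd4 3 (evalTerms (L i))) w) := by
  have hG := evalTerms_contDiff (L i)
  funext w
  have h1 : deriv (fun s => vel L s ![w 1, w 2, w 3] i) (w 0) = pd4 0 (evalTerms (L i)) w := by
    have := time_deriv_eq hG (w 0) (w 1) (w 2) (w 3)
    rw [vec4_eta] at this
    exact this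
  have h2 : ∀ j : Fin 3, pd j (pd j (fun y => vel L (w 0) y i)) ![w 1, w 2, w 3]
      = pd4 j.succ (pd4 j.succ (evalTerms (L i))) w := by
    intro j
    have e1 : pd j (fun y => vel L (w 0) y i)
        = fun y : R3 => pd4 j.succ (evalTerms (L i)) ![w 0, y 0, y 1, y 2] :=
      funext fun y => space_pd_eq hG (w 0) j y
    rw [e1, space_pd_eq (pd4_contDiff hG _)]
    change pd4 j.succ (pd4 j.succ (evalTerms (L i))) ![w 0, w 1, w 2, w 3] = _
    rw [vec4_eta]
  unfold force
  rw [h1, Fin.sum_univ_three, h2, h2, h2]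
  change _ - ν * (pd4 1 (pd4 1 _) w + pd4 2 (pd4 2 _) w + pd4 3 (pd4 3 _) w) = _
  ring

theorem mixed_force (ν : ℝ) (L : Fin 3 → List TermCode) (i : Fin 3) (a b c d : ℕ)
    (w : Fin 4 → ℝ) :
    mixedDeriv (a, b, c, d) (fun w : Fin 4 → ℝ => force ν L (w 0) ![w 1, w 2, w 3] i) w =
      mixedDeriv (a + 1, b, c, d) (evalTerms (L i)) w
        - ν * (mixedDeriv (a, b + 2, c, d) (evalTerms (L i)) w
          + mixedDeriv (a, b, c + 2, d) (evalTerms (L i)) w
          + mixedDeriv (a, b, c, d + 2) (evalTerms (L i)) w) := by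
  have hG := evalTerms_contDiff (L i)
  have p0 := pd4_contDiff hG 0
  have p1 := pd4_contDiff (pd4_contDiff hG 1) 1
  have p2 := pd4_contDiff (pd4_contDiff hG 2) 2
  have p3 := pd4_contDiff (pd4_contDiff hG 3) 3
  rw [force_eq, mixed_lin p0 ((p1.add (contDiff_const.mul p2)).add (contDiff_const.mul p3))]
  rw [mixed_lin (p1.add (contDiff_const.mul p2)) p3, mixed_lin p1 p2]
  rw [mixed_pd4_zero _ hG, mixed_pd4_one _ (pd4_contDiff hG 1), mixed_pd4_one _ hG,
    mixed_pd4_two _ (pd4_contDiff hG 2), mixed_pd4_two _ hG, mixed_pd4_three, mixed_pd4_three]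
  ring

/-! ### the algorithm -/

/-- queries: component, multi-index, point, precision -/
abbrev Qry : Type := ℕ × (ℕ × ℕ × ℕ × ℕ) × (QCode × QCode × QCode × QCode) × ℕ

/-- inputs of the evaluator of term lists -/
abbrev EIn : Type := List TermCode × (ℕ × ℕ × ℕ × ℕ) × (QCode × QCode × QCode × QCode) × ℕ

section alg

variable (A : EIn → QCode) (L : Fin 3 → TMCode × List ℕ → List TermCode)

/-- select the component -/
def selL (x : (TMCode × List ℕ) × Qry) : List TermCode :=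
  bif decide (x.2.1 = 0) then L 0 x.1 else bif decide (x.2.1 = 1) then L 1 x.1 else L 2 x.1

/-- approximation of the time derivative term -/
def apT (x : ((TMCode × List ℕ) × Qry) × ℕ) : QCode :=
  A (selL L x.1, (x.1.2.2.1.1 + 1, x.1.2.2.1.2.1, x.1.2.2.1.2.2.1, x.1.2.2.1.2.2.2),
    x.1.2.2.2.1, x.2)

/-- approximation of the three second derivatives -/
def apX (x : ((TMCode × List ℕ) × Qry) × ℕ) : QCode :=
  A (selL L x.1, (x.1.2.2.1.1, x.1.2.2.1.2.1 + 2, x.1.2.2.1.2.2.1, x.1.2.2.1.2.2.2),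
    x.1.2.2.2.1, x.2)

def apY (x : ((TMCode × List ℕ) × Qry) × ℕ) : QCode :=
  A (selL L x.1, (x.1.2.2.1.1, x.1.2.2.1.2.1, x.1.2.2.1.2.2.1 + 2, x.1.2.2.1.2.2.2),
    x.1.2.2.2.1, x.2)

def apZ (x : ((TMCode × List ℕ) × Qry) × ℕ) : QCode :=
  A (selL L x.1, (x.1.2.2.1.1, x.1.2.2.1.2.1, x.1.2.2.1.2.2.1, x.1.2.2.1.2.2.2 + 2),
    x.1.2.2.2.1, x.2)

/-- the Laplacian -/
def apS (x : ((TMCode × List ℕ) × Qry) × ℕ) : QCode :=
  qadd (qadd (apX A L x) (apY A L x)) (apZ A L x)

/-- precision used -/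
def prec (V : ℕ) (x : (TMCode × List ℕ) × Qry) : ℕ :=
  (1 + 3 * V + (qbd (apS A L (x, 0)) + 3)) * (x.2.2.2.2 + 1)

/-- combination with an approximation `r` of the viscosity -/
def comb (x : ((TMCode × List ℕ) × Qry) × ℕ × QCode) : QCode :=
  qsub (apT A L (x.1, x.2.1)) (qmul x.2.2 (apS A L (x.1, x.2.1)))

/-- the full approximation -/
def full (g : ℕ → QCode) (V : ℕ) (x : (TMCode × List ℕ) × Qry) : QCode :=
  comb A L (x, prec A L V x, g (prec A L V x))

variable {A L}

theorem primrec_selL (hL : ∀ i, Primrec (L i)) : Primrec (selL L) := by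
  unfold selL
  have h1 : Primrec fun x : (TMCode × List ℕ) × Qry => x.1 := Primrec.fst
  have h2 : Primrec fun x : (TMCode × List ℕ) × Qry => x.2.1 := Primrec.fst.comp Primrec.snd
  have hd : ∀ n : ℕ, Primrec fun x : (TMCode × List ℕ) × Qry => decide (x.2.1 = n) := fun n =>
    (Primrec.eq.comp h2 (Primrec.const n)).decide
  exact Primrec.cond (hd 0) ((hL 0).comp h1) (Primrec.cond (hd 1) ((hL 1).comp h1) ((hL 2).comp h1))

section
variable (hA : Primrec A) (hL : ∀ i, Primrec (L i))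
include hA hL

theorem primrec_apT : Primrec (apT A L) := by
  unfold apT
  have hx : Primrec fun x : ((TMCode × List ℕ) × Qry) × ℕ => x.1 := Primrec.fst
  have hα : Primrec fun x : ((TMCode × List ℕ) × Qry) × ℕ => x.1.2.2.1 :=
    Primrec.fst.comp (Primrec.snd.comp (Primrec.snd.comp hx))
  have hp : Primrec fun x : ((TMCode × List ℕ) × Qry) × ℕ => x.1.2.2.2.1 :=
    Primrec.fst.comp (Primrec.snd.comp (Primrec.snd.comp (Primrec.snd.comp hx)))
  have ha := Primrec.fst.comp hα
  have hb := Primrec.fst.comp (Primrec.snd.comp hα)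
  have hc := Primrec.fst.comp (Primrec.snd.comp (Primrec.snd.comp hα))
  have hd := Primrec.snd.comp (Primrec.snd.comp (Primrec.snd.comp hα))
  exact hA.comp (((primrec_selL hL).comp hx).pair
    (((Primrec.succ.comp ha).pair (hb.pair (hc.pair hd))).pair (hp.pair Primrec.snd)))

theorem primrec_apX : Primrec (apX A L) := by
  unfold apX
  have hx : Primrec fun x : ((TMCode × List ℕ) × Qry) × ℕ => x.1 := Primrec.fst
  have hα : Primrec fun x : ((TMCode × List ℕ) × Qry) × ℕ => x.1.2.2.1 :=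
    Primrec.fst.comp (Primrec.snd.comp (Primrec.snd.comp hx))
  have hp : Primrec fun x : ((TMCode × List ℕ) × Qry) × ℕ => x.1.2.2.2.1 :=
    Primrec.fst.comp (Primrec.snd.comp (Primrec.snd.comp (Primrec.snd.comp hx)))
  have ha := Primrec.fst.comp hα
  have hb := Primrec.fst.comp (Primrec.snd.comp hα)
  have hc := Primrec.fst.comp (Primrec.snd.comp (Primrec.snd.comp hα))
  have hd := Primrec.snd.comp (Primrec.snd.comp (Primrec.snd.comp hα))
  exact hA.comp (((primrec_selL hL).comp hx).pair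
    ((ha.pair ((pr_add hb (Primrec.const 2)).pair (hc.pair hd))).pair (hp.pair Primrec.snd)))

theorem primrec_apY : Primrec (apY A L) := by
  unfold apY
  have hx : Primrec fun x : ((TMCode × List ℕ) × Qry) × ℕ => x.1 := Primrec.fst
  have hα : Primrec fun x : ((TMCode × List ℕ) × Qry) × ℕ => x.1.2.2.1 :=
    Primrec.fst.comp (Primrec.snd.comp (Primrec.snd.comp hx))
  have hp : Primrec fun x : ((TMCode × List ℕ) × Qry) × ℕ => x.1.2.2.2.1 :=
    Primrec.fst.comp (Primrec.snd.comp (Primrec.snd.comp (Primrec.snd.comp hx)))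
  have ha := Primrec.fst.comp hα
  have hb := Primrec.fst.comp (Primrec.snd.comp hα)
  have hc := Primrec.fst.comp (Primrec.snd.comp (Primrec.snd.comp hα))
  have hd := Primrec.snd.comp (Primrec.snd.comp (Primrec.snd.comp hα))
  exact hA.comp (((primrec_selL hL).comp hx).pair
    ((ha.pair (hb.pair ((pr_add hc (Primrec.const 2)).pair hd))).pair (hp.pair Primrec.snd)))

theorem primrec_apZ : Primrec (apZ A L) := by
  unfold apZ
  have hx : Primrec fun x : ((TMCode × List ℕ) × Qry) × ℕ => x.1 := Primrec.fst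
  have hα : Primrec fun x : ((TMCode × List ℕ) × Qry) × ℕ => x.1.2.2.1 :=
    Primrec.fst.comp (Primrec.snd.comp (Primrec.snd.comp hx))
  have hp : Primrec fun x : ((TMCode × List ℕ) × Qry) × ℕ => x.1.2.2.2.1 :=
    Primrec.fst.comp (Primrec.snd.comp (Primrec.snd.comp (Primrec.snd.comp hx)))
  have ha := Primrec.fst.comp hα
  have hb := Primrec.fst.comp (Primrec.snd.comp hα)
  have hc := Primrec.fst.comp (Primrec.snd.comp (Primrec.snd.comp hα))
  have hd := Primrec.snd.comp (Primrec.snd.comp (Primrec.snd.comp hα))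
  exact hA.comp (((primrec_selL hL).comp hx).pair
    ((ha.pair (hb.pair (hc.pair (pr_add hd (Primrec.const 2))))).pair (hp.pair Primrec.snd)))

theorem primrec_apS : Primrec (apS A L) := by
  unfold apS
  exact primrec_qadd.comp (primrec_qadd.comp (primrec_apX hA hL) (primrec_apY hA hL))
    (primrec_apZ hA hL)

theorem primrec_prec (V : ℕ) : Primrec (prec A L V) := by
  unfold prec
  have h0 : Primrec fun x : (TMCode × List ℕ) × Qry => apS A L (x, 0) :=
    (primrec_apS hA hL).comp (Primrec.id.pair (Primrec.const 0))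
  have hk : Primrec fun x : (TMCode × List ℕ) × Qry => x.2.2.2.2 :=
    Primrec.snd.comp (Primrec.snd.comp (Primrec.snd.comp Primrec.snd))
  exact pr_mul (pr_add (Primrec.const (1 + 3 * V)) (pr_add (primrec_qbd.comp h0) (Primrec.const 3)))
    (pr_succ hk)

theorem primrec_comb : Primrec (comb A L) := by
  unfold comb
  have h1 : Primrec fun x : ((TMCode × List ℕ) × Qry) × ℕ × QCode => (x.1, x.2.1) :=
    Primrec.fst.pair (Primrec.fst.comp Primrec.snd)
  exact primrec_qsub.comp ((primrec_apT hA hL).comp h1)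
    (primrec_qmul.comp (Primrec.snd.comp Primrec.snd) ((primrec_apS hA hL).comp h1))

theorem computable_full {g : ℕ → QCode} (hg : Computable g) (V : ℕ) :
    Computable (full A L g V) := by
  unfold full
  have hp : Computable (prec A L V) := (primrec_prec hA hL V).to_comp
  exact (primrec_comb hA hL).to_comp.comp (Computable.id.pair (hp.pair (hg.comp hp)))

end

end alg

/-- Error analysis. -/
theorem error_bound {ν D S D' S' r : ℝ} {V M k : ℕ} {K : ℕ} (hK : K = (1 + 3 * V + M) * (k + 1))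
    (hD : |D' - D| ≤ 1 / ((K : ℝ) + 1)) (hS : |S' - S| ≤ 3 * (1 / ((K : ℝ) + 1)))
    (hr : |r - ν| ≤ 1 / ((K : ℝ) + 1)) (hrV : |r| ≤ V) (hSM : |S| ≤ M) :
    |(D' - r * S') - (D - ν * S)| ≤ 1 / ((k : ℝ) + 1) := by
  have e : (D' - r * S') - (D - ν * S) = (D' - D) - r * (S' - S) - (r - ν) * S := by ring
  rw [e]
  have h1 : |(D' - D) - r * (S' - S) - (r - ν) * S|
      ≤ |D' - D| + |r| * |S' - S| + |r - ν| * |S| := by
    rw [← abs_mul, ← abs_mul]
    exact (abs_sub _ _).trans (add_le_add_left (abs_sub _ _) _)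
  have hK0 : (0:ℝ) < (K : ℝ) + 1 := by positivity
  have h2 : |D' - D| + |r| * |S' - S| + |r - ν| * |S|
      ≤ 1 / ((K : ℝ) + 1) + V * (3 * (1 / ((K : ℝ) + 1))) + 1 / ((K : ℝ) + 1) * M := by
    gcongr
  refine h1.trans (h2.trans ?_)
  have e2 : 1 / ((K : ℝ) + 1) + V * (3 * (1 / ((K : ℝ) + 1))) + 1 / ((K : ℝ) + 1) * M
      = (1 + 3 * V + M) / ((K : ℝ) + 1) := by ring
  rw [e2, div_le_div_iff₀ hK0 (by positivity), hK]
  push_cast
  linarith

/-- D3 goal. -/
theorem compile_exists {ν : ℝ} (hν : IsComputableReal ν)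
    (L : Fin 3 → TMCode × List ℕ → List TermCode) (hL : ∀ i, Primrec (L i)) :
    ∃ compile : TMCode × List ℕ → Nat.Partrec.Code, Computable compile ∧
      ∀ a, IsProgramFor (compile a) (force ν (fun i => L i a)) := by
  obtain ⟨g, hg, hgν⟩ := hν
  obtain ⟨A, hA, hAspec⟩ := evalTerms_eff
  set V : ℕ := qbd (g 0) + 2 with hV
  have hrV : ∀ K, |ratVal (g K)| ≤ V := by
    intro K
    have h1 := hgν K
    have h2 := hgν 0
    have h3 := abs_ratVal_le (g 0)
    have h4 : 1 / ((K : ℝ) + 1) ≤ 1 := by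
      rw [div_le_one (by positivity)]; linarith [Nat.cast_nonneg (α := ℝ) K]
    have h5 : 1 / (((0 : ℕ) : ℝ) + 1) = 1 := by norm_num
    rw [h5] at h2
    have e : ratVal (g K) = (ratVal (g K) - ν) - (ratVal (g 0) - ν) + ratVal (g 0) := by ring
    rw [e, hV]
    push_cast
    calc |(ratVal (g K) - ν) - (ratVal (g 0) - ν) + ratVal (g 0)|
        ≤ |ratVal (g K) - ν| + |ratVal (g 0) - ν| + |ratVal (g 0)| :=
          (abs_add_le _ _).trans (add_le_add_left (abs_sub _ _) _)
      _ ≤ _ := by linarith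
  have hcomp : Computable (full A L g V) := computable_full hA hL hg V
  obtain ⟨c, hc⟩ := Nat.Partrec.Code.exists_code.1 hcomp
  refine ⟨fun a => Nat.Partrec.Code.curry c (Encodable.encode a), ?_, ?_⟩
  · exact (Nat.Partrec.Code.primrec₂_curry.comp (Primrec.const c) Primrec.encode).to_comp
  · intro a i α t x y z k
    obtain ⟨α0, α1, α2, α3⟩ := α
    set q : Qry := (i.val, (α0, α1, α2, α3), (t, x, y, z), k) with hq
    refine ⟨full A L g V (a, q), ?_, ?_⟩
    · rw [Nat.Partrec.Code.eval_curry, hc]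
      change Encodable.encode (full A L g V (a, q)) ∈
        (Part.ofOption (Encodable.decode (α := (TMCode × List ℕ) × Qry)
          (Encodable.encode (a, q)))).bind
            fun b => Part.map Encodable.encode (Part.some (full A L g V b))
      rw [Encodable.encodek]
      simp
    · rw [mixed_force]
      have hsel : selL L (a, q) = L i a := by
        fin_cases i <;> rfl
      set w : Fin 4 → ℝ := ![ratVal t, ratVal x, ratVal y, ratVal z] with hw
      set K := prec A L V (a, q) with hK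
      have hT := hAspec (L i a) (α0 + 1, α1, α2, α3) t x y z K
      have hX : ∀ K, |ratVal (apX A L ((a, q), K)) - mixedDeriv (α0, α1 + 2, α2, α3)
          (evalTerms (L i a)) w| ≤ 1 / ((K : ℝ) + 1) := by
        intro K
        have := hAspec (L i a) (α0, α1 + 2, α2, α3) t x y z K
        rw [apX, hsel]; exact this
      have hY : ∀ K, |ratVal (apY A L ((a, q), K)) - mixedDeriv (α0, α1, α2 + 2, α3)
          (evalTerms (L i a)) w| ≤ 1 / ((K : ℝ) + 1) := by
        intro K
        have := hAspec (L i a) (α0, α1, α2 + 2, α3) t x y z K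
        rw [apY, hsel]; exact this
      have hZ : ∀ K, |ratVal (apZ A L ((a, q), K)) - mixedDeriv (α0, α1, α2, α3 + 2)
          (evalTerms (L i a)) w| ≤ 1 / ((K : ℝ) + 1) := by
        intro K
        have := hAspec (L i a) (α0, α1, α2, α3 + 2) t x y z K
        rw [apZ, hsel]; exact this
      set S := mixedDeriv (α0, α1 + 2, α2, α3) (evalTerms (L i a)) w
          + mixedDeriv (α0, α1, α2 + 2, α3) (evalTerms (L i a)) w
          + mixedDeriv (α0, α1, α2, α3 + 2) (evalTerms (L i a)) w with hSdef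
      have hS : ∀ K, |ratVal (apS A L ((a, q), K)) - S| ≤ 3 * (1 / ((K : ℝ) + 1)) := by
        intro K
        have e : ratVal (apS A L ((a, q), K)) - S =
            (ratVal (apX A L ((a, q), K)) - mixedDeriv (α0, α1 + 2, α2, α3) (evalTerms (L i a)) w)
            + (ratVal (apY A L ((a, q), K)) - mixedDeriv (α0, α1, α2 + 2, α3) (evalTerms (L i a)) w)
            + (ratVal (apZ A L ((a, q), K))
              - mixedDeriv (α0, α1, α2, α3 + 2) (evalTerms (L i a)) w) := by
          rw [apS, ratVal_qadd, ratVal_qadd, hSdef]; ring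
        rw [e]
        refine (abs_add_le _ _).trans ?_
        have := abs_add_le
          (ratVal (apX A L ((a, q), K)) - mixedDeriv (α0, α1 + 2, α2, α3) (evalTerms (L i a)) w)
          (ratVal (apY A L ((a, q), K)) - mixedDeriv (α0, α1, α2 + 2, α3) (evalTerms (L i a)) w)
        linarith [hX K, hY K, hZ K]
      have hSM : |S| ≤ ((qbd (apS A L ((a, q), 0)) + 3 : ℕ) : ℝ) := by
        have h1 := hS 0
        have h2 := abs_ratVal_le (apS A L ((a, q), 0))
        have h5 : 3 * (1 / (((0 : ℕ) : ℝ) + 1)) = 3 := by norm_num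
        rw [h5] at h1
        have e : S = ratVal (apS A L ((a, q), 0)) - (ratVal (apS A L ((a, q), 0)) - S) := by ring
        rw [e]
        push_cast
        exact (abs_sub _ _).trans (by linarith)
      have hKval : K = (1 + 3 * V + (qbd (apS A L ((a, q), 0)) + 3)) * (k + 1) := rfl
      have hD : |ratVal (apT A L ((a, q), K)) - mixedDeriv (α0 + 1, α1, α2, α3)
          (evalTerms (L i a)) w| ≤ 1 / ((K : ℝ) + 1) := by
        rw [apT, hsel]; exact hT
      have hfin := error_bound hKval hD (hS K) (hgν K) (hrV K) hSM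
      have e : ratVal (full A L g V (a, q)) = ratVal (apT A L ((a, q), K))
          - ratVal (g K) * ratVal (apS A L ((a, q), K)) := by
        rw [full, comb, ratVal_qsub, ratVal_qmul]
      rw [e]
      exact hfin

end Vale.Agent.P113
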