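import Mathlib

/-!
# P113, second formulation: definitions

Fields on the flat torus are functions on `UnitAddTorus (Fin 3)`; partial derivatives are taken on the torus itself.
-/

open Set MeasureTheory

namespace Vale.Agent.P113D2

/-- The universal cover `ℝ³`; also velocity vectors. -/
abbrev V3 : Type := Fin 3 → ℝ

/-- The flat torus `𝕋³ = (ℝ/ℤ)³`. -/
abbrev Torus3 : Type := UnitAddTorus (Fin 3)

/-- The covering map `ℝ³ → 𝕋³`. -/
def cov (x : V3) : Torus3 := fun i => (x i : UnitAddCircle)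

/-- The lift to `ℝ³` of a function on `𝕋³`. -/
def lift {β : Type} (g : Torus3 → β) (x : V3) : β := g (cov x)

/-- `g` is smooth on `ℝ × 𝕋³`. -/
def SmoothOnTorus {β : Type} [NormedAddCommGroup β] [NormedSpace ℝ β] (g : ℝ → Torus3 → β) : Prop :=
  ContDiff ℝ (⊤ : ℕ∞) (fun z : ℝ × V3 => lift (g z.1) z.2)

/-- The partial derivative `∂ᵢ g` of a function on `𝕋³`. -/
noncomputable def D (i : Fin 3) (g : Torus3 → ℝ) (θ : Torus3) : ℝ :=
  deriv (fun s : ℝ => g (θ + Pi.single i (s : UnitAddCircle))) 0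

/-- The time derivative on `[0,T]`. -/
noncomputable def Dt (T : ℝ) (g : ℝ → Torus3 → ℝ) (t : ℝ) (θ : Torus3) : ℝ :=
  derivWithin (fun s => g s θ) (Icc 0 T) t

/-- Continuity on `[0,T] × 𝕋³`. -/
def Cont (T : ℝ) (g : ℝ → Torus3 → ℝ) : Prop :=
  ContinuousOn (fun z : ℝ × Torus3 => g z.1 z.2) (Icc 0 T ×ˢ univ)

/-- `(u, p)` is a classical solution on `[0,T] × 𝕋³` of
`∂ₜ u + (u · ∇) u = - ∇ p + ν Δ u + f`, `div u = 0`, `u(0) = 0`, with `p` of spatial mean zero: `u`, `∂ₜ u`, the
spatial derivatives of `u` up to order two, `p` and `∇ p` exist and are continuous on `[0,T] × 𝕋³`, and the equations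
hold pointwise. -/
structure SolvesOn (ν T : ℝ) (f u : ℝ → Torus3 → V3) (p : ℝ → Torus3 → ℝ) : Prop where
  velocity : ∀ j, Cont T (fun t θ => u t θ j)
  time : ∀ j θ, DifferentiableOn ℝ (fun t => u t θ j) (Icc 0 T)
  time_cont : ∀ j, Cont T (Dt T fun t θ => u t θ j)
  space : ∀ t ∈ Icc 0 T, ∀ j, ContDiff ℝ 2 (lift fun θ => u t θ j)
  space_cont : ∀ i j, Cont T (fun t => D i fun θ => u t θ j)
  space_cont_two : ∀ i k j, Cont T (fun t => D i (D k fun θ => u t θ j))
  pressure : Cont T p
  pressure_space : ∀ t ∈ Icc 0 T, ContDiff ℝ 1 (lift (p t))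
  pressure_cont : ∀ i, Cont T (fun t => D i (p t))
  mean : ∀ t ∈ Icc 0 T, ∫ θ, p t θ = 0
  rest : ∀ θ, u 0 θ = 0
  incompressible : ∀ t ∈ Icc 0 T, ∀ θ, ∑ i, D i (fun θ => u t θ i) θ = 0
  momentum : ∀ t ∈ Icc 0 T, ∀ θ j,
    Dt T (fun t θ => u t θ j) t θ + ∑ i, u t θ i * D i (fun θ => u t θ j) θ =
      - D j (p t) θ + ν * ∑ i, D i (D i fun θ => u t θ j) θ + f t θ j

/-- `X` is the trajectory of `a`: `X 0 = a` and `X' = u(t, X)` for `t ≥ 0`; the derivative of the curve `X` in `𝕋³` is the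
derivative of a lift of `X` to `ℝ³`. -/
def IsPath (u : ℝ → Torus3 → V3) (a : Torus3) (X : ℝ → Torus3) : Prop :=
  X 0 = a ∧ ∃ Y : ℝ → V3, (∀ t, 0 ≤ t → cov (Y t) = X t) ∧
    ∀ t, 0 ≤ t → HasDerivWithinAt Y (u t (X t)) (Ici 0) t

/-! ## Machines -/

/-- A deterministic one-tape Turing machine with states `0, …, q` (some of them halting) and alphabet `0, …, s` (`0` is
the blank); `δ` gives the new state, the written symbol and the move (`none`: the head stays). -/
structure Machine : Type where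
  /-- largest state -/
  q : ℕ
  /-- largest symbol -/
  s : ℕ
  /-- initial state -/
  q₀ : Fin (q + 1)
  /-- halting states -/
  halt : Finset (Fin (q + 1))
  /-- transition function -/
  δ : Fin (q + 1) → Fin (s + 1) → Fin (q + 1) × Fin (s + 1) × Option Turing.Dir

/-- Moving the head. -/
def moveHead {Γ : Type} [Inhabited Γ] : Option Turing.Dir → Turing.Tape Γ → Turing.Tape Γ
  | none, t => t
  | some d, t => t.move d

/-- One step. -/
def Machine.step (M : Machine) (c : Fin (M.q + 1) × Turing.Tape (Fin (M.s + 1))) :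
    Fin (M.q + 1) × Turing.Tape (Fin (M.s + 1)) :=
  let r := M.δ c.1 c.2.head
  (r.1, moveHead r.2.2 (c.2.write r.2.1))

/-- `M` halts on the input `w`: started in the state `q₀` with the head on the first cell of `w` (and blanks elsewhere) it
reaches a halting state after finitely many steps, possibly none. -/
def Machine.Halts (M : Machine) (w : List (Fin (M.s + 1))) : Prop :=
  ∃ k : ℕ, ((M.step)^[k] (M.q₀, Turing.Tape.mk₁ w)).1 ∈ M.halt

/-- The number of a move. -/
def dirCode : Option Turing.Dir → ℕ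
  | some Turing.Dir.left => 0
  | none => 1
  | some Turing.Dir.right => 2

/-- The description of a machine as finite data: `q`, `s`, `q₀`, the table of the halting states, the transition table. -/
def Machine.description (M : Machine) : ℕ × ℕ × ℕ × List Bool × List (List (ℕ × ℕ × ℕ)) :=
  (M.q, M.s, M.q₀, List.ofFn fun i => decide (i ∈ M.halt),
    List.ofFn fun i => List.ofFn fun a => ((M.δ i a).1.val, (M.δ i a).2.1.val, dirCode (M.δ i a).2.2))

/-! ## Effectivity -/

/-- The rational number `z / (n + 1)` with the code `(z, n)`. -/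
noncomputable def rat (r : ℤ × ℕ) : ℝ := (r.1 : ℝ) / ((r.2 : ℝ) + 1)

/-- A computable real number. -/
def ComputableReal (ν : ℝ) : Prop :=
  ∃ c : Nat.Partrec.Code, ∀ k : ℕ, ∃ r : ℤ × ℕ, Encodable.encode r ∈ c.eval k ∧
    |rat r - ν| ≤ (1 / 2 : ℝ) ^ k

/-- The mixed derivative `∂ₜ^(α 0) ∂₁^(α 1) ∂₂^(α 2) ∂₃^(α 3) g` of a function `g` on `ℝ × 𝕋³`. -/
noncomputable def mixed (α : Fin 4 → ℕ) (g : ℝ → Torus3 → ℝ) : ℝ → Torus3 → ℝ :=
  (fun h t θ => deriv (fun s => h s θ) t)^[α 0]
    ((fun h t => D 0 (h t))^[α 1] ((fun h t => D 1 (h t))^[α 2] ((fun h t => D 2 (h t))^[α 3] g)))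

/-- The program `c` computes `f`: for every component `i`, every mixed derivative `α`, every rational point
`(t, x₀, x₁, x₂)` and every rational accuracy `e > 0` it returns a rational number within `e` of the value at this point
of this mixed derivative of this component of `f`. -/
def Computes (c : Nat.Partrec.Code) (f : ℝ → Torus3 → V3) : Prop :=
  ∀ (i : Fin 3) (α : Fin 4 → ℕ) (t x₀ x₁ x₂ e : ℤ × ℕ), 0 < rat e →
    ∃ r : ℤ × ℕ,
      Encodable.encode r ∈ c.eval (Encodable.encode
        (i.val, (α 0, α 1, α 2, α 3), (t, x₀, x₁, x₂), e)) ∧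
      |rat r - mixed α (fun t θ => f t θ i) (rat t) (cov ![rat x₀, rat x₁, rat x₂])| ≤ rat e

/-- The algorithm `A` is a force compiler for the forces `f M w`: on every pair `(M, w)` it halts and outputs a program that
computes the smooth force `f M w`, and for some `T₀` independent of `(M, w)` the restriction of `f M w` to `t ≥ T₀` is
periodic in time and does not depend on `w`. -/
def Compiles (A : Nat.Partrec.Code)
    (f : (M : Machine) → List (Fin (M.s + 1)) → ℝ → Torus3 → V3) : Prop :=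
  (∀ M w, SmoothOnTorus (f M w)) ∧
  (∀ M w, ∃ c : Nat.Partrec.Code,
    Encodable.encode c ∈ A.eval (Encodable.encode (M.description, w.map Fin.val)) ∧
      Computes c (f M w)) ∧
  ∃ T₀ : ℝ, ∀ M : Machine, (∃ P : ℝ, 0 < P ∧ ∀ w, ∀ t, T₀ ≤ t → f M w (t + P) = f M w t) ∧
    ∀ w w' t, T₀ ≤ t → f M w t = f M w' t

end Vale.Agent.P113D2
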