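import Vale.Agent.Lib.P113.Defs
import Vale.Agent.Lib.P113.D2Defs

/-!
# P113, second formulation: machines and programs
-/

open Set

namespace Vale.Agent.P113D2

open Vale.Agent.P113

/-- translation of the moves -/
def toMove : Option Turing.Dir → Move
  | some Turing.Dir.left => Move.left
  | none => Move.stay
  | some Turing.Dir.right => Move.right

/-- translation of the machines -/
abbrev toTM (M : Machine) : TM where
  n := M.q
  m := M.s
  start := M.q₀
  halting := fun i => decide (i ∈ M.halt)
  step := fun i a => ((M.δ i a).1, (M.δ i a).2.1, toMove (M.δ i a).2.2)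

theorem toTM_code (M : Machine) : (toTM M).code = M.description := by
  have h : ∀ d, (toMove d).code = dirCode d := by
    intro d
    rcases d with _ | d
    · rfl
    · cases d <;> rfl
  unfold TM.code Machine.description
  simp only [toTM, h]

/-- the simulation relation -/
def Sim (M : Machine) (c : Config (toTM M)) (d : Fin (M.q + 1) × Turing.Tape (Fin (M.s + 1))) :
    Prop :=
  c.state = d.1 ∧ ∀ i : ℤ, c.tape (c.head + i) = d.2.nth i

theorem sim_step {M : Machine} {c : Config (toTM M)}
    {d : Fin (M.q + 1) × Turing.Tape (Fin (M.s + 1))} (h : Sim M c d) :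
    Sim M ((toTM M).next c) (M.step d) := by
  obtain ⟨h1, h2⟩ := h
  have h3 : c.tape c.head = d.2.head := by
    have := h2 0
    rwa [add_zero, Turing.Tape.nth_zero] at this
  have h4 : (toTM M).step c.state (c.tape c.head) =
      ((M.δ d.1 d.2.head).1, (M.δ d.1 d.2.head).2.1, toMove (M.δ d.1 d.2.head).2.2) := by
    rw [h1, h3]
  have h5 : ∀ i : ℤ, Function.update c.tape c.head (M.δ d.1 d.2.head).2.1 (c.head + i) =
      (d.2.write (M.δ d.1 d.2.head).2.1).nth i := by
    intro i
    rw [Turing.Tape.write_nth]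
    by_cases hi : i = 0
    · subst hi
      rw [add_zero, Function.update_self, if_pos rfl]
    · rw [if_neg hi, Function.update_of_ne (by simpa using hi)]
      exact h2 i
  constructor
  · unfold TM.next Machine.step
    rw [h4]
  · intro i
    unfold TM.next Machine.step
    rw [h4]
    simp only
    rcases (M.δ d.1 d.2.head).2.2 with _ | d'
    · simp only [toMove, Move.shift, moveHead]
      rw [add_zero]
      exact h5 i
    · cases d'
      · simp only [toMove, Move.shift, moveHead]
        rw [Turing.Tape.move_left_nth, ← h5 (i - 1)]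
        congr 1
        ring
      · simp only [toMove, Move.shift, moveHead]
        rw [Turing.Tape.move_right_nth, ← h5 (i + 1)]
        congr 1
        ring

theorem sim_init (M : Machine) (w : List (Fin (M.s + 1))) :
    Sim M ((toTM M).init w) (M.q₀, Turing.Tape.mk₁ w) := by
  refine ⟨rfl, fun i => ?_⟩
  have h0 : ((toTM M).init w).head + i = i := by
    change (0 : ℤ) + i = i
    rw [zero_add]
  rw [h0]
  change (if 0 ≤ i then w.getD i.toNat 0 else 0) = (Turing.Tape.mk₁ w).nth i
  rcases i with n | n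
  · rw [if_pos (show (0 : ℤ) ≤ Int.ofNat n from Int.natCast_nonneg n)]
    have h1 : (Turing.Tape.mk₁ w).nth (Int.ofNat n) = (Turing.ListBlank.mk w).nth n := by
      unfold Turing.Tape.mk₁ Turing.Tape.mk₂
      exact Turing.Tape.mk'_nth_nat _ _ n
    rw [h1, Turing.ListBlank.nth_mk]
    rfl
  · rw [if_neg (by exact not_le.2 (Int.negSucc_lt_zero n))]
    unfold Turing.Tape.mk₁ Turing.Tape.mk₂ Turing.Tape.mk'
    change 0 = (Turing.ListBlank.mk ([] : List (Fin (M.s + 1)))).nth n
    rw [Turing.ListBlank.nth_mk]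
    rfl

theorem halts_iff (M : Machine) (w : List (Fin (M.s + 1))) : (toTM M).HaltsOn w ↔ M.Halts w := by
  have h : ∀ k : ℕ, Sim M (((toTM M).next)^[k] ((toTM M).init w))
      ((M.step)^[k] (M.q₀, Turing.Tape.mk₁ w)) := by
    intro k
    induction k with
    | zero => exact sim_init M w
    | succ k ih =>
      rw [Function.iterate_succ_apply', Function.iterate_succ_apply']
      exact sim_step ih
  unfold TM.HaltsOn Machine.Halts
  refine exists_congr fun k => ?_
  have h1 := (h k).1
  rw [h1]
  exact decide_eq_true_iff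

/-! ## Rational numbers -/

/-- conversion of the codes of rational numbers -/
def inQ (r : ℤ × ℕ) : QCode := (r.1.toNat, (-r.1).toNat, r.2)

/-- conversion of the codes of rational numbers -/
def outQ (r : QCode) : ℤ × ℕ := ((r.1 : ℤ) - (r.2.1 : ℤ), r.2.2)

theorem ratVal_inQ (r : ℤ × ℕ) : ratVal (inQ r) = rat r := by
  unfold ratVal inQ rat
  have h : ((r.1.toNat : ℤ) : ℝ) - (((-r.1).toNat : ℤ) : ℝ) = (r.1 : ℝ) := by
    rw [← Int.cast_sub, Int.toNat_sub_toNat_neg]
  simp only [Int.cast_natCast] at h
  rw [h]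

theorem rat_outQ (r : QCode) : rat (outQ r) = ratVal r := by
  unfold ratVal outQ rat
  push_cast
  rfl

theorem encode_int (z : ℤ) : Encodable.encode z =
    if 0 ≤ z then 2 * z.toNat else 2 * (-z).toNat - 1 := by
  rcases z with n | n
  · rw [if_pos (show (0 : ℤ) ≤ Int.ofNat n from Int.natCast_nonneg n)]
    rfl
  · rw [if_neg (not_le.2 (Int.negSucc_lt_zero n))]
    rfl

private theorem prim_toNat : Primrec (fun z : ℤ => z.toNat) := by
  have h : Primrec (fun z : ℤ =>
      if Encodable.encode z % 2 = 0 then Encodable.encode z / 2 else 0) :=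
    Primrec.ite (Primrec.eq.comp (Primrec.nat_mod.comp Primrec.encode (Primrec.const 2))
      (Primrec.const 0)) (Primrec.nat_div.comp Primrec.encode (Primrec.const 2)) (Primrec.const 0)
  refine h.of_eq fun z => ?_
  rw [encode_int]
  split_ifs <;> omega

private theorem prim_negToNat : Primrec (fun z : ℤ => (-z).toNat) := by
  have h : Primrec (fun z : ℤ =>
      if Encodable.encode z % 2 = 0 then 0 else Encodable.encode z / 2 + 1) :=
    Primrec.ite (Primrec.eq.comp (Primrec.nat_mod.comp Primrec.encode (Primrec.const 2))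
      (Primrec.const 0)) (Primrec.const 0)
      (Primrec.succ.comp (Primrec.nat_div.comp Primrec.encode (Primrec.const 2)))
  refine h.of_eq fun z => ?_
  rw [encode_int]
  split_ifs <;> omega

theorem prim_inQ : Primrec inQ :=
  Primrec.pair (prim_toNat.comp Primrec.fst)
    (Primrec.pair (prim_negToNat.comp Primrec.fst) Primrec.snd)

private theorem prim_intSub : Primrec₂ (fun a b : ℕ => (a : ℤ) - (b : ℤ)) := by
  have h : Primrec₂ (fun a b : ℕ => Denumerable.ofNat ℤ
      (if b ≤ a then 2 * (a - b) else 2 * (b - a) - 1)) :=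
    (Primrec.ofNat ℤ).comp (Primrec.ite (Primrec.nat_le.comp Primrec.snd Primrec.fst)
      (Primrec.nat_mul.comp (Primrec.const 2) (Primrec.nat_sub.comp Primrec.fst Primrec.snd))
      (Primrec.nat_sub.comp
        (Primrec.nat_mul.comp (Primrec.const 2) (Primrec.nat_sub.comp Primrec.snd Primrec.fst))
        (Primrec.const 1)))
  refine h.of_eq fun a b => ?_
  have h1 : (if b ≤ a then 2 * (a - b) else 2 * (b - a) - 1) =
      Encodable.encode ((a : ℤ) - (b : ℤ)) := by
    rw [encode_int]
    split_ifs <;> omega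
  rw [h1, Denumerable.ofNat_encode]

theorem prim_outQ : Primrec outQ :=
  Primrec.pair (prim_intSub.comp Primrec.fst (Primrec.fst.comp Primrec.snd))
    (Primrec.snd.comp Primrec.snd)

/-! ## Programs -/

theorem exists_prog {α β : Type} [Primcodable α] [Primcodable β] {F : α → β}
    (h : Computable F) :
    ∃ c : Nat.Partrec.Code, ∀ a, c.eval (Encodable.encode a) = Part.some (Encodable.encode (F a)) := by
  obtain ⟨c, hc⟩ := Nat.Partrec.Code.exists_code.1 h
  refine ⟨c, fun a => ?_⟩
  rw [hc]
  simp

/-- conversion of the inputs -/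
def inData (x : ℕ × (ℕ × ℕ × ℕ × ℕ) × ((ℤ × ℕ) × (ℤ × ℕ) × (ℤ × ℕ) × (ℤ × ℕ)) × (ℤ × ℕ)) :
    ℕ × (ℕ × ℕ × ℕ × ℕ) × (QCode × QCode × QCode × QCode) × ℕ :=
  (x.1, x.2.1, (inQ x.2.2.1.1, inQ x.2.2.1.2.1, inQ x.2.2.1.2.2.1, inQ x.2.2.1.2.2.2), x.2.2.2.2)

theorem prim_inData : Primrec inData := by
  have h1 : Primrec (fun x : ℕ × (ℕ × ℕ × ℕ × ℕ) ×
      ((ℤ × ℕ) × (ℤ × ℕ) × (ℤ × ℕ) × (ℤ × ℕ)) × (ℤ × ℕ) => x.2.2.1) :=
    Primrec.fst.comp (Primrec.snd.comp Primrec.snd)
  exact Primrec.pair Primrec.fst (Primrec.pair (Primrec.fst.comp Primrec.snd)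
    (Primrec.pair
      (Primrec.pair (prim_inQ.comp (Primrec.fst.comp h1))
        (Primrec.pair (prim_inQ.comp (Primrec.fst.comp (Primrec.snd.comp h1)))
          (Primrec.pair (prim_inQ.comp (Primrec.fst.comp (Primrec.snd.comp (Primrec.snd.comp h1))))
            (prim_inQ.comp (Primrec.snd.comp (Primrec.snd.comp (Primrec.snd.comp h1)))))))
      (Primrec.snd.comp (Primrec.snd.comp (Primrec.snd.comp Primrec.snd)))))

/-- the algorithm -/
theorem exists_algorithm {compile : TMCode × List ℕ → Nat.Partrec.Code} (h : Computable compile) :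
    ∃ A : Nat.Partrec.Code, ∀ p : TMCode × List ℕ, ∃ c : Nat.Partrec.Code,
      Encodable.encode c ∈ A.eval (Encodable.encode p) ∧
      ∀ x r, Encodable.encode r ∈ (compile p).eval (Encodable.encode (inData x)) →
        Encodable.encode (outQ r) ∈ c.eval (Encodable.encode x) := by
  obtain ⟨ci, hi⟩ := exists_prog (Primrec.to_comp prim_inData)
  obtain ⟨co, ho⟩ := exists_prog (Primrec.to_comp prim_outQ)
  have hF : Computable (fun p : TMCode × List ℕ =>
      Nat.Partrec.Code.comp co (Nat.Partrec.Code.comp (compile p) ci)) :=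
    (Nat.Partrec.Code.primrec₂_comp.to_comp).comp (Computable.const co)
      ((Nat.Partrec.Code.primrec₂_comp.to_comp).comp h (Computable.const ci))
  obtain ⟨A, hA⟩ := exists_prog hF
  refine ⟨A, fun p => ⟨Nat.Partrec.Code.comp co (Nat.Partrec.Code.comp (compile p) ci), ?_, ?_⟩⟩
  · rw [hA]
    exact Part.mem_some _
  · intro x r hr
    change _ ∈ (((ci.eval (Encodable.encode x)) >>= (compile p).eval) >>= co.eval)
    rw [hi]
    refine Part.mem_bind_iff.2 ⟨Encodable.encode r, Part.mem_bind_iff.2
      ⟨Encodable.encode (inData x), Part.mem_some _, hr⟩, ?_⟩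
    rw [ho]
    exact Part.mem_some _

theorem computable_real {ν : ℝ} (h : ComputableReal ν) : IsComputableReal ν := by
  obtain ⟨c, hc⟩ := h
  choose g hg1 hg2 using hc
  have hg : Computable g := by
    have h1 : Nat.Partrec fun n => c.eval n := Nat.Partrec.Code.exists_code.2 ⟨c, rfl⟩
    have h2 : Partrec (fun n : ℕ => c.eval n) := Partrec.nat_iff.2 h1
    have h3 : ∀ n, c.eval n = Part.some (Encodable.encode (g n)) := fun n =>
      Part.eq_some_iff.2 (hg1 n)
    have h4 : Computable (fun n : ℕ => Encodable.encode (g n)) :=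
      h2.of_eq fun n => h3 n
    exact Computable.encode_iff.1 h4
  refine ⟨fun k => inQ (g k), (Primrec.to_comp prim_inQ).comp hg, fun k => ?_⟩
  rw [ratVal_inQ]
  refine (hg2 k).trans ?_
  have h1 : (k : ℝ) + 1 ≤ 2 ^ k := by
    exact_mod_cast Nat.lt_two_pow_self (n := k)
  rw [one_div_pow]
  exact one_div_le_one_div_of_le (by positivity) h1

end Vale.Agent.P113D2
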