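import Vale.Agent.Lib.P113.D2Sol

/-!
# P113, second formulation: smooth periodic solutions give solutions on the torus
-/

open Set MeasureTheory

namespace Vale.Agent.P113D2

open Vale.Agent.P113

theorem smooth_dn {β : Type} [NormedAddCommGroup β] [NormedSpace ℝ β] {U : ℝ → R3 → β}
    (hU : SmoothField U) : SmoothOnTorus (dn U) := by
  have h : (fun z : ℝ × V3 => lift (dn U z.1) z.2) = fun z => U z.1 z.2 := by
    funext z
    exact lift_dn (hU.2 z.1) z.2
  unfold SmoothOnTorus
  rw [h]
  exact hU.1

/-- smooth functions on the torus are smooth periodic functions -/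
theorem smooth_up {g : ℝ → Torus3 → ℝ} (hg : SmoothOnTorus g) :
    SmoothField (fun t => lift (g t)) :=
  ⟨hg, fun t => periodic_up _⟩

theorem smooth_space {g : ℝ → Torus3 → ℝ} (hg : SmoothOnTorus g) (t : ℝ) :
    ContDiff ℝ (⊤ : ℕ∞) (lift (g t)) :=
  hg.comp (contDiff_prodMk_right t)

theorem smooth_time {g : ℝ → Torus3 → ℝ} (hg : SmoothOnTorus g) (x : V3) :
    ContDiff ℝ (⊤ : ℕ∞) (fun t => g t (cov x)) :=
  hg.comp (contDiff_prodMk_left x)

theorem smooth_D {g : ℝ → Torus3 → ℝ} (hg : SmoothOnTorus g) (i : Fin 3) :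
    SmoothOnTorus (fun t => D i (g t)) := by
  have h0 : (fun z : ℝ × V3 => lift (D i (g z.1)) z.2) =
      fun z : ℝ × V3 => fderiv ℝ (lift (g z.1)) z.2 (Pi.single i 1) := by
    funext z
    exact D_cov i ((smooth_space hg z.1).differentiable (by simp)).differentiableAt
  have h1 : ContDiff ℝ (⊤ : ℕ∞)
      (Function.uncurry fun (z : ℝ × V3) (x : V3) => lift (g z.1) x) :=
    hg.comp ((contDiff_fst.comp contDiff_fst).prodMk contDiff_snd)
  have h2 : ContDiff ℝ (⊤ : ℕ∞) (fun z : ℝ × V3 => fderiv ℝ (lift (g z.1)) z.2) :=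
    ContDiff.fderiv h1 contDiff_snd (by simp)
  unfold SmoothOnTorus
  rw [h0]
  exact h2.clm_apply contDiff_const

theorem smooth_T {g : ℝ → Torus3 → ℝ} (hg : SmoothOnTorus g) :
    SmoothOnTorus (fun t θ => deriv (fun s => g s θ) t) := by
  have h1 : ContDiff ℝ (⊤ : ℕ∞)
      (Function.uncurry fun (z : ℝ × V3) (t : ℝ) => lift (g t) z.2) :=
    hg.comp (contDiff_snd.prodMk (contDiff_snd.comp contDiff_fst))
  have h2 : ContDiff ℝ (⊤ : ℕ∞)
      (fun z : ℝ × V3 => fderiv ℝ (fun t : ℝ => lift (g t) z.2) z.1) :=
    ContDiff.fderiv h1 contDiff_fst (by simp)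
  exact h2.clm_apply contDiff_const

theorem smooth_cont {g : ℝ → Torus3 → ℝ} (hg : SmoothOnTorus g) :
    Continuous (fun z : ℝ × Torus3 => g z.1 z.2) := by
  rw [← isOpenQuotientMap_pair.continuous_comp_iff]
  exact hg.continuous

theorem smooth_comp {u : ℝ → Torus3 → V3} (hu : SmoothOnTorus u) (j : Fin 3) :
    SmoothOnTorus (fun t θ => u t θ j) :=
  contDiff_pi.1 hu j

/-- smooth periodic solutions give solutions on the torus -/
theorem dn_solution {ν T : ℝ} (hT : 0 < T) {F U : ℝ → R3 → R3} {P : ℝ → R3 → ℝ}
    (hF : SmoothField F) (hU : SmoothField U) (hP : SmoothField P)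
    (h : IsClassicalSolution ν T F U P) : SolvesOn ν T (dn F) (dn U) (dn P) := by
  have hud : UniqueDiffOn ℝ (Icc (0 : ℝ) T) := uniqueDiffOn_Icc hT
  have hu := smooth_dn hU
  have hp := smooth_dn hP
  have hlu : ∀ t, lift (dn U t) = U t := fun t => funext fun x => lift_dn (hU.2 t) x
  have hlp : ∀ t, lift (dn P t) = P t := fun t => funext fun x => lift_dn (hP.2 t) x
  have huj : ∀ j, SmoothOnTorus (fun t θ => dn U t θ j) := smooth_comp hu
  have hpd : ∀ t i j, lift (D i fun θ => dn U t θ j) = pd i (fun y => U t y j) := by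
    intro t i j
    rw [lift_D i ((smooth_space (huj j) t).differentiable (by simp))]
    rw [← hlu]
    rfl
  have hpp : ∀ t i k j, lift (D i (D k fun θ => dn U t θ j)) =
      pd i (pd k (fun y => U t y j)) := by
    intro t i k j
    rw [lift_D i ((smooth_space (smooth_D (huj j) k) t).differentiable (by simp)), hpd]
  have hqd : ∀ t i, lift (D i (dn P t)) = pd i (P t) := by
    intro t i
    rw [lift_D i ((smooth_space hp t).differentiable (by simp)), hlp]
  have hdt : ∀ j θ, Differentiable ℝ (fun t => dn U t θ j) := by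
    intro j θ
    have h1 := (smooth_time (huj j) (sec θ)).differentiable (by simp)
    rwa [cov_sec] at h1
  refine
    { velocity := fun j => (smooth_cont (huj j)).continuousOn
      time := fun j θ => (hdt j θ).differentiableOn
      time_cont := fun j => ?_
      space := fun t _ j => contDiff_infty.1 (smooth_space (huj j) t) 2
      space_cont := fun i j => (smooth_cont (smooth_D (huj j) i)).continuousOn
      space_cont_two := fun i k j =>
        (smooth_cont (smooth_D (smooth_D (huj j) k) i)).continuousOn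
      pressure := (smooth_cont hp).continuousOn
      pressure_space := fun t _ => contDiff_infty.1 (smooth_space hp t) 1
      pressure_cont := fun i => (smooth_cont (smooth_D hp i)).continuousOn
      mean := fun t ht => ?_
      rest := fun θ => h.initial (sec θ)
      incompressible := fun t ht θ => ?_
      momentum := fun t ht θ j => ?_ }
  · refine (smooth_cont (smooth_T (huj j))).continuousOn.congr ?_
    rintro ⟨t, θ⟩ ⟨ht, -⟩
    exact ((hdt j θ) t).derivWithin (hud t ht)
  · have h1 : Continuous (dn P t) := (smooth_cont hp).comp (Continuous.prodMk_right t)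
    rw [← mean_eq (dn P t) h1, ← h.mean_pressure t ht, ← hlp]
    rfl
  · obtain ⟨x, rfl⟩ := cov_surjective θ
    rw [← h.div_free t ht x]
    exact Finset.sum_congr rfl fun i _ => congrFun (hpd t i i) x
  · obtain ⟨x, rfl⟩ := cov_surjective θ
    have h1 := h.momentum t ht x j
    have h2 : Dt T (fun t θ => dn U t θ j) t (cov x) =
        derivWithin (fun s => U s x j) (Icc 0 T) t := by
      unfold Dt
      congr 1
      funext s
      exact congrFun (congrFun (hlu s) x) j
    have h3 : ∑ i, dn U t (cov x) i * D i (fun θ => dn U t θ j) (cov x) =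
        ∑ i, U t x i * pd i (fun y => U t y j) x := by
      refine Finset.sum_congr rfl fun i _ => ?_
      have e1 : dn U t (cov x) = U t x := congrFun (hlu t) x
      have e2 : D i (fun θ => dn U t θ j) (cov x) = pd i (fun y => U t y j) x :=
        congrFun (hpd t i j) x
      rw [e1, e2]
    have h4 : D j (dn P t) (cov x) = pd j (P t) x := congrFun (hqd t j) x
    have h5 : ∑ i, D i (D i fun θ => dn U t θ j) (cov x) =
        ∑ i, pd i (pd i (fun y => U t y j)) x :=
      Finset.sum_congr rfl fun i _ => congrFun (hpp t i i j) x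
    have h6 : dn F t (cov x) = F t x := lift_dn (hF.2 t) x
    rw [h2, h3, h4, h5, h6]
    exact h1

end Vale.Agent.P113D2
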