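import Vale.Agent.Lib.P113.Defs
import Vale.Agent.Lib.P113.D2Defs

/-!
# P113, second formulation: fields on the torus and their lifts
-/

open Set MeasureTheory

namespace Vale.Agent.P113D2

open Vale.Agent.P113

theorem toTorus_eq (x : V3) : toTorus x = cov x := rfl

theorem cov_surjective : Function.Surjective cov := by
  intro θ
  choose x hx using fun i => QuotientAddGroup.mk_surjective (θ i)
  exact ⟨x, funext hx⟩

theorem eq_of_cov {β : Type} {g : R3 → β} (hg : Periodic3 g) {x y : R3}
    (h : cov x = cov y) : g x = g y := by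
  have h1 : ∀ i, ∃ n : ℤ, x i = y i + n := by
    intro i
    have h2 : ((x i : ℝ) : UnitAddCircle) = (y i : ℝ) := congrFun h i
    rw [← sub_eq_zero, ← AddCircle.coe_sub] at h2
    obtain ⟨n, hn⟩ := (AddCircle.coe_eq_zero_iff (1 : ℝ)).1 h2
    refine ⟨n, ?_⟩
    rw [zsmul_eq_mul, mul_one] at hn
    linarith
  choose k hk using h1
  rw [← hg y k]
  congr 1
  funext i
  exact hk i

/-- a section of the covering map -/
noncomputable def sec (θ : Torus3) : V3 := Function.surjInv cov_surjective θ

theorem cov_sec (θ : Torus3) : cov (sec θ) = θ := Function.surjInv_eq cov_surjective θ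

/-- the function on the torus of a periodic function -/
noncomputable def dn {β : Type} (U : ℝ → R3 → β) (t : ℝ) (θ : Torus3) : β := U t (sec θ)

theorem lift_dn {β : Type} {U : ℝ → R3 → β} {t : ℝ} (h : Periodic3 (U t)) (x : V3) :
    lift (dn U t) x = U t x :=
  eq_of_cov h (cov_sec _)

theorem periodic_up {β : Type} (g : Torus3 → β) : Periodic3 (lift g) := by
  intro x k
  change g (cov fun i => x i + k i) = g (cov x)
  congr 1
  funext i
  change ((x i + (k i : ℝ) : ℝ) : UnitAddCircle) = ((x i : ℝ) : UnitAddCircle)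
  rw [AddCircle.coe_add]
  have h : (((k i : ℤ) : ℝ) : UnitAddCircle) = 0 :=
    (AddCircle.coe_eq_zero_iff (1 : ℝ)).2 ⟨k i, by rw [zsmul_eq_mul, mul_one]⟩
  rw [h, add_zero]

/-! ## Derivatives -/

theorem cov_add_single (x : V3) (i : Fin 3) (s : ℝ) :
    cov (x + s • Pi.single i 1) = cov x + Pi.single i (s : UnitAddCircle) := by
  funext j
  change ((x j + s * (Pi.single i (1 : ℝ) : Fin 3 → ℝ) j : ℝ) : UnitAddCircle) =
    (x j : UnitAddCircle) + (Pi.single i (s : UnitAddCircle) : Fin 3 → UnitAddCircle) j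
  by_cases h : j = i
  · subst h
    rw [Pi.single_eq_same, Pi.single_eq_same, mul_one, AddCircle.coe_add]
  · rw [Pi.single_eq_of_ne h, Pi.single_eq_of_ne h, mul_zero, add_zero, add_zero]

theorem D_cov {g : Torus3 → ℝ} (i : Fin 3) {x : V3} (hg : DifferentiableAt ℝ (lift g) x) :
    D i g (cov x) = pd i (lift g) x := by
  have h1 := hg.lineDeriv_eq_fderiv (v := Pi.single i 1)
  unfold pd
  rw [← h1]
  unfold D lineDeriv
  congr 1
  funext s
  rw [← cov_add_single]
  rfl

theorem lift_D {g : Torus3 → ℝ} (i : Fin 3) (hg : Differentiable ℝ (lift g)) :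
    lift (D i g) = pd i (lift g) :=
  funext fun x => D_cov i (hg x)

/-! ## The mean value -/

theorem mean_eq (g : Torus3 → ℝ) (hg : Continuous g) :
    ∫ x in Icc (0 : R3) 1, g (cov x) = ∫ θ, g θ := by
  have h1 : MeasurePreserving (fun (a : Fin 3 → ℝ) i => ((a i : ℝ) : UnitAddCircle))
      (Measure.pi fun _ => volume.restrict (Ioc (0 : ℝ) (0 + 1))) (Measure.pi fun _ => volume) :=
    measurePreserving_pi _ _ fun i => UnitAddCircle.measurePreserving_mk 0
  have h2 : (Measure.pi fun _ : Fin 3 => volume.restrict (Ioc (0 : ℝ) (0 + 1))) =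
      (volume : Measure (Fin 3 → ℝ)).restrict (Icc 0 1) := by
    rw [← Measure.restrict_pi_pi, zero_add]
    exact Measure.restrict_congr_set Measure.univ_pi_Ioc_ae_eq_Icc
  rw [h2] at h1
  have h3 : (∫ θ, g θ) = ∫ θ, g θ ∂(Measure.pi fun _ : Fin 3 => (volume : Measure UnitAddCircle)) :=
    rfl
  rw [h3, ← h1.map_eq, integral_map h1.measurable.aemeasurable
    hg.aestronglyMeasurable]
  rfl

/-! ## Topology -/

theorem continuous_cov : Continuous cov :=
  continuous_pi fun i => (AddCircle.continuous_mk' (1 : ℝ)).comp (continuous_apply i)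

theorem isOpenQuotientMap_cov : IsOpenQuotientMap cov :=
  IsOpenQuotientMap.piMap (f := fun _ : Fin 3 => ((↑) : ℝ → UnitAddCircle))
    fun _ => QuotientAddGroup.isOpenQuotientMap_mk

theorem isOpenQuotientMap_pair :
    IsOpenQuotientMap (Prod.map (id : ℝ → ℝ) cov) :=
  IsOpenQuotientMap.id.prodMap isOpenQuotientMap_cov

end Vale.Agent.P113D2
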