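import Vale.Agent.Lib.P113.D2Field

/-!
# P113, second formulation: classical solutions
-/

open Set MeasureTheory

namespace Vale.Agent.P113D2

open Vale.Agent.P113

private theorem cont_up {T : ℝ} {g : ℝ → Torus3 → ℝ} (hg : Cont T g) :
    ContinuousOn (fun z : ℝ × R3 => lift (g z.1) z.2) (Icc 0 T ×ˢ univ) := by
  have h : Continuous (fun z : ℝ × R3 => ((z.1, cov z.2) : ℝ × Torus3)) :=
    continuous_fst.prodMk (continuous_cov.comp continuous_snd)
  exact ContinuousOn.comp hg h.continuousOn fun z hz => ⟨hz.1, mem_univ _⟩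

/-- solutions on the torus give periodic solutions -/
theorem up_solution {ν T : ℝ} (hT : 0 < T) {f v : ℝ → Torus3 → V3} {q : ℝ → Torus3 → ℝ}
    {F : ℝ → R3 → R3} (hF : ∀ t, ∀ x : V3, lift (f t) x = F t x)
    (h : SolvesOn ν T f v q) :
    IsClassicalSolution ν T F (fun t => lift (v t)) (fun t => lift (q t)) := by
  have hu : UniqueDiffOn ℝ (Icc (0 : ℝ) T) := uniqueDiffOn_Icc hT
  have hd : ∀ t ∈ Icc 0 T, ∀ j, Differentiable ℝ (lift fun θ => v t θ j) := fun t ht j =>
    (h.space t ht j).differentiable (by norm_num)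
  have hq : ∀ t ∈ Icc 0 T, Differentiable ℝ (lift (q t)) := fun t ht =>
    (h.pressure_space t ht).differentiable (by norm_num)
  have hpd : ∀ t ∈ Icc 0 T, ∀ i j, pd i (fun y => lift (v t) y j) =
      lift (D i fun θ => v t θ j) := fun t ht i j => (lift_D i (hd t ht j)).symm
  have hd2 : ∀ t ∈ Icc 0 T, ∀ k j, Differentiable ℝ (lift (D k fun θ => v t θ j)) := by
    intro t ht k j
    rw [← hpd t ht k j]
    have h1 : ContDiff ℝ 1 (fderiv ℝ (lift fun θ => v t θ j)) :=
      (h.space t ht j).fderiv_right (by norm_num)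
    exact (h1.clm_apply contDiff_const).differentiable (by norm_num)
  have hpp : ∀ t ∈ Icc 0 T, ∀ i k j, pd i (pd k (fun y => lift (v t) y j)) =
      lift (D i (D k fun θ => v t θ j)) := by
    intro t ht i k j
    rw [hpd t ht k j]
    exact (lift_D i (hd2 t ht k j)).symm
  have hqd : ∀ t ∈ Icc 0 T, ∀ i, pd i (lift (q t)) = lift (D i (q t)) :=
    fun t ht i => (lift_D i (hq t ht)).symm
  have htd : ∀ t ∈ Icc 0 T, ∀ x, HasDerivWithinAt (fun s => lift (v s) x)
      (fun j => Dt T (fun t θ => v t θ j) t (cov x)) (Icc 0 T) t := by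
    intro t ht x
    rw [hasDerivWithinAt_pi]
    intro j
    exact (h.time j (cov x) t ht).hasDerivWithinAt
  refine
    { periodic_u := fun t _ => periodic_up _
      periodic_p := fun t _ => periodic_up _
      cont_u := continuousOn_pi.2 fun j => cont_up (h.velocity j)
      diff_time := fun t ht x => (htd t ht x).differentiableWithinAt
      cont_time := ?_
      diff_space := fun t ht => contDiff_pi.2 fun j => h.space t ht j
      cont_space := fun i j => (cont_up (h.space_cont i j)).congr ?_
      cont_space_two := fun i j k => (cont_up (h.space_cont_two i j k)).congr ?_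
      diff_pressure := fun t ht => h.pressure_space t ht
      cont_pressure := cont_up h.pressure
      cont_grad_pressure := fun i => (cont_up (h.pressure_cont i)).congr ?_
      mean_pressure := fun t ht => ?_
      initial := fun x => h.rest (cov x)
      div_free := fun t ht x => ?_
      momentum := fun t ht x j => ?_ }
  · have h1 : ContinuousOn (fun z : ℝ × R3 => fun j => Dt T (fun t θ => v t θ j) z.1 (cov z.2))
        (Icc 0 T ×ˢ univ) := continuousOn_pi.2 fun j => cont_up (h.time_cont j)
    refine h1.congr ?_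
    rintro ⟨t, y⟩ ⟨ht, -⟩
    exact (htd t ht y).derivWithin (hu t ht)
  · rintro ⟨t, y⟩ ⟨ht, -⟩
    exact congrFun (hpd t ht i j) y
  · rintro ⟨t, y⟩ ⟨ht, -⟩
    exact congrFun (hpp t ht i j k) y
  · rintro ⟨t, y⟩ ⟨ht, -⟩
    exact congrFun (hqd t ht i) y
  · have h1 : Continuous (q t) := by
      have h0 : ContinuousOn (fun z : ℝ × Torus3 => q z.1 z.2) (Icc 0 T ×ˢ univ) := h.pressure
      have h2 : ContinuousOn (fun x : Torus3 => q t x) univ :=
        h0.comp (Continuous.prodMk_right t).continuousOn fun x _ => ⟨ht, mem_univ _⟩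
      exact continuousOn_univ.1 h2
    have h3 := mean_eq (q t) h1
    rw [h.mean t ht] at h3
    exact h3
  · have h1 := h.incompressible t ht (cov x)
    rw [← h1]
    exact Finset.sum_congr rfl fun i _ => congrFun (hpd t ht i i) x
  · have h1 := h.momentum t ht (cov x) j
    rw [hqd t ht j]
    have h2 : ∑ i, lift (v t) x i * pd i (fun y => lift (v t) y j) x =
        ∑ i, v t (cov x) i * D i (fun θ => v t θ j) (cov x) :=
      Finset.sum_congr rfl fun i _ => by rw [hpd t ht i j]; rfl
    have h3 : ∑ i, pd i (pd i (fun y => lift (v t) y j)) x =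
        ∑ i, D i (D i fun θ => v t θ j) (cov x) :=
      Finset.sum_congr rfl fun i _ => by rw [hpp t ht i i j]; rfl
    have h4 : F t x j = f t (cov x) j := by rw [← hF]; rfl
    rw [h2, h3, h4]
    exact h1

end Vale.Agent.P113D2
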