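import Mathlib

/-!
# P113, third formulation: definitions

The torus `𝕋³ = ℝ³ / ℤ³` is described by its universal cover: a function on `𝕋³` is a `ℤ³`-periodic function on `ℝ³`, a
point of `𝕋³` is given by a point of `ℝ³`, and an open subset of `𝕋³` is a `ℤ³`-periodic open subset of `ℝ³`. The equations
are written without coordinates, with the gradient, the Laplacian and the derivative of Mathlib on the Euclidean space `ℝ³`.
-/

open Set MeasureTheory
open scoped Laplacian Gradient

namespace Vale.Agent.P113D3

/-- The Euclidean space `ℝ³`: the universal cover of `𝕋³`, and the space of velocities. -/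
abbrev E3 : Type := EuclideanSpace ℝ (Fin 3)

/-- `g` is (the lift to `ℝ³` of) a function on `𝕋³ = ℝ³ / ℤ³`: it is periodic under `ℤ³`. -/
def OnTorus {β : Type} (g : E3 → β) : Prop :=
  ∀ (x : E3) (k : Fin 3 → ℤ), g (x + WithLp.toLp 2 fun i => (k i : ℝ)) = g x

/-- `g` is smooth on `ℝ × 𝕋³`. -/
def Smooth {β : Type} [NormedAddCommGroup β] [NormedSpace ℝ β] (g : ℝ → E3 → β) : Prop :=
  (∀ t, OnTorus (g t)) ∧ ContDiff ℝ (⊤ : ℕ∞) fun z : ℝ × E3 => g z.1 z.2

/-! ### The equations on a Euclidean space `E` -/

section Equations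

variable {E F : Type} [NormedAddCommGroup E] [InnerProductSpace ℝ E] [FiniteDimensional ℝ E]
  [NormedAddCommGroup F] [NormedSpace ℝ F]

/-- `g` is continuous on `[0,T] × E`. -/
def Cont {E F : Type} [TopologicalSpace E] [TopologicalSpace F] (T : ℝ) (g : ℝ → E → F) : Prop :=
  ContinuousOn (fun z : ℝ × E => g z.1 z.2) (Icc 0 T ×ˢ univ)

/-- `g` and its spatial derivatives of order at most `n` exist and are continuous on `[0,T] × E`. -/
def SpaceRegular (T : ℝ) (n : ℕ) (g : ℝ → E → F) : Prop :=
  (∀ t ∈ Icc 0 T, ContDiff ℝ n (g t)) ∧ ∀ k ≤ n, Cont T fun t => iteratedFDeriv ℝ k (g t)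

/-- The time derivative `∂ₜ g` on `[0,T]`. -/
noncomputable def dt (T : ℝ) (g : ℝ → E → F) (t : ℝ) (x : E) : F :=
  derivWithin (fun s => g s x) (Icc 0 T) t

/-- `∂ₜ g` exists and is continuous on `[0,T] × E`. -/
def TimeRegular (T : ℝ) (g : ℝ → E → F) : Prop :=
  (∀ x, DifferentiableOn ℝ (fun t => g t x) (Icc 0 T)) ∧ Cont T (dt T g)

/-- `div u = 0` on `[0,T] × E`; the divergence is the trace of the derivative. -/
def Incompressible (T : ℝ) (u : ℝ → E → E) : Prop :=
  ∀ t ∈ Icc 0 T, ∀ x, LinearMap.trace ℝ E (fderiv ℝ (u t) x) = 0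

/-- The momentum equation `∂ₜ u + (u · ∇) u = - ∇ p + ν Δ u + f` on `[0,T] × E`. -/
def Momentum (ν T : ℝ) (f u : ℝ → E → E) (p : ℝ → E → ℝ) : Prop :=
  ∀ t ∈ Icc 0 T, ∀ x,
    dt T u t x + fderiv ℝ (u t) x (u t x) = - ∇ (p t) x + ν • (Δ (u t)) x + f t x

end Equations

/-- The mean over `𝕋³`, the integral over the unit cube. -/
noncomputable def mean (p : E3 → ℝ) : ℝ := ∫ y in Icc (0 : Fin 3 → ℝ) 1, p (WithLp.toLp 2 y)

/-- `(u, p)` is a classical solution on `[0,T] × 𝕋³` of
`∂ₜ u + (u · ∇) u = - ∇ p + ν Δ u + f`, `div u = 0`, `u(0, ·) = 0`: `u`, `∂ₜ u`, the spatial derivatives of `u` up to order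
two, `p` and `∇ p` exist and are continuous on `[0,T] × 𝕋³`, `p` has mean zero and the equations hold pointwise. -/
structure Solves (ν T : ℝ) (f u : ℝ → E3 → E3) (p : ℝ → E3 → ℝ) : Prop where
  on_torus : ∀ t ∈ Icc 0 T, OnTorus (u t) ∧ OnTorus (p t)
  velocity : TimeRegular T u ∧ SpaceRegular T 2 u
  pressure : SpaceRegular T 1 p ∧ ∀ t ∈ Icc 0 T, mean (p t) = 0
  rest : ∀ x, u 0 x = 0
  incompressible : Incompressible T u
  momentum : Momentum ν T f u p

/-- `X` is the trajectory of (the class of) `a`: `X 0 = a` and `X' = u(t, X)` for `t ≥ 0`. -/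
def Trajectory (u : ℝ → E3 → E3) (a : E3) (X : ℝ → E3) : Prop :=
  X 0 = a ∧ ∀ t, 0 ≤ t → HasDerivWithinAt X (u t (X t)) (Ici 0) t

/-! ## Machines -/

/-- A deterministic one-tape Turing machine: finitely many states, an initial one and some halting ones, a finite alphabet
with the blank `0`, and a table `δ` that gives, for the state and the symbol under the head, the new state, the symbol
written and the move of the head, by `-1`, `0` or `1` cell for the entries `0`, `1`, `2`. -/
structure Machine : Type where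
  /-- the states are `0, …, n` -/
  n : ℕ
  /-- the symbols are `0, …, m` -/
  m : ℕ
  /-- initial state -/
  start : Fin (n + 1)
  /-- halting states -/
  halting : Fin (n + 1) → Bool
  /-- transition table -/
  δ : Fin (n + 1) → Fin (m + 1) → Fin (n + 1) × Fin (m + 1) × Fin 3

/-- One step. A configuration is the state together with the tape as it is seen from the head: the symbol `c.2 i` is
written `i` cells to the right of the head. -/
def Machine.step (M : Machine) (c : Fin (M.n + 1) × (ℤ → Fin (M.m + 1))) :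
    Fin (M.n + 1) × (ℤ → Fin (M.m + 1)) :=
  let r := M.δ c.1 (c.2 0)
  (r.1, fun i => Function.update c.2 0 r.2.1 (i + ((r.2.2.val : ℤ) - 1)))

/-- `M` halts on `w`: started in the initial state with `w` on an otherwise blank two-sided tape and the head at the first
cell of `w`, it reaches a halting state after finitely many steps, possibly none. -/
def Machine.HaltsOn (M : Machine) (w : List (Fin (M.m + 1))) : Prop :=
  ∃ k : ℕ, M.halting
    ((M.step)^[k] (M.start, fun i : ℤ => if 0 ≤ i then w.getD i.toNat 0 else 0)).1 = true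

/-- The type of the descriptions of machines. -/
abbrev Description : Type := ℕ × ℕ × ℕ × List Bool × List (List (ℕ × ℕ × ℕ))

/-- The description of a machine as finite data: `n`, `m`, the initial state, the list of the values of `halting`, and the
rows of the table `δ`. -/
def Machine.description (M : Machine) : Description :=
  (M.n, M.m, M.start.val, List.ofFn M.halting,
    List.ofFn fun q => List.ofFn fun s => ((M.δ q s).1.val, (M.δ q s).2.1.val, (M.δ q s).2.2.val))

/-! ## Effectivity -/

/-- The rational number `z / (n + 1)` with the code `(z, n)`. -/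
noncomputable def rat (r : ℤ × ℕ) : ℝ := (r.1 : ℝ) / ((r.2 : ℝ) + 1)

/-- `ν` is a computable real number: an algorithm approximates it by rational numbers. -/
def ComputableReal (ν : ℝ) : Prop :=
  ∃ q : ℕ → ℤ × ℕ, Computable q ∧ ∀ k : ℕ, |rat (q k) - ν| ≤ (1 / 2 : ℝ) ^ k

/-- The mixed derivative `∂ₜᵃ ∂₁ᵇ ∂₂ᶜ ∂₃ᵈ fᵢ` of the component `fᵢ` of `f`, at the time `t` and the point `(x, y, z)`. -/
noncomputable def mixed (f : ℝ → E3 → E3) (i : Fin 3) (a b c d : ℕ) (t x y z : ℝ) : ℝ :=
  iteratedDeriv a (fun t => iteratedDeriv b (fun x => iteratedDeriv c (fun y => iteratedDeriv d (fun z =>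
    f t (WithLp.toLp 2 ![x, y, z]) i) z) y) x) t

/-- The program `P` computes `f`: it returns the value of every mixed derivative of every component of `f` at every rational
point, to every rational accuracy `e > 0`. -/
def Computes (P : Nat.Partrec.Code) (f : ℝ → E3 → E3) : Prop :=
  ∀ (i : Fin 3) (a b c d : ℕ) (t x y z e : ℤ × ℕ), 0 < rat e → ∃ r : ℤ × ℕ,
    Encodable.encode r ∈ P.eval (Encodable.encode (i.val, (a, b, c, d), (t, x, y, z), e)) ∧
      |rat r - mixed f i a b c d (rat t) (rat x) (rat y) (rat z)| ≤ rat e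

/-- `compile` is a force compiler for the forces `f M w`: it is an algorithm (a total computable function) that sends every
pair `(M, w)` to a program computing the smooth force `f M w`, and there is a time `T₀`, independent of `(M, w)`, such that
for `t ≥ T₀` the force `f M w` is periodic in time and depends on `M` only. -/
def ForceCompiler (compile : Description × List ℕ → Nat.Partrec.Code)
    (f : (M : Machine) → List (Fin (M.m + 1)) → ℝ → E3 → E3) : Prop :=
  Computable compile ∧
  (∀ M w, Smooth (f M w) ∧ Computes (compile (M.description, w.map Fin.val)) (f M w)) ∧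
  ∃ T₀ : ℝ, ∀ M : Machine, (∃ P : ℝ, 0 < P ∧ ∀ w t, T₀ ≤ t → f M w (t + P) = f M w t) ∧
    ∀ w w' t, T₀ ≤ t → f M w t = f M w' t

end Vale.Agent.P113D3
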