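import Vale.Agent.Lib.P113.Defs
import Vale.Agent.Lib.P113.D3Defs

/-!
# P113, third formulation: classical solutions
-/

open Set MeasureTheory
open scoped Laplacian Gradient

namespace Vale.Agent.P113D3

open Vale.Agent.P113 (R3 Periodic3 pd IsClassicalSolution SmoothField)

/-- the identification of the two models of `ℝ³` -/
noncomputable def e : E3 ≃L[ℝ] R3 := PiLp.continuousLinearEquiv 2 ℝ fun _ : Fin 3 => ℝ

theorem e_apply (x : E3) (i : Fin 3) : e x i = x i := rfl

theorem e_symm_apply (x : R3) (i : Fin 3) : (e.symm x) i = x i := rfl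

theorem e_symm_single (i : Fin 3) (r : ℝ) :
    e.symm (Pi.single i r : R3) = EuclideanSpace.single i r := by
  ext j
  rw [e_symm_apply]
  simp [Pi.single_apply]

/-- passage from `E3` to `R3` for vector fields -/
noncomputable def down (g : ℝ → E3 → E3) : ℝ → R3 → R3 := fun t y => e (g t (e.symm y))

/-- passage from `E3` to `R3` for functions -/
noncomputable def downs (g : ℝ → E3 → ℝ) : ℝ → R3 → ℝ := fun t y => g t (e.symm y)

/-- passage from `R3` to `E3` for vector fields -/
noncomputable def up (g : ℝ → R3 → R3) : ℝ → E3 → E3 := fun t y => e.symm (g t (e y))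

/-- passage from `R3` to `E3` for functions -/
noncomputable def ups (g : ℝ → R3 → ℝ) : ℝ → E3 → ℝ := fun t y => g t (e y)

theorem down_up (g : ℝ → R3 → R3) : down (up g) = g := by
  funext t y
  unfold down up
  simp

theorem downs_ups (g : ℝ → R3 → ℝ) : downs (ups g) = g := by
  funext t y
  unfold downs ups
  simp

theorem up_down (g : ℝ → E3 → E3) : up (down g) = g := by
  funext t y
  unfold down up
  simp

theorem ups_downs (g : ℝ → E3 → ℝ) : ups (downs g) = g := by
  funext t y
  unfold downs ups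
  simp

private theorem e_symm_add (x : R3) (k : Fin 3 → ℤ) :
    e.symm (fun i => x i + k i) = e.symm x + WithLp.toLp 2 fun i => (k i : ℝ) := by
  ext i
  rfl

theorem onTorus_iff {β : Type} {g : E3 → β} : OnTorus g ↔ Periodic3 (fun y => g (e.symm y)) := by
  constructor
  · intro h x k
    change g (e.symm (fun i => x i + k i)) = g (e.symm x)
    rw [e_symm_add]
    exact h _ _
  · intro h x k
    have h1 : g (e.symm (fun i => e x i + k i)) = g (e.symm (e x)) := h (e x) k
    rwa [e_symm_add, ContinuousLinearEquiv.symm_apply_apply] at h1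

theorem onTorus_down {g : E3 → E3} : OnTorus g ↔ Periodic3 (fun y => e (g (e.symm y))) := by
  rw [onTorus_iff]
  constructor
  · intro h x k
    exact congrArg e (h x k)
  · intro h x k
    exact e.injective (h x k)

theorem cont_iff {β : Type} [TopologicalSpace β] {T : ℝ} {g : ℝ → E3 → β} :
    Cont T g ↔ ContinuousOn (fun z : ℝ × R3 => g z.1 (e.symm z.2)) (Icc 0 T ×ˢ univ) := by
  constructor
  · intro h
    refine ContinuousOn.comp (g := fun z : ℝ × E3 => g z.1 z.2)
      (f := fun z : ℝ × R3 => (z.1, e.symm z.2)) h ?_ ?_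
    · exact (continuous_fst.prodMk (e.symm.continuous.comp continuous_snd)).continuousOn
    · intro z hz
      exact ⟨hz.1, mem_univ _⟩
  · intro h
    have h1 := ContinuousOn.comp (g := fun z : ℝ × R3 => g z.1 (e.symm z.2))
      (f := fun z : ℝ × E3 => (z.1, e z.2)) (s := Icc 0 T ×ˢ univ) h
      (continuous_fst.prodMk (e.continuous.comp continuous_snd)).continuousOn
      (fun z hz => ⟨hz.1, mem_univ _⟩)
    refine h1.congr fun z _ => ?_
    simp

theorem cont_vec {T : ℝ} {g : ℝ → E3 → E3} :
    Cont T g ↔ ∀ j, Cont T (fun t x => g t x j) := by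
  constructor
  · intro h j
    exact (PiLp.continuous_apply 2 (fun _ : Fin 3 => ℝ) j).comp_continuousOn h
  · intro h
    have h1 : ContinuousOn (fun z : ℝ × E3 => (e (g z.1 z.2))) (Icc 0 T ×ˢ univ) :=
      continuousOn_pi.2 fun j => h j
    have h2 := e.symm.continuous.comp_continuousOn h1
    refine h2.congr fun z _ => ?_
    simp

private theorem vec_eq (v : E3) : v = ∑ i, v i • EuclideanSpace.single i (1 : ℝ) := by
  ext j
  fin_cases j <;> simp [Fin.sum_univ_three]

theorem cont_clm {T : ℝ} {F : Type} [NormedAddCommGroup F] [NormedSpace ℝ F]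
    {g : ℝ → E3 → (E3 →L[ℝ] F)} :
    Cont T g ↔ ∀ i, Cont T (fun t x => g t x (EuclideanSpace.single i (1 : ℝ))) := by
  constructor
  · intro h i
    exact (continuousOn_clm_apply.1 h) _
  · intro h
    refine continuousOn_clm_apply.2 fun v => ?_
    have h1 : (fun z : ℝ × E3 => g z.1 z.2 v) =
        fun z : ℝ × E3 => ∑ i, v i • g z.1 z.2 (EuclideanSpace.single i (1 : ℝ)) := by
      funext z
      conv_lhs => rw [vec_eq v]
      rw [map_sum]
      exact Finset.sum_congr rfl fun i _ => map_smul _ _ _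
    rw [h1]
    exact continuousOn_finsetSum _ fun i _ => (h i).const_smul _

/-! ## derivatives -/

theorem pd_scalar (g : E3 → ℝ) (i : Fin 3) (y : R3) :
    pd i (fun y => g (e.symm y)) y = fderiv ℝ g (e.symm y) (EuclideanSpace.single i 1) := by
  unfold pd
  have h := e.symm.comp_right_fderiv (f := g) (x := y)
  have h1 : (fun y => g (e.symm y)) = g ∘ e.symm := rfl
  rw [h1, h]
  change fderiv ℝ g (e.symm y) (e.symm (Pi.single i 1)) = _
  rw [e_symm_single]

theorem fderiv_comp_proj {g : E3 → E3} {x : E3} (hg : DifferentiableAt ℝ g x) (j : Fin 3)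
    (v : E3) : fderiv ℝ (fun x => g x j) x v = (fderiv ℝ g x v) j := by
  have h := ((EuclideanSpace.proj j : E3 →L[ℝ] ℝ).hasFDerivAt.comp x hg.hasFDerivAt).fderiv
  have h1 : (fun x => g x j) = (EuclideanSpace.proj j : E3 →L[ℝ] ℝ) ∘ g := rfl
  rw [h1, h]
  rfl

theorem pd_vec {g : E3 → E3} {y : R3} (hg : DifferentiableAt ℝ g (e.symm y)) (i j : Fin 3) :
    pd i (fun y => e (g (e.symm y)) j) y =
      (fderiv ℝ g (e.symm y) (EuclideanSpace.single i 1)) j := by
  rw [← fderiv_comp_proj hg]
  exact pd_scalar (fun x => g x j) i y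

theorem pd_pd_vec {g : E3 → E3} (hg : ContDiff ℝ 2 g) (i j k : Fin 3) (y : R3) :
    pd i (pd j (fun y => e (g (e.symm y)) k)) y =
      (fderiv ℝ (fderiv ℝ g) (e.symm y) (EuclideanSpace.single i 1)
        (EuclideanSpace.single j 1)) k := by
  have hd : Differentiable ℝ g := hg.differentiable (by norm_num)
  have hdd : Differentiable ℝ (fderiv ℝ g) :=
    (hg.fderiv_right (m := 1) (by norm_num)).differentiable (by norm_num)
  have h1 : pd j (fun y => e (g (e.symm y)) k) =
      fun y => (fun x => (fderiv ℝ g x (EuclideanSpace.single j 1)) k) (e.symm y) := by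
    funext y
    exact pd_vec (hd _) j k
  rw [h1]
  refine (pd_scalar (fun x => (fderiv ℝ g x (EuclideanSpace.single j (1 : ℝ))) k) i y).trans ?_
  have h2 : DifferentiableAt ℝ (fun x => fderiv ℝ g x (EuclideanSpace.single j (1 : ℝ)))
      (e.symm y) := (hdd _).clm_apply (differentiableAt_const _)
  rw [fderiv_comp_proj h2]
  refine congrArg (fun v : E3 => v k) ?_
  have h3 := ((ContinuousLinearMap.apply ℝ E3 (EuclideanSpace.single j (1 : ℝ) : E3)).hasFDerivAt.comp
    (e.symm y) (hdd (e.symm y)).hasFDerivAt).fderiv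
  have h4 : (fun x => fderiv ℝ g x (EuclideanSpace.single j (1 : ℝ))) =
      (ContinuousLinearMap.apply ℝ E3 (EuclideanSpace.single j (1 : ℝ) : E3)) ∘ fderiv ℝ g := rfl
  rw [h4, h3]
  rfl

theorem gradient_apply (g : E3 → ℝ) (x : E3) (i : Fin 3) :
    (∇ g x) i = fderiv ℝ g x (EuclideanSpace.single i 1) := by
  have h := toDual_gradient (𝕜 := ℝ) (f := g) (x := x)
  rw [← h, InnerProductSpace.toDual_apply_apply, EuclideanSpace.inner_single_right]
  simp

theorem laplacian_apply {g : E3 → E3} (x : E3) (k : Fin 3) :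
    ((Δ g) x) k = ∑ i, (fderiv ℝ (fderiv ℝ g) x (EuclideanSpace.single i 1)
      (EuclideanSpace.single i 1)) k := by
  rw [InnerProductSpace.laplacian_eq_iteratedFDeriv_orthonormalBasis g
    (EuclideanSpace.basisFun (Fin 3) ℝ)]
  simp only [iteratedFDeriv_two_apply, EuclideanSpace.basisFun_apply, Matrix.cons_val_zero,
    Matrix.cons_val_one]
  simp [Fin.sum_univ_three]

theorem trace_apply (L : E3 →L[ℝ] E3) :
    LinearMap.trace ℝ E3 L = ∑ i, (L (EuclideanSpace.single i 1)) i := by
  rw [LinearMap.trace_eq_sum_inner (L : E3 →ₗ[ℝ] E3) (EuclideanSpace.basisFun (Fin 3) ℝ)]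
  refine Finset.sum_congr rfl fun i _ => ?_
  rw [EuclideanSpace.basisFun_apply, EuclideanSpace.inner_single_left]
  simp

theorem derivWithin_e {T t : ℝ} (hT : 0 < T) (ht : t ∈ Icc 0 T) (g : ℝ → E3) (j : Fin 3)
    (hg : DifferentiableWithinAt ℝ g (Icc 0 T) t) :
    derivWithin (fun s => e (g s) j) (Icc 0 T) t = (derivWithin g (Icc 0 T) t) j := by
  have h1 : HasDerivWithinAt (fun s => e (g s) j)
      ((EuclideanSpace.proj j : E3 →L[ℝ] ℝ) (derivWithin g (Icc 0 T) t)) (Icc 0 T) t :=
    (EuclideanSpace.proj j : E3 →L[ℝ] ℝ).hasFDerivAt.comp_hasDerivWithinAt t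
      hg.hasDerivWithinAt
  exact h1.derivWithin ((uniqueDiffOn_Icc hT) t ht)

/-! ## The two notions of classical solution agree -/

/-- the definition of classical solutions, spelled out -/
structure SolvesX (ν T : ℝ) (f u : ℝ → E3 → E3) (p : ℝ → E3 → ℝ) : Prop where
  on_torus : ∀ t ∈ Icc 0 T, OnTorus (u t) ∧ OnTorus (p t)
  u_cont : Cont T u
  dt_exists : ∀ x, DifferentiableOn ℝ (fun t => u t x) (Icc 0 T)
  dt_cont : Cont T fun t x => derivWithin (fun s => u s x) (Icc 0 T) t
  dx_exists : ∀ t ∈ Icc 0 T, ContDiff ℝ 2 (u t)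
  dx_cont : Cont T fun t => fderiv ℝ (u t)
  dxx_cont : Cont T fun t => fderiv ℝ (fderiv ℝ (u t))
  p_cont : Cont T p
  dp_exists : ∀ t ∈ Icc 0 T, ContDiff ℝ 1 (p t)
  dp_cont : Cont T fun t => fderiv ℝ (p t)
  p_mean : ∀ t ∈ Icc 0 T, mean (p t) = 0
  rest : ∀ x, u 0 x = 0
  incompressible : ∀ t ∈ Icc 0 T, ∀ x, LinearMap.trace ℝ E3 (fderiv ℝ (u t) x) = 0
  momentum : ∀ t ∈ Icc 0 T, ∀ x,
    derivWithin (fun s => u s x) (Icc 0 T) t + fderiv ℝ (u t) x (u t x) =
      - ∇ (p t) x + ν • (Δ (u t)) x + f t x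

theorem cont_iter_zero {F : Type} [NormedAddCommGroup F] [NormedSpace ℝ F] {T : ℝ}
    {g : ℝ → E3 → F} : (Cont T fun t => iteratedFDeriv ℝ 0 (g t)) ↔ Cont T g := by
  unfold Cont
  have h : (fun z : ℝ × E3 => iteratedFDeriv ℝ 0 (g z.1) z.2) =
      (continuousMultilinearCurryFin0 ℝ E3 F).symm ∘ fun z : ℝ × E3 => g z.1 z.2 := rfl
  rw [h, LinearIsometryEquiv.comp_continuousOn_iff]

theorem cont_iter_succ {F : Type} [NormedAddCommGroup F] [NormedSpace ℝ F] {T : ℝ}
    {g : ℝ → E3 → F} (n : ℕ) : (Cont T fun t => iteratedFDeriv ℝ (n + 1) (g t)) ↔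
      Cont T fun t => iteratedFDeriv ℝ n (fderiv ℝ (g t)) := by
  unfold Cont
  have h : (fun z : ℝ × E3 => iteratedFDeriv ℝ (n + 1) (g z.1) z.2) =
      (continuousMultilinearCurryRightEquiv' ℝ n E3 F).symm ∘
        fun z : ℝ × E3 => iteratedFDeriv ℝ n (fderiv ℝ (g z.1)) z.2 := by
    funext z
    exact iteratedFDeriv_succ_eq_comp_right (𝕜 := ℝ) (f := g z.1) (n := n) (x := z.2)
  rw [h, LinearIsometryEquiv.comp_continuousOn_iff]

theorem spaceRegular_one {F : Type} [NormedAddCommGroup F] [NormedSpace ℝ F] {T : ℝ}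
    {g : ℝ → E3 → F} : SpaceRegular T 1 g ↔
      (∀ t ∈ Icc 0 T, ContDiff ℝ 1 (g t)) ∧ Cont T g ∧ Cont T fun t => fderiv ℝ (g t) := by
  unfold SpaceRegular
  rw [Nat.cast_one]
  refine and_congr_right fun _ => ?_
  constructor
  · intro h
    exact ⟨cont_iter_zero.1 (h 0 (by norm_num)),
      cont_iter_zero.1 ((cont_iter_succ 0).1 (h 1 le_rfl))⟩
  · rintro ⟨h0, h1⟩ k hk
    interval_cases k
    · exact cont_iter_zero.2 h0
    · exact (cont_iter_succ 0).2 (cont_iter_zero.2 h1)

theorem spaceRegular_two {F : Type} [NormedAddCommGroup F] [NormedSpace ℝ F] {T : ℝ}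
    {g : ℝ → E3 → F} : SpaceRegular T 2 g ↔
      (∀ t ∈ Icc 0 T, ContDiff ℝ 2 (g t)) ∧ Cont T g ∧ (Cont T fun t => fderiv ℝ (g t)) ∧
        Cont T fun t => fderiv ℝ (fderiv ℝ (g t)) := by
  unfold SpaceRegular
  rw [Nat.cast_ofNat]
  refine and_congr_right fun _ => ?_
  constructor
  · intro h
    exact ⟨cont_iter_zero.1 (h 0 (by norm_num)),
      cont_iter_zero.1 ((cont_iter_succ 0).1 (h 1 (by norm_num))),
      cont_iter_zero.1 ((cont_iter_succ 0).1 ((cont_iter_succ 1).1 (h 2 le_rfl)))⟩
  · rintro ⟨h0, h1, h2⟩ k hk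
    interval_cases k
    · exact cont_iter_zero.2 h0
    · exact (cont_iter_succ 0).2 (cont_iter_zero.2 h1)
    · exact (cont_iter_succ 1).2 ((cont_iter_succ 0).2 (cont_iter_zero.2 h2))

theorem solves_iff_X {ν T : ℝ} (f u : ℝ → E3 → E3) (p : ℝ → E3 → ℝ) :
    Solves ν T f u p ↔ SolvesX ν T f u p := by
  constructor
  · intro h
    obtain ⟨⟨h1, h2⟩, h3⟩ := h.velocity
    obtain ⟨h4, h5⟩ := h.pressure
    obtain ⟨k1, k2, k3, k4⟩ := spaceRegular_two.1 h3
    obtain ⟨k5, k6, k7⟩ := spaceRegular_one.1 h4
    exact ⟨h.on_torus, k2, h1, h2, k1, k3, k4, k6, k5, k7, h5, h.rest, h.incompressible,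
      h.momentum⟩
  · intro h
    exact ⟨h.on_torus, ⟨⟨h.dt_exists, h.dt_cont⟩,
      spaceRegular_two.2 ⟨h.dx_exists, h.u_cont, h.dx_cont, h.dxx_cont⟩⟩,
      ⟨spaceRegular_one.2 ⟨h.dp_exists, h.p_cont, h.dp_cont⟩, h.p_mean⟩, h.rest,
      h.incompressible, h.momentum⟩

theorem solves_iff {ν T : ℝ} (hT : 0 < T) (f u : ℝ → E3 → E3) (p : ℝ → E3 → ℝ) :
    Solves ν T f u p ↔ IsClassicalSolution ν T (down f) (down u) (downs p) := by
  rw [solves_iff_X]
  have hC : ∀ {t : ℝ}, ContDiff ℝ 2 (u t) ↔ ContDiff ℝ 2 (down u t) := by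
    intro t
    have h1 : down u t = e ∘ (u t ∘ e.symm) := rfl
    rw [h1, ContinuousLinearEquiv.comp_contDiff_iff, ContinuousLinearEquiv.contDiff_comp_iff]
  have hP : ∀ {t : ℝ}, ContDiff ℝ 1 (p t) ↔ ContDiff ℝ 1 (downs p t) := by
    intro t
    have h1 : downs p t = p t ∘ e.symm := rfl
    rw [h1, ContinuousLinearEquiv.contDiff_comp_iff]
  have hD : ∀ {t : ℝ} {x : E3}, DifferentiableWithinAt ℝ (fun s => u s x) (Icc 0 T) t ↔
      DifferentiableWithinAt ℝ (fun s => down u s (e x)) (Icc 0 T) t := by
    intro t x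
    have h1 : (fun s => down u s (e x)) = e ∘ fun s => u s x := by
      funext s
      unfold down
      simp
    rw [h1, ContinuousLinearEquiv.comp_differentiableWithinAt_iff]
  -- consequences of the regularity that is part of both definitions
  have key : (∀ t ∈ Icc 0 T, ContDiff ℝ 2 (u t)) →
      (∀ x, DifferentiableOn ℝ (fun t => u t x) (Icc 0 T)) →
      (SolvesX ν T f u p ↔ IsClassicalSolution ν T (down f) (down u) (downs p)) := by
    intro hu hdu
    have hd : ∀ t ∈ Icc 0 T, Differentiable ℝ (u t) := fun t ht =>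
      (hu t ht).differentiable (by norm_num)
    have e1 : ∀ t ∈ Icc 0 T, ∀ (i j : Fin 3) (y : R3), pd i (fun y => down u t y j) y =
        (fderiv ℝ (u t) (e.symm y) (EuclideanSpace.single i 1)) j := fun t ht i j y =>
      pd_vec (hd t ht _) i j
    have e2 : ∀ t ∈ Icc 0 T, ∀ (i j k : Fin 3) (y : R3),
        pd i (pd j (fun y => down u t y k)) y =
        (fderiv ℝ (fderiv ℝ (u t)) (e.symm y) (EuclideanSpace.single i 1)
          (EuclideanSpace.single j 1)) k := fun t ht i j k y =>
      pd_pd_vec (hu t ht) i j k y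
    have e3 : ∀ t, ∀ (i : Fin 3) (y : R3), pd i (downs p t) y = (∇ (p t) (e.symm y)) i :=
      fun t i y => (pd_scalar (p t) i y).trans (gradient_apply (p t) (e.symm y) i).symm
    have e4 : ∀ t ∈ Icc 0 T, ∀ (j : Fin 3) (y : R3),
        derivWithin (fun s => down u s y j) (Icc 0 T) t =
        (derivWithin (fun s => u s (e.symm y)) (Icc 0 T) t) j := fun t ht j y =>
      derivWithin_e hT ht (fun s => u s (e.symm y)) j (hdu _ t ht)
    have e5 : ∀ t ∈ Icc 0 T, ∀ (y : R3),
        derivWithin (fun s => down u s y) (Icc 0 T) t =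
        e (derivWithin (fun s => u s (e.symm y)) (Icc 0 T) t) := by
      intro t ht y
      have h1 : HasDerivWithinAt (fun s => down u s y)
          (e (derivWithin (fun s => u s (e.symm y)) (Icc 0 T) t)) (Icc 0 T) t :=
        (e : E3 →L[ℝ] R3).hasFDerivAt.comp_hasDerivWithinAt t (hdu _ t ht).hasDerivWithinAt
      exact h1.derivWithin ((uniqueDiffOn_Icc hT) t ht)
    have c1 : Cont T u ↔
        ContinuousOn (fun z : ℝ × R3 => down u z.1 z.2) (Icc 0 T ×ˢ univ) := by
      rw [cont_iff]
      constructor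
      · intro h
        exact e.continuous.comp_continuousOn h
      · intro h
        have h2 := e.symm.continuous.comp_continuousOn h
        refine h2.congr fun z _ => ?_
        simp [down]
    have c2 : (Cont T fun t x => derivWithin (fun s => u s x) (Icc 0 T) t) ↔
        ContinuousOn (fun z : ℝ × R3 => derivWithin (fun s => down u s z.2) (Icc 0 T) z.1)
          (Icc 0 T ×ˢ univ) := by
      rw [cont_iff]
      constructor
      · intro h
        exact (e.continuous.comp_continuousOn h).congr fun z hz => e5 z.1 hz.1 z.2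
      · intro h
        have h2 := e.symm.continuous.comp_continuousOn h
        refine h2.congr fun z hz => ?_
        change _ = e.symm (derivWithin (fun s => down u s z.2) (Icc 0 T) z.1)
        rw [e5 z.1 hz.1 z.2, ContinuousLinearEquiv.symm_apply_apply]
    have c3 : (Cont T fun t => fderiv ℝ (u t)) ↔ ∀ i j : Fin 3, ContinuousOn
        (fun z : ℝ × R3 => pd i (fun y => down u z.1 y j) z.2) (Icc 0 T ×ˢ univ) := by
      rw [cont_clm]
      refine forall_congr' fun i => ?_
      rw [cont_vec]
      refine forall_congr' fun j => ?_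
      rw [cont_iff]
      exact continuousOn_congr fun z hz => (e1 z.1 hz.1 i j z.2).symm
    have c4 : (Cont T fun t => fderiv ℝ (fderiv ℝ (u t))) ↔ ∀ i j k : Fin 3, ContinuousOn
        (fun z : ℝ × R3 => pd i (pd j (fun y => down u z.1 y k)) z.2) (Icc 0 T ×ˢ univ) := by
      rw [cont_clm]
      refine forall_congr' fun i => ?_
      rw [cont_clm]
      refine forall_congr' fun j => ?_
      rw [cont_vec]
      refine forall_congr' fun k => ?_
      rw [cont_iff]
      exact continuousOn_congr fun z hz => (e2 z.1 hz.1 i j k z.2).symm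
    have c5 : (Cont T fun t => fderiv ℝ (p t)) ↔ ∀ i : Fin 3, ContinuousOn
        (fun z : ℝ × R3 => pd i (downs p z.1) z.2) (Icc 0 T ×ˢ univ) := by
      rw [cont_clm]
      refine forall_congr' fun i => ?_
      rw [cont_iff]
      exact continuousOn_congr fun z hz => (pd_scalar (p z.1) i z.2).symm
    have d1 : ∀ t ∈ Icc 0 T, ∀ y : R3, LinearMap.trace ℝ E3 (fderiv ℝ (u t) (e.symm y)) =
        ∑ i, pd i (fun y => down u t y i) y := by
      intro t ht y
      rw [trace_apply]
      exact Finset.sum_congr rfl fun i _ => (e1 t ht i i y).symm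
    have m1 : ∀ t ∈ Icc 0 T, ∀ (y : R3) (j : Fin 3),
        (fderiv ℝ (u t) (e.symm y) (u t (e.symm y))) j =
        ∑ i, down u t y i * pd i (fun y => down u t y j) y := by
      intro t ht y j
      conv_lhs => rw [vec_eq (u t (e.symm y))]
      rw [map_sum]
      simp only [map_smul]
      have h1 : ∀ g : Fin 3 → E3, (∑ i, g i) j = ∑ i, (g i) j := by
        intro g
        simp [Fin.sum_univ_three]
      rw [h1]
      refine Finset.sum_congr rfl fun i _ => ?_
      rw [e1 t ht i j y]
      rfl
    have m2 : ∀ t ∈ Icc 0 T, ∀ (y : R3) (j : Fin 3), ((Δ (u t)) (e.symm y)) j =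
        ∑ i, pd i (pd i (fun y => down u t y j)) y := by
      intro t ht y j
      rw [laplacian_apply]
      exact Finset.sum_congr rfl fun i _ => (e2 t ht i i j y).symm
    have m3 : ∀ t ∈ Icc 0 T, ∀ (y : R3),
        (derivWithin (fun s => u s (e.symm y)) (Icc 0 T) t +
          fderiv ℝ (u t) (e.symm y) (u t (e.symm y)) =
          - ∇ (p t) (e.symm y) + ν • (Δ (u t)) (e.symm y) + f t (e.symm y)) ↔
        ∀ j, derivWithin (fun s => down u s y j) (Icc 0 T) t +
          ∑ i, down u t y i * pd i (fun y => down u t y j) y =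
          - pd j (downs p t) y + ν * ∑ i, pd i (pd i (fun y => down u t y j)) y +
            down f t y j := by
      intro t ht y
      constructor
      · intro h j
        have h1 := congrArg (fun v : E3 => v j) h
        simp only [PiLp.add_apply, PiLp.neg_apply, PiLp.smul_apply, smul_eq_mul] at h1
        rw [m1 t ht y j, m2 t ht y j, ← e4 t ht j y, ← e3 t j y] at h1
        exact h1
      · intro h
        ext j
        simp only [PiLp.add_apply, PiLp.neg_apply, PiLp.smul_apply, smul_eq_mul]
        rw [m1 t ht y j, m2 t ht y j, ← e4 t ht j y, ← e3 t j y]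
        exact h j
    have sw : ∀ {Q : E3 → Prop}, (∀ x, Q x) ↔ ∀ y : R3, Q (e.symm y) := by
      intro Q
      constructor
      · intro h y
        exact h _
      · intro h x
        have h1 := h (e x)
        rwa [ContinuousLinearEquiv.symm_apply_apply] at h1
    constructor
    · intro h
      exact
        { periodic_u := fun t ht => onTorus_down.1 (h.on_torus t ht).1
          periodic_p := fun t ht => onTorus_iff.1 (h.on_torus t ht).2
          cont_u := c1.1 h.u_cont
          diff_time := fun t ht y => by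
            have h1 := hD.1 (h.dt_exists (e.symm y) t ht)
            rwa [ContinuousLinearEquiv.apply_symm_apply] at h1
          cont_time := c2.1 h.dt_cont
          diff_space := fun t ht => hC.1 (h.dx_exists t ht)
          cont_space := c3.1 h.dx_cont
          cont_space_two := c4.1 h.dxx_cont
          diff_pressure := fun t ht => hP.1 (h.dp_exists t ht)
          cont_pressure := cont_iff.1 h.p_cont
          cont_grad_pressure := c5.1 h.dp_cont
          mean_pressure := fun t ht => h.p_mean t ht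
          initial := fun y => by
            change e (u 0 (e.symm y)) = 0
            rw [h.rest, map_zero]
          div_free := fun t ht y => (d1 t ht y).symm.trans (h.incompressible t ht _)
          momentum := fun t ht y => (m3 t ht y).1 (h.momentum t ht _) }
    · intro h
      exact
        { on_torus := fun t ht =>
            ⟨onTorus_down.2 (h.periodic_u t ht), onTorus_iff.2 (h.periodic_p t ht)⟩
          u_cont := c1.2 h.cont_u
          dt_exists := hdu
          dt_cont := c2.2 h.cont_time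
          dx_exists := hu
          dx_cont := c3.2 h.cont_space
          dxx_cont := c4.2 h.cont_space_two
          p_cont := cont_iff.2 h.cont_pressure
          dp_exists := fun t ht => hP.2 (h.diff_pressure t ht)
          dp_cont := c5.2 h.cont_grad_pressure
          p_mean := fun t ht => h.mean_pressure t ht
          rest := sw.2 fun y => e.injective (by
            rw [map_zero]
            exact h.initial y)
          incompressible := fun t ht => sw.2 fun y => (d1 t ht y).trans (h.div_free t ht y)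
          momentum := fun t ht => sw.2 fun y => (m3 t ht y).2 (h.momentum t ht y) }
  constructor
  · intro h
    exact (key h.dx_exists h.dt_exists).1 h
  · intro h
    exact (key (fun t ht => hC.2 (h.diff_space t ht))
      (fun x t ht => hD.2 (h.diff_time t ht (e x)))).2 h

end Vale.Agent.P113D3
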