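import Vale.Agent.Lib.P113.Defs
import Vale.Agent.Lib.P113.D2Comp
import Vale.Agent.Lib.P113.D3Sol

/-!
# P113, third formulation: machines and programs
-/

open Set

namespace Vale.Agent.P113D3

open Vale.Agent.P113 (R3 Periodic3 pd pd4 mixedDeriv SmoothField Move TM Config QCode ratVal TMCode
  IsComputableReal)
open Vale.Agent.P113D2 (inQ outQ ratVal_inQ rat_outQ prim_inQ prim_outQ inData prim_inData exists_prog)

/-- translation of the moves -/
def toMove : Fin 3 → Move
  | 0 => Move.left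
  | 1 => Move.stay
  | 2 => Move.right

/-- translation of the machines -/
abbrev toTM (M : Machine) : TM where
  n := M.n
  m := M.m
  start := M.start
  halting := M.halting
  step := fun i a => ((M.δ i a).1, (M.δ i a).2.1, toMove (M.δ i a).2.2)

theorem toMove_code (d : Fin 3) : (toMove d).code = d.val := by
  fin_cases d <;> rfl

theorem toMove_shift (d : Fin 3) : (toMove d).shift = (d.val : ℤ) - 1 := by
  fin_cases d <;> rfl

theorem toTM_code (M : Machine) : (toTM M).code = M.description := by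
  unfold TM.code Machine.description
  simp only [toTM, toMove_code]

/-- the simulation relation -/
def Sim (M : Machine) (c : Config (toTM M)) (d : Fin (M.n + 1) × (ℤ → Fin (M.m + 1))) : Prop :=
  c.state = d.1 ∧ ∀ i : ℤ, c.tape (c.head + i) = d.2 i

theorem sim_step {M : Machine} {c : Config (toTM M)}
    {d : Fin (M.n + 1) × (ℤ → Fin (M.m + 1))} (h : Sim M c d) :
    Sim M ((toTM M).next c) (M.step d) := by
  obtain ⟨h1, h2⟩ := h
  have h3 : c.tape c.head = d.2 0 := by
    have := h2 0
    rwa [add_zero] at this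
  have h4 : (toTM M).step c.state (c.tape c.head) =
      ((M.δ d.1 (d.2 0)).1, (M.δ d.1 (d.2 0)).2.1, toMove (M.δ d.1 (d.2 0)).2.2) := by
    rw [h1, h3]
  constructor
  · unfold TM.next Machine.step
    rw [h4]
  · intro i
    unfold TM.next Machine.step
    rw [h4]
    simp only
    rw [toMove_shift]
    by_cases hi : i + (((M.δ d.1 (d.2 0)).2.2.val : ℤ) - 1) = 0
    · rw [hi, Function.update_self]
      have h5 : c.head + (((M.δ d.1 (d.2 0)).2.2.val : ℤ) - 1) + i = c.head := by
        linarith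
      rw [h5, Function.update_self]
    · rw [Function.update_of_ne hi, Function.update_of_ne (by
        intro h6
        exact hi (by linarith))]
      refine Eq.trans ?_ (h2 _)
      congr 1
      ring

theorem halts_iff (M : Machine) (w : List (Fin (M.m + 1))) :
    (toTM M).HaltsOn w ↔ M.HaltsOn w := by
  have h : ∀ k : ℕ, Sim M (((toTM M).next)^[k] ((toTM M).init w))
      ((M.step)^[k] (M.start, fun i : ℤ => if 0 ≤ i then w.getD i.toNat 0 else 0)) := by
    intro k
    induction k with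
    | zero =>
      refine ⟨rfl, fun i => ?_⟩
      change (if 0 ≤ (0 : ℤ) + i then w.getD ((0 : ℤ) + i).toNat 0 else 0) = _
      rw [zero_add]
      rfl
    | succ k ih =>
      rw [Function.iterate_succ_apply', Function.iterate_succ_apply']
      exact sim_step ih
  unfold TM.HaltsOn Machine.HaltsOn
  refine exists_congr fun k => ?_
  rw [(h k).1]

theorem computable_real {ν : ℝ} (h : ComputableReal ν) : IsComputableReal ν := by
  obtain ⟨g, hg, hg2⟩ := h
  refine ⟨fun k => inQ (g k), (Primrec.to_comp prim_inQ).comp hg, fun k => ?_⟩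
  rw [ratVal_inQ]
  refine (hg2 k).trans ?_
  have h1 : (k : ℝ) + 1 ≤ 2 ^ k := by
    exact_mod_cast Nat.lt_two_pow_self (n := k)
  rw [one_div_pow]
  exact one_div_le_one_div_of_le (by positivity) h1

/-- conversion of the programs -/
theorem exists_compile {compile : TMCode × List ℕ → Nat.Partrec.Code} (h : Computable compile) :
    ∃ compile' : Description × List ℕ → Nat.Partrec.Code, Computable compile' ∧ ∀ p x r,
      Encodable.encode r ∈ (compile p).eval (Encodable.encode (inData x)) →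
        Encodable.encode (outQ r) ∈ (compile' p).eval (Encodable.encode x) := by
  obtain ⟨ci, hi⟩ := exists_prog (Primrec.to_comp prim_inData)
  obtain ⟨co, ho⟩ := exists_prog (Primrec.to_comp prim_outQ)
  refine ⟨fun p => Nat.Partrec.Code.comp co (Nat.Partrec.Code.comp (compile p) ci),
    (Nat.Partrec.Code.primrec₂_comp.to_comp).comp (Computable.const co)
      ((Nat.Partrec.Code.primrec₂_comp.to_comp).comp h (Computable.const ci)), fun p x r hr => ?_⟩
  change _ ∈ (((ci.eval (Encodable.encode x)) >>= (compile p).eval) >>= co.eval)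
  rw [hi]
  refine Part.mem_bind_iff.2 ⟨Encodable.encode r, Part.mem_bind_iff.2
    ⟨Encodable.encode (inData x), Part.mem_some _, hr⟩, ?_⟩
  rw [ho]
  exact Part.mem_some _

/-! ## Mixed derivatives -/

theorem smooth_pd4 {G : (Fin 4 → ℝ) → ℝ} (hG : ContDiff ℝ (⊤ : ℕ∞) G) (j : Fin 4) :
    ContDiff ℝ (⊤ : ℕ∞) (pd4 j G) := by
  have h1 : ContDiff ℝ (⊤ : ℕ∞) (fderiv ℝ G) := hG.fderiv_right (by simp)
  exact h1.clm_apply contDiff_const

theorem smooth_iter (j : Fin 4) (n : ℕ) : ∀ {G : (Fin 4 → ℝ) → ℝ}, ContDiff ℝ (⊤ : ℕ∞) G →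
    ContDiff ℝ (⊤ : ℕ∞) ((pd4 j)^[n] G) := by
  induction n with
  | zero => intro G hG; exact hG
  | succ n ih =>
    intro G hG
    rw [Function.iterate_succ_apply]
    exact ih (smooth_pd4 hG j)

theorem iter_line {j : Fin 4} {γ : ℝ → Fin 4 → ℝ}
    (hγ : ∀ s, HasDerivAt γ (Pi.single j 1) s) (n : ℕ) :
    ∀ {G : (Fin 4 → ℝ) → ℝ}, ContDiff ℝ (⊤ : ℕ∞) G →
      iteratedDeriv n (fun s => G (γ s)) = fun s => (pd4 j)^[n] G (γ s) := by
  induction n with
  | zero => intro G _; rfl
  | succ n ih =>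
    intro G hG
    rw [iteratedDeriv_succ', Function.iterate_succ_apply]
    have h1 : deriv (fun s => G (γ s)) = fun s => pd4 j G (γ s) := by
      funext s
      have h2 : DifferentiableAt ℝ G (γ s) := (hG.differentiable (by simp)).differentiableAt
      exact (h2.hasFDerivAt.comp_hasDerivAt s (hγ s)).deriv
    rw [h1]
    exact ih (smooth_pd4 hG j)

theorem mixed_up {F : ℝ → R3 → R3} (hF : SmoothField F) (i : Fin 3) (a b c d : ℕ)
    (t x y z : ℝ) : mixed (up F) i a b c d t x y z =
      mixedDeriv (a, b, c, d) (fun w => F (w 0) ![w 1, w 2, w 3] i) ![t, x, y, z] := by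
  set G : (Fin 4 → ℝ) → ℝ := fun w => F (w 0) ![w 1, w 2, w 3] i with hGdef
  have hG : ContDiff ℝ (⊤ : ℕ∞) G := by
    have h2 : ContDiff ℝ (⊤ : ℕ∞) (fun w : Fin 4 → ℝ => ((w 0, ![w 1, w 2, w 3]) : ℝ × R3)) := by
      refine (contDiff_apply ℝ ℝ (0 : Fin 4)).prodMk (contDiff_pi.2 fun j => ?_)
      fin_cases j
      · exact contDiff_apply ℝ ℝ (1 : Fin 4)
      · exact contDiff_apply ℝ ℝ (2 : Fin 4)
      · exact contDiff_apply ℝ ℝ (3 : Fin 4)
    exact (contDiff_pi.1 (hF.1.comp h2)) i
  have g3 : ∀ t x y s : ℝ, HasDerivAt (fun z : ℝ => (![t, x, y, z] : Fin 4 → ℝ))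
      (Pi.single 3 1) s := by
    intro t x y s
    refine hasDerivAt_pi.2 fun k => ?_
    fin_cases k
    · exact hasDerivAt_const _ _
    · exact hasDerivAt_const _ _
    · exact hasDerivAt_const _ _
    · exact hasDerivAt_id _
  have g2 : ∀ t x z s : ℝ, HasDerivAt (fun y : ℝ => (![t, x, y, z] : Fin 4 → ℝ))
      (Pi.single 2 1) s := by
    intro t x z s
    refine hasDerivAt_pi.2 fun k => ?_
    fin_cases k
    · exact hasDerivAt_const _ _
    · exact hasDerivAt_const _ _
    · exact hasDerivAt_id _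
    · exact hasDerivAt_const _ _
  have g1 : ∀ t y z s : ℝ, HasDerivAt (fun x : ℝ => (![t, x, y, z] : Fin 4 → ℝ))
      (Pi.single 1 1) s := by
    intro t y z s
    refine hasDerivAt_pi.2 fun k => ?_
    fin_cases k
    · exact hasDerivAt_const _ _
    · exact hasDerivAt_id _
    · exact hasDerivAt_const _ _
    · exact hasDerivAt_const _ _
  have g0 : ∀ x y z s : ℝ, HasDerivAt (fun t : ℝ => (![t, x, y, z] : Fin 4 → ℝ))
      (Pi.single 0 1) s := by
    intro x y z s
    refine hasDerivAt_pi.2 fun k => ?_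
    fin_cases k
    · exact hasDerivAt_id _
    · exact hasDerivAt_const _ _
    · exact hasDerivAt_const _ _
    · exact hasDerivAt_const _ _
  have s3 := smooth_iter 3 d hG
  have s2 := smooth_iter 2 c s3
  have s1 := smooth_iter 1 b s2
  have k3 : ∀ t x y z, iteratedDeriv d (fun z => (up F) t (WithLp.toLp 2 ![x, y, z]) i) z =
      (pd4 3)^[d] G ![t, x, y, z] := fun t x y z =>
    congrFun (iter_line (g3 t x y) d hG) z
  have k2 : ∀ t x y z, iteratedDeriv c (fun y => (pd4 3)^[d] G ![t, x, y, z]) y =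
      (pd4 2)^[c] ((pd4 3)^[d] G) ![t, x, y, z] := fun t x y z =>
    congrFun (iter_line (g2 t x z) c s3) y
  have k1 : ∀ t x y z, iteratedDeriv b (fun x => (pd4 2)^[c] ((pd4 3)^[d] G) ![t, x, y, z]) x =
      (pd4 1)^[b] ((pd4 2)^[c] ((pd4 3)^[d] G)) ![t, x, y, z] := fun t x y z =>
    congrFun (iter_line (g1 t y z) b s2) x
  have k0 : iteratedDeriv a (fun t => (pd4 1)^[b] ((pd4 2)^[c] ((pd4 3)^[d] G)) ![t, x, y, z]) t =
      (pd4 0)^[a] ((pd4 1)^[b] ((pd4 2)^[c] ((pd4 3)^[d] G))) ![t, x, y, z] :=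
    congrFun (iter_line (g0 x y z) a s1) t
  unfold mixed mixedDeriv
  simp only [k3, k2, k1, k0]

/-! ## smooth fields -/

theorem smooth_up {F : ℝ → R3 → R3} (hF : SmoothField F) : Smooth (up F) := by
  refine ⟨fun t => onTorus_down.2 ?_, ?_⟩
  · have h : (fun y => e (up F t (e.symm y))) = F t := congrFun (down_up F) t
    rw [h]
    exact hF.2 t
  · have h1 : ContDiff ℝ (⊤ : ℕ∞) (fun z : ℝ × E3 => ((z.1, e z.2) : ℝ × R3)) :=
      contDiff_fst.prodMk (e.contDiff.comp contDiff_snd)
    exact e.symm.contDiff.comp (hF.1.comp h1)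

theorem smooth_ups {F : ℝ → R3 → ℝ} (hF : SmoothField F) : Smooth (ups F) := by
  refine ⟨fun t => onTorus_iff.2 ?_, ?_⟩
  · have h : (fun y => ups F t (e.symm y)) = F t := congrFun (downs_ups F) t
    rw [h]
    exact hF.2 t
  · have h1 : ContDiff ℝ (⊤ : ℕ∞) (fun z : ℝ × E3 => ((z.1, e z.2) : ℝ × R3)) :=
      contDiff_fst.prodMk (e.contDiff.comp contDiff_snd)
    exact hF.1.comp h1

end Vale.Agent.P113D3
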