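import Mathlib

/-!
# P113: definitions used by the statement

Functions on the flat torus `𝕋³ = (ℝ/ℤ)³` are functions on `ℝ³ = Fin 3 → ℝ` that are periodic
under `ℤ³`; points and open subsets of `𝕋³` are points and open subsets of
`Fin 3 → UnitAddCircle`.
-/

open Set MeasureTheory

namespace Vale.Agent.P113

/-- Points of `ℝ³`, the universal cover of `𝕋³`; also velocity vectors. -/
abbrev R3 : Type := Fin 3 → ℝ

/-- The flat torus `𝕋³ = (ℝ/ℤ)³`. -/
abbrev T3 : Type := Fin 3 → UnitAddCircle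

/-- The projection `ℝ³ → 𝕋³`. -/
def toTorus (x : R3) : T3 := fun i => (x i : UnitAddCircle)

/-- A function on `𝕋³`, given as a `ℤ³`-periodic function on `ℝ³`. -/
def Periodic3 {β : Type} (g : R3 → β) : Prop :=
  ∀ (x : R3) (k : Fin 3 → ℤ), g (fun i => x i + k i) = g x

/-- The spatial partial derivative `∂ᵢ g`. -/
noncomputable def pd (i : Fin 3) (g : R3 → ℝ) (x : R3) : ℝ := fderiv ℝ g x (Pi.single i 1)

/-- `(u, p)` is a classical solution on `[0,T] × 𝕋³` of
`∂ₜu + (u·∇)u = -∇p + ν Δu + f`, `div u = 0`, `u(0,·) = 0`, with `p` of spatial mean zero. -/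
structure IsClassicalSolution (ν T : ℝ) (f u : ℝ → R3 → R3) (p : ℝ → R3 → ℝ) : Prop where
  periodic_u : ∀ t ∈ Icc 0 T, Periodic3 (u t)
  periodic_p : ∀ t ∈ Icc 0 T, Periodic3 (p t)
  cont_u : ContinuousOn (fun z : ℝ × R3 => u z.1 z.2) (Icc 0 T ×ˢ univ)
  diff_time : ∀ t ∈ Icc 0 T, ∀ x, DifferentiableWithinAt ℝ (fun s => u s x) (Icc 0 T) t
  cont_time : ContinuousOn
    (fun z : ℝ × R3 => derivWithin (fun s => u s z.2) (Icc 0 T) z.1) (Icc 0 T ×ˢ univ)
  diff_space : ∀ t ∈ Icc 0 T, ContDiff ℝ 2 (u t)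
  cont_space : ∀ i j : Fin 3, ContinuousOn
    (fun z : ℝ × R3 => pd i (fun y => u z.1 y j) z.2) (Icc 0 T ×ˢ univ)
  cont_space_two : ∀ i j k : Fin 3, ContinuousOn
    (fun z : ℝ × R3 => pd i (pd j (fun y => u z.1 y k)) z.2) (Icc 0 T ×ˢ univ)
  diff_pressure : ∀ t ∈ Icc 0 T, ContDiff ℝ 1 (p t)
  cont_pressure : ContinuousOn (fun z : ℝ × R3 => p z.1 z.2) (Icc 0 T ×ˢ univ)
  cont_grad_pressure : ∀ i : Fin 3, ContinuousOn
    (fun z : ℝ × R3 => pd i (p z.1) z.2) (Icc 0 T ×ˢ univ)
  mean_pressure : ∀ t ∈ Icc 0 T, ∫ x in Icc (0 : R3) 1, p t x = 0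
  initial : ∀ x, u 0 x = 0
  div_free : ∀ t ∈ Icc 0 T, ∀ x, ∑ i, pd i (fun y => u t y i) x = 0
  momentum : ∀ t ∈ Icc 0 T, ∀ x j,
    derivWithin (fun s => u s x j) (Icc 0 T) t + ∑ i, u t x i * pd i (fun y => u t y j) x
      = - pd j (p t) x + ν * ∑ i, pd i (pd i (fun y => u t y j)) x + f t x j

/-- `X` is (a lift to `ℝ³` of) the trajectory of the point `a ∈ 𝕋³`. -/
def IsTrajectory (u : ℝ → R3 → R3) (a : T3) (X : ℝ → R3) : Prop :=
  toTorus (X 0) = a ∧ ∀ t, 0 ≤ t → HasDerivWithinAt X (u t (X t)) (Ici 0) t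

/-! ## Machines -/

/-- Head moves. -/
inductive Move : Type
  | left : Move
  | stay : Move
  | right : Move

/-- A deterministic one-tape Turing machine with states `0, …, n` and alphabet `0, …, m`,
where `0` is the blank. -/
structure TM : Type where
  /-- number of states, minus one -/
  n : ℕ
  /-- number of symbols, minus one -/
  m : ℕ
  /-- the initial state -/
  start : Fin (n + 1)
  /-- the halting states -/
  halting : Fin (n + 1) → Bool
  /-- new state, written symbol, head move -/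
  step : Fin (n + 1) → Fin (m + 1) → Fin (n + 1) × Fin (m + 1) × Move

/-- A configuration: state, head position, two-sided tape. -/
structure Config (M : TM) : Type where
  /-- the state -/
  state : Fin (M.n + 1)
  /-- the position of the head -/
  head : ℤ
  /-- the tape -/
  tape : ℤ → Fin (M.m + 1)

/-- The displacement of the head. -/
def Move.shift : Move → ℤ
  | Move.left => -1
  | Move.stay => 0
  | Move.right => 1

/-- One step of the machine. -/
def TM.next (M : TM) (c : Config M) : Config M :=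
  let r := M.step c.state (c.tape c.head)
  { state := r.1
    head := c.head + r.2.2.shift
    tape := Function.update c.tape c.head r.2.1 }

/-- The initial configuration: the word `w` is written at the positions `0, 1, 2, …` of an
otherwise blank tape, and the head is at position `0`. -/
def TM.init (M : TM) (w : List (Fin (M.m + 1))) : Config M :=
  { state := M.start
    head := 0
    tape := fun i => if 0 ≤ i then w.getD i.toNat 0 else 0 }

/-- `M` halts on `w`. -/
def TM.HaltsOn (M : TM) (w : List (Fin (M.m + 1))) : Prop :=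
  ∃ k : ℕ, M.halting ((M.next^[k]) (M.init w)).state = true

/-- Numbers for the moves. -/
def Move.code : Move → ℕ
  | Move.left => 0
  | Move.stay => 1
  | Move.right => 2

/-- Codes of machines: `(n, m, start, halting table, transition table)`. -/
abbrev TMCode : Type := ℕ × ℕ × ℕ × List Bool × List (List (ℕ × ℕ × ℕ))

/-- The code of a machine. -/
def TM.code (M : TM) : TMCode :=
  (M.n, M.m, M.start.val, List.ofFn M.halting,
    List.ofFn fun q => List.ofFn fun s =>
      ((M.step q s).1.val, (M.step q s).2.1.val, (M.step q s).2.2.code))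

/-! ## Effectivity -/

/-- Codes of rational numbers: `(a, b, c)` stands for `(a - b) / (c + 1)`. -/
abbrev QCode : Type := ℕ × ℕ × ℕ

/-- The rational number with a given code. -/
noncomputable def ratVal (r : QCode) : ℝ := ((r.1 : ℝ) - (r.2.1 : ℝ)) / ((r.2.2 : ℝ) + 1)

/-- A computable real number. -/
def IsComputableReal (ν : ℝ) : Prop :=
  ∃ g : ℕ → QCode, Computable g ∧ ∀ k : ℕ, |ratVal (g k) - ν| ≤ 1 / ((k : ℝ) + 1)

/-- Partial derivative of a function of four variables `(t, x, y, z)`. -/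
noncomputable def pd4 (j : Fin 4) (g : (Fin 4 → ℝ) → ℝ) (w : Fin 4 → ℝ) : ℝ :=
  fderiv ℝ g w (Pi.single j 1)

/-- The mixed derivative `∂ₜᵃ ∂ₓᵇ ∂_yᶜ ∂_zᵈ g` for `α = (a, b, c, d)`. -/
noncomputable def mixedDeriv (α : ℕ × ℕ × ℕ × ℕ) (g : (Fin 4 → ℝ) → ℝ) : (Fin 4 → ℝ) → ℝ :=
  (pd4 0)^[α.1] ((pd4 1)^[α.2.1] ((pd4 2)^[α.2.2.1] ((pd4 3)^[α.2.2.2] g)))

/-- The program `c` returns every mixed derivative of every component of `f` at every rational
point of `ℝ × 𝕋³` to every prescribed accuracy `1 / (k + 1)`. -/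
def IsProgramFor (c : Nat.Partrec.Code) (f : ℝ → R3 → R3) : Prop :=
  ∀ (i : Fin 3) (α : ℕ × ℕ × ℕ × ℕ) (t x y z : QCode) (k : ℕ),
    ∃ r : QCode, Encodable.encode r ∈ c.eval (Encodable.encode (i.val, α, (t, x, y, z), k)) ∧
      |ratVal r - mixedDeriv α (fun w => f (w 0) ![w 1, w 2, w 3] i)
        ![ratVal t, ratVal x, ratVal y, ratVal z]| ≤ 1 / ((k : ℝ) + 1)

/-- A smooth vector field (or function) on `ℝ × 𝕋³`. -/
def SmoothField {β : Type} [NormedAddCommGroup β] [NormedSpace ℝ β] (g : ℝ → R3 → β) : Prop :=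
  ContDiff ℝ (⊤ : ℕ∞) (fun z : ℝ × R3 => g z.1 z.2) ∧ ∀ t, Periodic3 (g t)

/-- `compile` is a force compiler, and `f M w` is the force given by the program
`compile (M, w)`. -/
structure IsForceCompiler (compile : TMCode × List ℕ → Nat.Partrec.Code)
    (f : (M : TM) → List (Fin (M.m + 1)) → ℝ → R3 → R3) : Prop where
  computable : Computable compile
  smooth : ∀ M w, SmoothField (f M w)
  program : ∀ M w, IsProgramFor (compile (M.code, w.map Fin.val)) (f M w)
  eventually_periodic : ∃ T₀ : ℝ, 0 ≤ T₀ ∧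
    (∀ M w, ∃ P : ℝ, 0 < P ∧ ∀ t, T₀ ≤ t → ∀ x, f M w (t + P) x = f M w t x) ∧
    (∀ M w w' t, T₀ ≤ t → ∀ x, f M w t x = f M w' t x)

end Vale.Agent.P113
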