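import Vale.Agent.Lib.P113.QCode

/-! Families of real numbers that are approximable primitive recursively, uniformly. -/

namespace Vale.Agent.P113

/-- `F` is a family of real numbers approximable primitive recursively and uniformly. -/
def RA {β : Type} [Primcodable β] (F : β → ℝ) : Prop :=
  ∃ A : β × ℕ → QCode, Primrec A ∧ ∀ b k, |ratVal (A (b, k)) - F b| ≤ 1 / ((k : ℝ) + 1)

namespace RA

variable {β γ σ : Type} [Primcodable β] [Primcodable γ] [Primcodable σ]

theorem of_code {f : β → QCode} (hf : Primrec f) : RA (fun b => ratVal (f b)) :=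
  ⟨fun p => f p.1, hf.comp Primrec.fst, fun b k => by simp; positivity⟩

theorem comp {F : β → ℝ} (hF : RA F) {f : γ → β} (hf : Primrec f) : RA (fun c => F (f c)) := by
  obtain ⟨A, hA, h⟩ := hF
  exact ⟨fun p => A (f p.1, p.2), hA.comp (Primrec.pair (hf.comp Primrec.fst) Primrec.snd),
    fun c k => h (f c) k⟩

theorem congr {F G : β → ℝ} (hF : RA F) (h : ∀ b, F b = G b) : RA G := by
  have : F = G := funext h
  rwa [← this]

theorem const (n : ℕ) : RA (fun _ : β => (n : ℝ)) :=
  (of_code (Primrec.const (qnat n))).congr fun _ => by simp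

theorem natCast {f : β → ℕ} (hf : Primrec f) : RA (fun b => (f b : ℝ)) :=
  (of_code (primrec_qnat.comp hf)).congr fun _ => by simp

theorem neg {F : β → ℝ} (hF : RA F) : RA (fun b => - F b) := by
  obtain ⟨A, hA, h⟩ := hF
  refine ⟨fun p => qneg (A p), primrec_qneg.comp hA, fun b k => ?_⟩
  rw [ratVal_qneg]
  have := h b k
  rwa [show -ratVal (A (b, k)) - -F b = -(ratVal (A (b, k)) - F b) by ring, abs_neg]

theorem add {F G : β → ℝ} (hF : RA F) (hG : RA G) : RA (fun b => F b + G b) := by
  obtain ⟨A, hA, h⟩ := hF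
  obtain ⟨B, hB, h'⟩ := hG
  have hk : Primrec (fun p : β × ℕ => (p.1, 2 * p.2 + 1)) :=
    Primrec.pair Primrec.fst (pr_succ (pr_mul (Primrec.const 2) Primrec.snd))
  refine ⟨fun p => qadd (A (p.1, 2 * p.2 + 1)) (B (p.1, 2 * p.2 + 1)),
    primrec_qadd.comp (hA.comp hk) (hB.comp hk), fun b k => ?_⟩
  rw [ratVal_qadd]
  have h1 := h b (2 * k + 1)
  have h2 := h' b (2 * k + 1)
  rw [show ratVal (A (b, 2 * k + 1)) + ratVal (B (b, 2 * k + 1)) - (F b + G b) =
    (ratVal (A (b, 2 * k + 1)) - F b) + (ratVal (B (b, 2 * k + 1)) - G b) by ring]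
  refine (abs_add_le _ _).trans ((add_le_add h1 h2).trans (le_of_eq ?_))
  push_cast
  field_simp
  ring

theorem sub {F G : β → ℝ} (hF : RA F) (hG : RA G) : RA (fun b => F b - G b) :=
  (hF.add hG.neg).congr fun _ => by ring

theorem mul {F G : β → ℝ} (hF : RA F) (hG : RA G) : RA (fun b => F b * G b) := by
  obtain ⟨A, hA, h⟩ := hF
  obtain ⟨B, hB, h'⟩ := hG
  let K : β × ℕ → ℕ := fun p => (qbd (A (p.1, 0)) + qbd (B (p.1, 0)) + 3) * (p.2 + 1)
  have h0 : Primrec (fun p : β × ℕ => (p.1, 0)) := Primrec.pair Primrec.fst (Primrec.const 0)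
  have hK : Primrec K := pr_mul (pr_add (pr_add (primrec_qbd.comp (hA.comp h0))
    (primrec_qbd.comp (hB.comp h0))) (Primrec.const 3)) (pr_succ Primrec.snd)
  have hk : Primrec (fun p : β × ℕ => (p.1, K p)) := Primrec.pair Primrec.fst hK
  refine ⟨fun p => qmul (A (p.1, K p)) (B (p.1, K p)),
    primrec_qmul.comp (hA.comp hk) (hB.comp hk), fun b k => ?_⟩
  rw [ratVal_qmul]
  have hKv : ((K (b, k) : ℕ) : ℝ) = ((qbd (A (b, 0)) : ℝ) + qbd (B (b, 0)) + 3) * (k + 1) := by
    simp only [K]; push_cast; ring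
  generalize hKe : K (b, k) = N at hKv
  simp only
  have h1 := h b N
  have h2 := h' b N
  have h3 := h b 0
  have h4 := h' b 0
  have a1 := abs_ratVal_le (A (b, 0))
  have a2 := abs_ratVal_le (B (b, 0))
  set MA : ℝ := ((qbd (A (b, 0)) : ℕ) : ℝ) with hMA
  set MB : ℝ := ((qbd (B (b, 0)) : ℕ) : ℝ) with hMB
  have hMA0 : 0 ≤ MA := Nat.cast_nonneg _
  have hMB0 : 0 ≤ MB := Nat.cast_nonneg _
  simp only [Nat.cast_zero, zero_add, div_one] at h3 h4
  have hFb : |F b| ≤ MA + 1 := by
    have e : F b = ratVal (A (b, 0)) - (ratVal (A (b, 0)) - F b) := by ring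
    rw [e]; refine (abs_sub _ _).trans ?_; linarith
  have hGb : |G b| ≤ MB + 1 := by
    have e : G b = ratVal (B (b, 0)) - (ratVal (B (b, 0)) - G b) := by ring
    rw [e]; refine (abs_sub _ _).trans ?_; linarith
  have hN1 : (1 : ℝ) / ((N : ℝ) + 1) ≤ 1 := by
    rw [div_le_one (by positivity)]; linarith [Nat.cast_nonneg (α := ℝ) N]
  have hBN : |ratVal (B (b, N))| ≤ MB + 2 := by
    have e : ratVal (B (b, N)) = G b + (ratVal (B (b, N)) - G b) := by ring
    rw [e]; refine (abs_add_le _ _).trans ?_; linarith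
  have e : ratVal (A (b, N)) * ratVal (B (b, N)) - F b * G b
      = (ratVal (A (b, N)) - F b) * ratVal (B (b, N)) + F b * (ratVal (B (b, N)) - G b) := by ring
  rw [e]
  calc |(ratVal (A (b, N)) - F b) * ratVal (B (b, N)) + F b * (ratVal (B (b, N)) - G b)|
      ≤ |ratVal (A (b, N)) - F b| * |ratVal (B (b, N))| + |F b| * |ratVal (B (b, N)) - G b| := by
        refine (abs_add_le _ _).trans ?_
        rw [abs_mul, abs_mul]
    _ ≤ 1 / ((N : ℝ) + 1) * (MB + 2) + (MA + 1) * (1 / ((N : ℝ) + 1)) := by gcongr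
    _ = (MA + MB + 3) / ((N : ℝ) + 1) := by ring
    _ ≤ 1 / ((k : ℝ) + 1) := by
        rw [div_le_div_iff₀ (by positivity) (by positivity), hKv]
        nlinarith

theorem list_sum {F : β × σ → ℝ} (hF : RA F) {L : β → List σ} (hL : Primrec L) :
    RA (fun b => ((L b).map fun x => F (b, x)).sum) := by
  obtain ⟨A, hA, h⟩ := hF
  have hN : Primrec (fun p : β × ℕ => (L p.1).length * (p.2 + 1)) :=
    pr_mul (Primrec.list_length.comp (hL.comp Primrec.fst)) (pr_succ Primrec.snd)
  refine ⟨fun p => qsum ((L p.1).map fun x => A ((p.1, x), (L p.1).length * (p.2 + 1))),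
    primrec_qsum.comp (Primrec.list_map (hL.comp Primrec.fst) ?_), fun b k => ?_⟩
  · exact hA.comp (Primrec.pair (Primrec.pair (Primrec.fst.comp Primrec.fst) Primrec.snd)
      (hN.comp Primrec.fst))
  · rw [ratVal_qsum, List.map_map]
    have key : ∀ (l : List σ) (N : ℕ),
        |(l.map (ratVal ∘ fun x => A ((b, x), N))).sum - (l.map fun x => F (b, x)).sum|
          ≤ l.length * (1 / ((N : ℝ) + 1)) := by
      intro l N
      induction l with
      | nil => simp
      | cons a l ih =>
        simp only [List.map_cons, List.sum_cons, List.length_cons, Function.comp]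
        have e : ratVal (A ((b, a), N)) + (l.map fun x => ratVal (A ((b, x), N))).sum
            - (F (b, a) + (l.map fun x => F (b, x)).sum)
            = (ratVal (A ((b, a), N)) - F (b, a)) +
              ((l.map fun x => ratVal (A ((b, x), N))).sum - (l.map fun x => F (b, x)).sum) := by
          ring
        change |ratVal (A ((b, a), N)) + (l.map fun x => ratVal (A ((b, x), N))).sum
            - (F (b, a) + (l.map fun x => F (b, x)).sum)| ≤ _
        rw [e]
        refine (abs_add_le _ _).trans ?_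
        have h1 := h (b, a) N
        have h2 : |(l.map fun x => ratVal (A ((b, x), N))).sum - (l.map fun x => F (b, x)).sum|
          ≤ l.length * (1 / ((N : ℝ) + 1)) := ih
        push_cast
        linarith
    refine (key (L b) _).trans ?_
    push_cast
    rw [mul_one_div, div_le_div_iff₀ (by positivity) (by positivity)]
    have := Nat.cast_nonneg (α := ℝ) (L b).length
    nlinarith [Nat.cast_nonneg (α := ℝ) k]

theorem sum_range {F : β × ℕ → ℝ} (hF : RA F) {N : β → ℕ} (hN : Primrec N) :
    RA (fun b => ∑ i ∈ Finset.range (N b), F (b, i)) := by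
  refine (list_sum hF (Primrec.list_range.comp hN)).congr fun b => ?_
  induction N b with
  | zero => simp
  | succ n ih =>
    rw [List.range_succ, List.map_append, List.sum_append, ih, Finset.sum_range_succ]; simp

theorem cond {F G : β → ℝ} (hF : RA F) (hG : RA G) {c : β → Bool} (hc : Primrec c) :
    RA (fun b => bif c b then F b else G b) := by
  obtain ⟨A, hA, h⟩ := hF
  obtain ⟨B, hB, h'⟩ := hG
  refine ⟨fun p => bif c p.1 then A p else B p, Primrec.cond (hc.comp Primrec.fst) hA hB,
    fun b k => ?_⟩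
  cases hcb : c b with
  | true => simpa [hcb] using h b k
  | false => simpa [hcb] using h' b k

theorem pow {f : β → QCode} (hf : Primrec f) {n : β → ℕ} (hn : Primrec n) :
    RA (fun b => ratVal (f b) ^ n b) :=
  (of_code (primrec_qpow.comp hf hn)).congr fun _ => by simp

end RA

theorem primrec_factorial : Primrec Nat.factorial := by
  have h : Primrec₂ (fun (_ : Unit) (n : ℕ) =>
      (Nat.rec (motive := fun _ => ℕ) 1 (fun m r => (m + 1) * r) n : ℕ)) :=
    Primrec.nat_rec (f := fun _ : Unit => (1 : ℕ))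
      (g := fun (_ : Unit) (p : ℕ × ℕ) => (p.1 + 1) * p.2) (Primrec.const 1)
      (pr_mul (pr_succ (Primrec.fst.comp Primrec.snd)) (Primrec.snd.comp Primrec.snd)).to₂
  refine (h.comp (Primrec.const ()) Primrec.id).of_eq fun n => ?_
  induction n with
  | zero => rfl
  | succ n ih => rw [Nat.factorial_succ, ← ih]; rfl

theorem primrec_descFactorial : Primrec₂ Nat.descFactorial := by
  have h : Primrec₂ (fun (a n : ℕ) =>
      (Nat.rec (motive := fun _ => ℕ) 1 (fun m r => (a - m) * r) n : ℕ)) :=
    Primrec.nat_rec (f := fun _ : ℕ => (1 : ℕ))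
      (g := fun (a : ℕ) (p : ℕ × ℕ) => (a - p.1) * p.2) (Primrec.const 1)
      (pr_mul (pr_sub Primrec.fst (Primrec.fst.comp Primrec.snd))
        (Primrec.snd.comp Primrec.snd)).to₂
  refine h.of_eq fun a n => ?_
  induction n with
  | zero => rfl
  | succ n ih => rw [Nat.descFactorial_succ, ← ih]

theorem primrec_choose : Primrec₂ Nat.choose := by
  have h : Primrec₂ (fun n k : ℕ => n.descFactorial k / k.factorial) :=
    Primrec.nat_div.comp primrec_descFactorial (primrec_factorial.comp Primrec.snd)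
  exact h.of_eq fun n k => (Nat.choose_eq_descFactorial_div_factorial n k).symm

end Vale.Agent.P113
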