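import Vale.Agent.Lib.P113.Terms
import Vale.Agent.Lib.P113.RA

/-! # D2: effective families of smooth functions of one variable -/

open Set

namespace Vale.Agent.P113

/-- A family of smooth functions of one variable all of whose derivatives can be computed at
rational points, primitive recursively and uniformly in the parameter. -/
def Eff1 {α : Type} [Primcodable α] (q : α → ℝ → ℝ) : Prop :=
  (∀ a, ContDiff ℝ (⊤ : ℕ∞) (q a)) ∧
  ∃ A : α × ℕ × QCode × ℕ → QCode, Primrec A ∧ ∀ (a : α) (n : ℕ) (s : QCode) (k : ℕ),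
    |ratVal (A (a, n, s, k)) - iteratedDeriv n (q a) (ratVal s)| ≤ 1 / ((k : ℝ) + 1)

section
variable {α β : Type} [Primcodable α] [Primcodable β]

theorem eff1_iff (q : α → ℝ → ℝ) : Eff1 q ↔ (∀ a, ContDiff ℝ (⊤ : ℕ∞) (q a)) ∧
    RA (fun x : α × ℕ × QCode => iteratedDeriv x.2.1 (q x.1) (ratVal x.2.2)) := by
  unfold Eff1 RA
  refine and_congr_right fun _ => ⟨?_, ?_⟩
  · rintro ⟨A, hA, h⟩
    refine ⟨fun p => A (p.1.1, p.1.2.1, p.1.2.2, p.2), hA.comp ?_, fun b k => h _ _ _ _⟩
    exact Primrec.pair (Primrec.fst.comp Primrec.fst)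
      (Primrec.pair (Primrec.fst.comp (Primrec.snd.comp Primrec.fst))
        (Primrec.pair (Primrec.snd.comp (Primrec.snd.comp Primrec.fst)) Primrec.snd))
  · rintro ⟨A, hA, h⟩
    refine ⟨fun p => A ((p.1, p.2.1, p.2.2.1), p.2.2.2), hA.comp ?_, fun a n s k => h _ _⟩
    exact Primrec.pair (Primrec.pair Primrec.fst (Primrec.pair (Primrec.fst.comp Primrec.snd)
      (Primrec.fst.comp (Primrec.snd.comp Primrec.snd))))
      (Primrec.snd.comp (Primrec.snd.comp Primrec.snd))

theorem Eff1.param {q : α → ℝ → ℝ} (hq : Eff1 q) {f : β → α} (hf : Primrec f) :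
    Eff1 (fun b => q (f b)) := by
  rw [eff1_iff] at *
  refine ⟨fun b => hq.1 _, ?_⟩
  exact hq.2.comp (f := fun x : β × ℕ × QCode => (f x.1, x.2)) (Primrec.pair (hf.comp Primrec.fst)
    Primrec.snd)

theorem Eff1.congr {q r : α → ℝ → ℝ} (hq : Eff1 q) (h : ∀ a s, q a s = r a s) : Eff1 r := by
  have : q = r := by funext a s; exact h a s
  rwa [← this]

theorem Eff1.mul {q r : α → ℝ → ℝ} (hq : Eff1 q) (hr : Eff1 r) :
    Eff1 (fun a s => q a s * r a s) := by
  rw [eff1_iff] at *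
  refine ⟨fun a => (hq.1 a).mul (hr.1 a), ?_⟩
  have hF : RA (fun y : (α × ℕ × QCode) × ℕ =>
      (((y.1.2.1.choose y.2 : ℕ) : ℝ) * iteratedDeriv y.2 (q y.1.1) (ratVal y.1.2.2)) *
        iteratedDeriv (y.1.2.1 - y.2) (r y.1.1) (ratVal y.1.2.2)) := by
    refine RA.mul (RA.mul (RA.natCast ?_) ?_) ?_
    · exact primrec_choose.comp (Primrec.fst.comp (Primrec.snd.comp Primrec.fst)) Primrec.snd
    · exact hq.2.comp (f := fun y : (α × ℕ × QCode) × ℕ => (y.1.1, y.2, y.1.2.2))
        (Primrec.pair (Primrec.fst.comp Primrec.fst) (Primrec.pair Primrec.snd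
          (Primrec.snd.comp (Primrec.snd.comp Primrec.fst))))
    · exact hr.2.comp (f := fun y : (α × ℕ × QCode) × ℕ => (y.1.1, y.1.2.1 - y.2, y.1.2.2))
        (Primrec.pair (Primrec.fst.comp Primrec.fst) (Primrec.pair
          (pr_sub (Primrec.fst.comp (Primrec.snd.comp Primrec.fst)) Primrec.snd)
          (Primrec.snd.comp (Primrec.snd.comp Primrec.fst))))
  refine (RA.sum_range hF (N := fun x => x.2.1 + 1)
    (pr_succ (Primrec.fst.comp Primrec.snd))).congr fun x => ?_
  have := iteratedDeriv_fun_mul (n := x.2.1) (x := ratVal x.2.2)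
    (f := q x.1) (g := r x.1) ((hq.1 x.1).contDiffAt.of_le (by exact_mod_cast le_top))
    ((hr.1 x.1).contDiffAt.of_le (by exact_mod_cast le_top))
  rw [this]

theorem iteratedDeriv_comp_affine {f : ℝ → ℝ} (hf : ContDiff ℝ (⊤ : ℕ∞) f) (n : ℕ) (c d s : ℝ) :
    iteratedDeriv n (fun s => f (c * s + d)) s = c ^ n * iteratedDeriv n f (c * s + d) := by
  have h1 : ContDiff ℝ n (fun z => f (z + d)) :=
    (hf.comp (contDiff_id.add contDiff_const)).of_le (by exact_mod_cast le_top)
  have h2 := iteratedDeriv_comp_const_mul h1 c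
  rw [iteratedDeriv_comp_add_const] at h2
  exact congrFun h2 s

/-- `s ↦ q (c s + d)` for rational `c`, `d`. -/
theorem Eff1.affine {q : α → ℝ → ℝ} (hq : Eff1 q) {c d : α → QCode} (hc : Primrec c)
    (hd : Primrec d) : Eff1 (fun a s => q a (ratVal (c a) * s + ratVal (d a))) := by
  rw [eff1_iff] at *
  refine ⟨fun a => (hq.1 a).comp ((contDiff_const.mul contDiff_id).add contDiff_const), ?_⟩
  have h1 : RA (fun x : α × ℕ × QCode => ratVal (c x.1) ^ x.2.1) :=
    RA.pow (hc.comp Primrec.fst) (Primrec.fst.comp Primrec.snd)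
  have h2 := hq.2.comp (f := fun x : α × ℕ × QCode =>
    (x.1, x.2.1, qadd (qmul (c x.1) x.2.2) (d x.1)))
    (Primrec.pair Primrec.fst (Primrec.pair (Primrec.fst.comp Primrec.snd)
      (primrec_qadd.comp (primrec_qmul.comp (hc.comp Primrec.fst)
        (Primrec.snd.comp Primrec.snd)) (hd.comp Primrec.fst))))
  refine (h1.mul h2).congr fun x => ?_
  rw [iteratedDeriv_comp_affine (hq.1 x.1)]
  simp

theorem Eff1.fab : Eff1 (fun (_ : α) => fab) := by
  refine ⟨fun _ => fab_contDiff, ?_⟩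
  obtain ⟨A, hA, h⟩ := fab_effective
  exact ⟨fun p => A p.2, hA.comp Primrec.snd, fun a n s k => h n s k⟩

theorem iteratedDeriv_affine (n : ℕ) (a b s : ℝ) :
    iteratedDeriv n (fun s => a + b * s) s = if n = 0 then a + b * s else if n = 1 then b else 0 := by
  rcases n with _ | _ | n
  · simp
  · simp [iteratedDeriv_one]
  · have h : deriv (fun s => a + b * s) = fun _ => b := by
      funext s; simp
    rw [iteratedDeriv_succ', h, iteratedDeriv_const]
    simp

theorem Eff1.lin {a b : α → QCode} (ha : Primrec a) (hb : Primrec b) :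
    Eff1 (fun x s => ratVal (a x) + ratVal (b x) * s) := by
  rw [eff1_iff]
  refine ⟨fun x => contDiff_const.add (contDiff_const.mul contDiff_id), ?_⟩
  have h0 : RA (fun x : α × ℕ × QCode => ratVal (a x.1) + ratVal (b x.1) * ratVal x.2.2) :=
    (RA.of_code (ha.comp Primrec.fst)).add ((RA.of_code (hb.comp Primrec.fst)).mul
      (RA.of_code (Primrec.snd.comp Primrec.snd)))
  have h1 : RA (fun x : α × ℕ × QCode => ratVal (b x.1)) := RA.of_code (hb.comp Primrec.fst)
  have h2 : RA (fun x : α × ℕ × QCode => ((0 : ℕ) : ℝ)) := RA.const 0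
  have hn : Primrec (fun x : α × ℕ × QCode => x.2.1) := Primrec.fst.comp Primrec.snd
  have d0 : Primrec (fun x : α × ℕ × QCode => decide (x.2.1 = 0)) :=
    PrimrecPred.decide (Primrec.eq.comp hn (Primrec.const 0))
  have d1 : Primrec (fun x : α × ℕ × QCode => decide (x.2.1 = 1)) :=
    PrimrecPred.decide (Primrec.eq.comp hn (Primrec.const 1))
  refine (RA.cond h0 (RA.cond h1 h2 d1) d0).congr fun x => ?_
  rw [iteratedDeriv_affine]
  by_cases e0 : x.2.1 = 0
  · simp [e0]
  · by_cases e1 : x.2.1 = 1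
    · simp [e1]
    · simp [e0, e1]

theorem Eff1.cond {q r : α → ℝ → ℝ} (hq : Eff1 q) (hr : Eff1 r) {c : α → Bool}
    (hc : Primrec c) : Eff1 (fun a s => bif c a then q a s else r a s) := by
  rw [eff1_iff] at *
  refine ⟨fun a => ?_, ?_⟩
  · cases h : c a with
    | true => simpa [h] using hq.1 a
    | false => simpa [h] using hr.1 a
  · refine (RA.cond hq.2 hr.2 (hc.comp Primrec.fst)).congr fun x => ?_
    cases h : c x.1 with
    | true => simp
    | false => simp

theorem rep_locally {q : ℝ → ℝ} (h0 : ∀ s, s ≤ -1 / 8 ∨ 5 / 8 ≤ s → q s = 0) (s₀ : ℝ) :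
    (fun s => q (rep s)) =ᶠ[nhds s₀] fun s => q (s - ⌊s₀ + 1 / 4⌋) := by
  set m : ℤ := ⌊s₀ + 1 / 4⌋ with hm
  have h1 : (m : ℝ) ≤ s₀ + 1 / 4 := Int.floor_le _
  have h2 : s₀ + 1 / 4 < m + 1 := Int.lt_floor_add_one _
  have hU : Ioo ((m : ℝ) - 3 / 8) (m + 3 / 4) ∈ nhds s₀ :=
    Ioo_mem_nhds (by linarith) (by linarith)
  filter_upwards [hU] with s hs
  obtain ⟨ha, hb⟩ := hs
  rcases le_or_gt ((m : ℝ) - 1 / 4) s with hc | hc
  · have hf : ⌊s + 1 / 4⌋ = m := by
      rw [Int.floor_eq_iff]; constructor <;> linarith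
    have : rep s = s - m := by
      rw [rep, ← Int.self_sub_floor, hf]; ring
    rw [this]
  · have hf : ⌊s + 1 / 4⌋ = m - 1 := by
      rw [Int.floor_eq_iff]; push_cast; constructor <;> linarith
    have : rep s = s - m + 1 := by
      rw [rep, ← Int.self_sub_floor, hf]; push_cast; ring
    rw [this, h0 (s - m + 1) (Or.inr (by linarith)), h0 (s - m) (Or.inl (by linarith))]

theorem Eff1.periodize {q : α → ℝ → ℝ} (hq : Eff1 q)
    (h0 : ∀ a s, s ≤ -1 / 8 ∨ 5 / 8 ≤ s → q a s = 0) : Eff1 (fun a s => q a (rep s)) := by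
  rw [eff1_iff] at *
  refine ⟨fun a => ?_, ?_⟩
  · rw [contDiff_iff_contDiffAt]
    intro s
    refine ContDiffAt.congr_of_eventuallyEq ?_ (rep_locally (h0 a) s)
    exact ((hq.1 a).comp (contDiff_id.sub contDiff_const)).contDiffAt
  · have hr : Primrec (fun s : QCode => qsub (qfract (qadd s (1, 0, 3))) (1, 0, 3)) :=
      primrec_qsub.comp (primrec_qfract.comp (primrec_qadd.comp Primrec.id (Primrec.const _)))
        (Primrec.const _)
    refine (hq.2.comp (f := fun x : α × ℕ × QCode =>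
      (x.1, x.2.1, qsub (qfract (qadd x.2.2 (1, 0, 3))) (1, 0, 3)))
      (Primrec.pair Primrec.fst (Primrec.pair (Primrec.fst.comp Primrec.snd)
        (hr.comp (Primrec.snd.comp Primrec.snd))))).congr fun x => ?_
    have e4 : ratVal (1, 0, 3) = 1 / 4 := by norm_num [ratVal]
    rw [Filter.EventuallyEq.iteratedDeriv_eq _ (rep_locally (h0 x.1) (ratVal x.2.2)),
      iteratedDeriv_comp_sub_const]
    simp only [ratVal_qsub, ratVal_qfract, ratVal_qadd, e4]
    congr 1
    rw [← Int.self_sub_floor]; ring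

end

theorem cut_eq_zero (s : ℝ) (h : s ≤ -1 / 8 ∨ 5 / 8 ≤ s) : cut s = 0 := by
  unfold cut
  rcases h with h | h
  · rw [fab_of_nonpos (by linarith : 16 * s + 2 ≤ 0)]; ring
  · rw [fab_of_nonpos (by linarith : 10 - 16 * s ≤ 0)]; ring

/-- the atom as an effective family -/
theorem atom_eff : Eff1 (fun (F : FacCode) s => atom (ratVal F.2.1) (ratVal F.2.2.1)
    (ratVal F.2.2.2.1) (ratVal F.2.2.2.2.1) (ratVal F.2.2.2.2.2.1) (ratVal F.2.2.2.2.2.2) s) := by
  have p0 : Primrec (fun F : FacCode => F.2) := Primrec.snd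
  have p1 := Primrec.snd.comp p0
  have p2 := Primrec.snd.comp p1
  have p3 := Primrec.snd.comp p2
  have p4 := Primrec.snd.comp p3
  have h1 : Eff1 (fun (F : FacCode) s => ratVal F.2.1 + ratVal F.2.2.1 * s) :=
    Eff1.lin (Primrec.fst.comp p0) (Primrec.fst.comp p1)
  have h2 : Eff1 (fun (F : FacCode) s => fab (ratVal F.2.2.2.1 * s + ratVal F.2.2.2.2.1)) :=
    Eff1.fab.affine (Primrec.fst.comp p2) (Primrec.fst.comp p3)
  have h3 : Eff1 (fun (F : FacCode) s => fab (ratVal F.2.2.2.2.2.1 * s + ratVal F.2.2.2.2.2.2)) :=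
    Eff1.fab.affine (Primrec.fst.comp p4) (Primrec.snd.comp p4)
  exact ((h1.mul h2).mul h3).congr fun F s => rfl

theorem cut_eff : Eff1 (fun (_ : FacCode) s => cut s) := by
  have h2 : Eff1 (fun (F : FacCode) s => fab (ratVal (16, 0, 0) * s + ratVal (2, 0, 0))) :=
    Eff1.fab.affine (Primrec.const _) (Primrec.const _)
  have h3 : Eff1 (fun (F : FacCode) s => fab (ratVal (0, 16, 0) * s + ratVal (10, 0, 0))) :=
    Eff1.fab.affine (Primrec.const _) (Primrec.const _)
  refine (h2.mul h3).congr fun F s => ?_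
  have e1 : ratVal (16, 0, 0) * s + ratVal (2, 0, 0) = 16 * s + 2 := by norm_num [ratVal]
  have e2 : ratVal (0, 16, 0) * s + ratVal (10, 0, 0) = 10 - 16 * s := by
    norm_num [ratVal]; ring
  rw [e1, e2, cut]

/-- D2 goal. -/
theorem evalFac_eff : Eff1 evalFac := by
  have hone : Eff1 (fun (_ : FacCode) (_ : ℝ) => (1 : ℝ)) := by
    refine (Eff1.lin (a := fun _ : FacCode => qnat 1) (b := fun _ => qnat 0)
      (Primrec.const _) (Primrec.const _)).congr fun F s => ?_
    simp
  have hper : Eff1 (fun (F : FacCode) s => atom (ratVal F.2.1) (ratVal F.2.2.1)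
      (ratVal F.2.2.2.1) (ratVal F.2.2.2.2.1) (ratVal F.2.2.2.2.2.1) (ratVal F.2.2.2.2.2.2) (rep s)
        * cut (rep s)) :=
    (atom_eff.mul cut_eff).periodize fun F s h => by rw [cut_eq_zero s h, mul_zero]
  have hn : Primrec (fun F : FacCode => F.1) := Primrec.fst
  have d0 : Primrec (fun F : FacCode => decide (F.1 = 0)) :=
    PrimrecPred.decide (Primrec.eq.comp hn (Primrec.const 0))
  have d1 : Primrec (fun F : FacCode => decide (F.1 = 1)) :=
    PrimrecPred.decide (Primrec.eq.comp hn (Primrec.const 1))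
  refine (hone.cond (hper.cond atom_eff d1) d0).congr fun F s => ?_
  obtain ⟨k, a, b, c₁, d₁, c₂, d₂⟩ := F
  rcases k with _ | _ | k
  · simp [evalFac]
  · simp [evalFac]
  · simp [evalFac]

theorem evalFac_contDiff (F : FacCode) : ContDiff ℝ (⊤ : ℕ∞) (evalFac F) := evalFac_eff.1 F

end Vale.Agent.P113
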