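import Vale.Agent.Lib.P113.Eff1

/-! # Mixed derivatives of finite sums of product functions -/

open Set

namespace Vale.Agent.P113

/-- Finite sums of product functions, with variable factors. -/
noncomputable def prodSum (e₀ e₁ e₂ e₃ : TermCode → ℝ → ℝ) (L : List TermCode)
    (w : Fin 4 → ℝ) : ℝ :=
  (L.map fun τ => ratVal τ.1 * e₀ τ (w 0) * e₁ τ (w 1) * e₂ τ (w 2) * e₃ τ (w 3)).sum

theorem hasFDerivAt_coord (i : Fin 4) (w : Fin 4 → ℝ) :
    HasFDerivAt (fun w : Fin 4 → ℝ => w i)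
      (ContinuousLinearMap.proj (R := ℝ) (φ := fun _ : Fin 4 => ℝ) i) w :=
  (ContinuousLinearMap.proj (R := ℝ) (φ := fun _ : Fin 4 => ℝ) i).hasFDerivAt

/-- Partial derivatives of products. -/
theorem pd4_prod {c : ℝ} {g : Fin 4 → ℝ → ℝ} (hg : ∀ i, Differentiable ℝ (g i)) (j : Fin 4)
    (w : Fin 4 → ℝ) :
    HasFDerivAt (fun w : Fin 4 → ℝ => c * g 0 (w 0) * g 1 (w 1) * g 2 (w 2) * g 3 (w 3))
      (fderiv ℝ (fun w : Fin 4 → ℝ => c * g 0 (w 0) * g 1 (w 1) * g 2 (w 2) * g 3 (w 3)) w) w ∧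
    pd4 j (fun w : Fin 4 → ℝ => c * g 0 (w 0) * g 1 (w 1) * g 2 (w 2) * g 3 (w 3)) w
      = c * (if j = 0 then deriv (g 0) (w 0) else g 0 (w 0))
          * (if j = 1 then deriv (g 1) (w 1) else g 1 (w 1))
          * (if j = 2 then deriv (g 2) (w 2) else g 2 (w 2))
          * (if j = 3 then deriv (g 3) (w 3) else g 3 (w 3)) := by
  have h : ∀ i : Fin 4, HasFDerivAt (fun w : Fin 4 → ℝ => g i (w i))
      (deriv (g i) (w i) • ContinuousLinearMap.proj (R := ℝ) (φ := fun _ : Fin 4 => ℝ) i) w := by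
    intro i
    exact ((hg i).differentiableAt.hasDerivAt (x := w i)).comp_hasFDerivAt w
      (hasFDerivAt_coord i w)
  have h0 := (hasFDerivAt_const c w).mul (h 0)
  have h1 := h0.mul (h 1)
  have h2 := h1.mul (h 2)
  have h3 := h2.mul (h 3)
  refine ⟨h3.differentiableAt.hasFDerivAt, ?_⟩
  unfold pd4
  have h4 : HasFDerivAt (fun w : Fin 4 → ℝ => c * g 0 (w 0) * g 1 (w 1) * g 2 (w 2) * g 3 (w 3))
    _ w := h3
  rw [h4.fderiv]
  fin_cases j <;> simp <;> ring

theorem pd4_prodSum {e : Fin 4 → TermCode → ℝ → ℝ} (he : ∀ i τ, Differentiable ℝ (e i τ))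
    (j : Fin 4) (L : List TermCode) :
    pd4 j (prodSum (e 0) (e 1) (e 2) (e 3) L)
      = prodSum (fun τ => if j = 0 then deriv (e 0 τ) else e 0 τ)
          (fun τ => if j = 1 then deriv (e 1 τ) else e 1 τ)
          (fun τ => if j = 2 then deriv (e 2 τ) else e 2 τ)
          (fun τ => if j = 3 then deriv (e 3 τ) else e 3 τ) L := by
  have key : ∀ w, DifferentiableAt ℝ (prodSum (e 0) (e 1) (e 2) (e 3) L) w ∧
      pd4 j (prodSum (e 0) (e 1) (e 2) (e 3) L) w
      = prodSum (fun τ => if j = 0 then deriv (e 0 τ) else e 0 τ)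
          (fun τ => if j = 1 then deriv (e 1 τ) else e 1 τ)
          (fun τ => if j = 2 then deriv (e 2 τ) else e 2 τ)
          (fun τ => if j = 3 then deriv (e 3 τ) else e 3 τ) L w := by
    intro w
    induction L with
    | nil =>
      have : prodSum (e 0) (e 1) (e 2) (e 3) [] = fun _ => 0 := by
        funext w; simp [prodSum]
      rw [this]
      refine ⟨differentiableAt_const _, ?_⟩
      simp [pd4, prodSum]
    | cons τ L ih =>
      have hc : prodSum (e 0) (e 1) (e 2) (e 3) (τ :: L) = fun w =>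
          (ratVal τ.1 * e 0 τ (w 0) * e 1 τ (w 1) * e 2 τ (w 2) * e 3 τ (w 3))
            + prodSum (e 0) (e 1) (e 2) (e 3) L w := by
        funext w; simp [prodSum]
      obtain ⟨hd, hp⟩ := pd4_prod (c := ratVal τ.1) (g := fun i => e i τ) (fun i => he i τ) j w
      rw [hc]
      refine ⟨hd.differentiableAt.add ih.1, ?_⟩
      have hadd : pd4 j (fun w => (ratVal τ.1 * e 0 τ (w 0) * e 1 τ (w 1) * e 2 τ (w 2)
          * e 3 τ (w 3)) + prodSum (e 0) (e 1) (e 2) (e 3) L w) w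
          = pd4 j (fun w => (ratVal τ.1 * e 0 τ (w 0) * e 1 τ (w 1) * e 2 τ (w 2)
          * e 3 τ (w 3))) w + pd4 j (prodSum (e 0) (e 1) (e 2) (e 3) L) w := by
        unfold pd4
        rw [fderiv_fun_add hd.differentiableAt ih.1]
        rfl
      rw [hadd, hp, ih.2]
      simp only [prodSum, List.map_cons, List.sum_cons]
      congr 1
      fin_cases j <;> simp
  funext w
  exact (key w).2

theorem differentiable_iteratedDeriv_of_smooth {g : ℝ → ℝ} (hg : ContDiff ℝ (⊤ : ℕ∞) g) (n : ℕ) :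
    Differentiable ℝ (iteratedDeriv n g) :=
  hg.differentiable_iteratedDeriv n (by exact_mod_cast WithTop.coe_lt_top _)

theorem iterate_pd4_three {e₀ e₁ e₂ e₃ : TermCode → ℝ → ℝ}
    (h₀ : ∀ τ, Differentiable ℝ (e₀ τ)) (h₁ : ∀ τ, Differentiable ℝ (e₁ τ))
    (h₂ : ∀ τ, Differentiable ℝ (e₂ τ)) (h₃ : ∀ τ, ContDiff ℝ (⊤ : ℕ∞) (e₃ τ))
    (L : List TermCode) (n : ℕ) :
    (pd4 3)^[n] (prodSum e₀ e₁ e₂ e₃ L)
      = prodSum e₀ e₁ e₂ (fun τ => iteratedDeriv n (e₃ τ)) L := by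
  induction n with
  | zero => simp
  | succ n ih =>
    rw [Function.iterate_succ', Function.comp_apply, ih]
    have := pd4_prodSum (e := ![e₀, e₁, e₂, fun τ => iteratedDeriv n (e₃ τ)])
      (fun i τ => by
        fin_cases i
        · exact h₀ τ
        · exact h₁ τ
        · exact h₂ τ
        · exact differentiable_iteratedDeriv_of_smooth (h₃ τ) n) 3 L
    simp only [Matrix.cons_val_zero, Matrix.cons_val_one, Matrix.cons_val] at this
    rw [this]
    simp [iteratedDeriv_succ]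

theorem iterate_pd4_two {e₀ e₁ e₂ e₃ : TermCode → ℝ → ℝ}
    (h₀ : ∀ τ, Differentiable ℝ (e₀ τ)) (h₁ : ∀ τ, Differentiable ℝ (e₁ τ))
    (h₂ : ∀ τ, ContDiff ℝ (⊤ : ℕ∞) (e₂ τ)) (h₃ : ∀ τ, Differentiable ℝ (e₃ τ))
    (L : List TermCode) (n : ℕ) :
    (pd4 2)^[n] (prodSum e₀ e₁ e₂ e₃ L)
      = prodSum e₀ e₁ (fun τ => iteratedDeriv n (e₂ τ)) e₃ L := by
  induction n with
  | zero => simp
  | succ n ih =>
    rw [Function.iterate_succ', Function.comp_apply, ih]
    have := pd4_prodSum (e := ![e₀, e₁, fun τ => iteratedDeriv n (e₂ τ), e₃])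
      (fun i τ => by
        fin_cases i
        · exact h₀ τ
        · exact h₁ τ
        · exact differentiable_iteratedDeriv_of_smooth (h₂ τ) n
        · exact h₃ τ) 2 L
    simp only [Matrix.cons_val_zero, Matrix.cons_val_one, Matrix.cons_val] at this
    rw [this]
    simp [iteratedDeriv_succ]

theorem iterate_pd4_one {e₀ e₁ e₂ e₃ : TermCode → ℝ → ℝ}
    (h₀ : ∀ τ, Differentiable ℝ (e₀ τ)) (h₁ : ∀ τ, ContDiff ℝ (⊤ : ℕ∞) (e₁ τ))
    (h₂ : ∀ τ, Differentiable ℝ (e₂ τ)) (h₃ : ∀ τ, Differentiable ℝ (e₃ τ))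
    (L : List TermCode) (n : ℕ) :
    (pd4 1)^[n] (prodSum e₀ e₁ e₂ e₃ L)
      = prodSum e₀ (fun τ => iteratedDeriv n (e₁ τ)) e₂ e₃ L := by
  induction n with
  | zero => simp
  | succ n ih =>
    rw [Function.iterate_succ', Function.comp_apply, ih]
    have := pd4_prodSum (e := ![e₀, fun τ => iteratedDeriv n (e₁ τ), e₂, e₃])
      (fun i τ => by
        fin_cases i
        · exact h₀ τ
        · exact differentiable_iteratedDeriv_of_smooth (h₁ τ) n
        · exact h₂ τ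
        · exact h₃ τ) 1 L
    simp only [Matrix.cons_val_zero, Matrix.cons_val_one, Matrix.cons_val] at this
    rw [this]
    simp [iteratedDeriv_succ]

theorem iterate_pd4_zero {e₀ e₁ e₂ e₃ : TermCode → ℝ → ℝ}
    (h₀ : ∀ τ, ContDiff ℝ (⊤ : ℕ∞) (e₀ τ)) (h₁ : ∀ τ, Differentiable ℝ (e₁ τ))
    (h₂ : ∀ τ, Differentiable ℝ (e₂ τ)) (h₃ : ∀ τ, Differentiable ℝ (e₃ τ))
    (L : List TermCode) (n : ℕ) :
    (pd4 0)^[n] (prodSum e₀ e₁ e₂ e₃ L)
      = prodSum (fun τ => iteratedDeriv n (e₀ τ)) e₁ e₂ e₃ L := by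
  induction n with
  | zero => simp
  | succ n ih =>
    rw [Function.iterate_succ', Function.comp_apply, ih]
    have := pd4_prodSum (e := ![fun τ => iteratedDeriv n (e₀ τ), e₁, e₂, e₃])
      (fun i τ => by
        fin_cases i
        · exact differentiable_iteratedDeriv_of_smooth (h₀ τ) n
        · exact h₁ τ
        · exact h₂ τ
        · exact h₃ τ) 0 L
    simp only [Matrix.cons_val_zero, Matrix.cons_val_one, Matrix.cons_val] at this
    rw [this]
    simp [iteratedDeriv_succ]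

theorem mixedDeriv_evalTerms' (L : List TermCode) (a b c d : ℕ) (w : Fin 4 → ℝ) :
    mixedDeriv (a, b, c, d) (evalTerms L) w = (L.map fun τ =>
      ratVal τ.1 * iteratedDeriv a (evalFac τ.2.1) (w 0) * iteratedDeriv b (evalFac τ.2.2.1) (w 1)
        * iteratedDeriv c (evalFac τ.2.2.2.1) (w 2)
        * iteratedDeriv d (evalFac τ.2.2.2.2) (w 3)).sum := by
  have hs := evalFac_contDiff
  have hd : ∀ F, Differentiable ℝ (evalFac F) := fun F => (hs F).differentiable (by simp)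
  have hi := fun (F : FacCode) (n : ℕ) => differentiable_iteratedDeriv_of_smooth (hs F) n
  have h0 : evalTerms L = prodSum (fun τ => evalFac τ.2.1) (fun τ => evalFac τ.2.2.1)
      (fun τ => evalFac τ.2.2.2.1) (fun τ => evalFac τ.2.2.2.2) L := by
    funext w
    simp only [evalTerms, prodSum, evalTerm]
  unfold mixedDeriv
  simp only
  rw [h0, iterate_pd4_three (fun τ => hd _) (fun τ => hd _) (fun τ => hd _) (fun τ => hs _),
    iterate_pd4_two (fun τ => hd _) (fun τ => hd _) (fun τ => hs _) (fun τ => hi _ _),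
    iterate_pd4_one (fun τ => hd _) (fun τ => hs _) (fun τ => hi _ _) (fun τ => hi _ _),
    iterate_pd4_zero (fun τ => hs _) (fun τ => hi _ _) (fun τ => hi _ _) (fun τ => hi _ _)]
  rfl

end Vale.Agent.P113
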