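import Vale.Agent.Lib.P113.SmoothTerms
import Vale.Agent.Lib.P113.MixedTerms

/-! # D3: effective evaluation of mixed derivatives -/

open Set

namespace Vale.Agent.P113

theorem evalTerm_contDiff (τ : TermCode) : ContDiff ℝ (⊤ : ℕ∞) (evalTerm τ) :=
  contDiff_evalTerm τ

theorem evalTerms_contDiff (L : List TermCode) : ContDiff ℝ (⊤ : ℕ∞) (evalTerms L) :=
  contDiff_evalTerms L

theorem mixedDeriv_evalTerms (L : List TermCode) (a b c d : ℕ) (w : Fin 4 → ℝ) :
    mixedDeriv (a, b, c, d) (evalTerms L) w = (L.map fun τ =>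
      ratVal τ.1 * iteratedDeriv a (evalFac τ.2.1) (w 0) * iteratedDeriv b (evalFac τ.2.2.1) (w 1)
        * iteratedDeriv c (evalFac τ.2.2.2.1) (w 2)
        * iteratedDeriv d (evalFac τ.2.2.2.2) (w 3)).sum :=
  mixedDeriv_evalTerms' L a b c d w

theorem evalTerms_eff :
    ∃ A : List TermCode × (ℕ × ℕ × ℕ × ℕ) × (QCode × QCode × QCode × QCode) × ℕ → QCode,
      Primrec A ∧ ∀ L α t x y z k,
        |ratVal (A (L, α, (t, x, y, z), k)) - mixedDeriv α (evalTerms L)
          ![ratVal t, ratVal x, ratVal y, ratVal z]| ≤ 1 / ((k : ℝ) + 1) := by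
  have hE := ((eff1_iff evalFac).1 evalFac_eff).2
  let I : Type := (List TermCode × (ℕ × ℕ × ℕ × ℕ) × (QCode × QCode × QCode × QCode)) × TermCode
  have q1 : Primrec (fun x : I => x.1.2.1) := Primrec.fst.comp (Primrec.snd.comp Primrec.fst)
  have q2 : Primrec (fun x : I => x.1.2.2) := Primrec.snd.comp (Primrec.snd.comp Primrec.fst)
  have q3 : Primrec (fun x : I => x.2) := Primrec.snd
  have hF : RA (fun x : I => ratVal x.2.1
      * iteratedDeriv x.1.2.1.1 (evalFac x.2.2.1) (ratVal x.1.2.2.1)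
      * iteratedDeriv x.1.2.1.2.1 (evalFac x.2.2.2.1) (ratVal x.1.2.2.2.1)
      * iteratedDeriv x.1.2.1.2.2.1 (evalFac x.2.2.2.2.1) (ratVal x.1.2.2.2.2.1)
      * iteratedDeriv x.1.2.1.2.2.2 (evalFac x.2.2.2.2.2) (ratVal x.1.2.2.2.2.2)) := by
    refine RA.mul (RA.mul (RA.mul (RA.mul (RA.of_code (Primrec.fst.comp q3)) ?_) ?_) ?_) ?_
    · exact hE.comp (f := fun x : I => (x.2.2.1, x.1.2.1.1, x.1.2.2.1))
        (Primrec.pair (Primrec.fst.comp (Primrec.snd.comp q3))
          (Primrec.pair (Primrec.fst.comp q1) (Primrec.fst.comp q2)))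
    · exact hE.comp (f := fun x : I => (x.2.2.2.1, x.1.2.1.2.1, x.1.2.2.2.1))
        (Primrec.pair (Primrec.fst.comp (Primrec.snd.comp (Primrec.snd.comp q3)))
          (Primrec.pair (Primrec.fst.comp (Primrec.snd.comp q1))
            (Primrec.fst.comp (Primrec.snd.comp q2))))
    · exact hE.comp (f := fun x : I => (x.2.2.2.2.1, x.1.2.1.2.2.1, x.1.2.2.2.2.1))
        (Primrec.pair (Primrec.fst.comp (Primrec.snd.comp (Primrec.snd.comp (Primrec.snd.comp q3))))
          (Primrec.pair (Primrec.fst.comp (Primrec.snd.comp (Primrec.snd.comp q1)))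
            (Primrec.fst.comp (Primrec.snd.comp (Primrec.snd.comp q2)))))
    · exact hE.comp (f := fun x : I => (x.2.2.2.2.2, x.1.2.1.2.2.2, x.1.2.2.2.2.2))
        (Primrec.pair (Primrec.snd.comp (Primrec.snd.comp (Primrec.snd.comp (Primrec.snd.comp q3))))
          (Primrec.pair (Primrec.snd.comp (Primrec.snd.comp (Primrec.snd.comp q1)))
            (Primrec.snd.comp (Primrec.snd.comp (Primrec.snd.comp q2)))))
  obtain ⟨A, hA, h⟩ := RA.list_sum hF (L := fun x => x.1) Primrec.fst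
  refine ⟨fun p => A ((p.1, p.2.1, p.2.2.1), p.2.2.2), hA.comp ?_, fun L α t x y z k => ?_⟩
  · exact Primrec.pair (Primrec.pair Primrec.fst (Primrec.pair (Primrec.fst.comp Primrec.snd)
      (Primrec.fst.comp (Primrec.snd.comp Primrec.snd))))
      (Primrec.snd.comp (Primrec.snd.comp Primrec.snd))
  · obtain ⟨a, b, c, d⟩ := α
    have := h (L, (a, b, c, d), (t, x, y, z)) k
    rw [mixedDeriv_evalTerms]
    exact this

end Vale.Agent.P113
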