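import Vale.Agent.Lib.P113.FabExists

/-! The Fabius function `fab` and its basic properties. -/

open Set

namespace Vale.Agent.P113

/-- The Fabius function: a smooth step from `0` (on `(-∞,0]`) to `1` (on `[1,∞)`). -/
noncomputable def fab : ℝ → ℝ := fab_exists.choose

theorem fab_of_nonpos {x : ℝ} (hx : x ≤ 0) : fab x = 0 := fab_exists.choose_spec.1 x hx
theorem fab_of_one_le {x : ℝ} (hx : 1 ≤ x) : fab x = 1 := fab_exists.choose_spec.2.1 x hx
theorem fab_mono : Monotone fab := fab_exists.choose_spec.2.2.1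
theorem fab_one_sub (x : ℝ) : fab (1 - x) = 1 - fab x := fab_exists.choose_spec.2.2.2.1 x
theorem fab_contDiff : ContDiff ℝ (⊤ : ℕ∞) fab := fab_exists.choose_spec.2.2.2.2.1
theorem fab_hasDerivAt (x : ℝ) : HasDerivAt fab (2 * (fab (2 * x) - fab (2 * x - 1))) x :=
  fab_exists.choose_spec.2.2.2.2.2.1 x
theorem fab_effective : ∃ A : ℕ × QCode × ℕ → QCode, Primrec A ∧
    ∀ n s k, |ratVal (A (n, s, k)) - iteratedDeriv n fab (ratVal s)| ≤ 1 / ((k : ℝ) + 1) :=
  fab_exists.choose_spec.2.2.2.2.2.2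

theorem fab_nonneg (x : ℝ) : 0 ≤ fab x := by
  rcases le_total x 0 with h | h
  · rw [fab_of_nonpos h]
  · rw [← fab_of_nonpos (le_refl (0:ℝ))]; exact fab_mono h

theorem fab_le_one (x : ℝ) : fab x ≤ 1 := by
  rcases le_total x 1 with h | h
  · rw [← fab_of_one_le (le_refl (1:ℝ))]; exact fab_mono h
  · rw [fab_of_one_le h]

/-- The derivative of `fab` as a product. -/
theorem fab_hasDerivAt' (x : ℝ) : HasDerivAt fab (2 * fab (2 * x) * fab (2 - 2 * x)) x := by
  have h := fab_hasDerivAt x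
  have e : 2 * (fab (2 * x) - fab (2 * x - 1)) = 2 * fab (2 * x) * fab (2 - 2 * x) := by
    have h1 : fab (2 - 2 * x) = 1 - fab (2 * x - 1) := by
      rw [← fab_one_sub]; congr 1; ring
    rw [h1]
    rcases le_total (2 * x) 1 with h2 | h2
    · rw [fab_of_nonpos (by linarith : 2 * x - 1 ≤ 0)]; ring
    · rw [fab_of_one_le h2]; ring
  rwa [e] at h

end Vale.Agent.P113
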