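import Vale.Agent.Lib.P113.Defs

/-! Existence of the Fabius function, as the fixed point of an averaging operator. -/

open Set MeasureTheory Filter Topology

namespace Vale.Agent.P113.FabC

/-- primitive of `f` from `0`. -/
noncomputable def prim (f : ℝ → ℝ) (y : ℝ) : ℝ := ∫ t in (0:ℝ)..y, f t

/-- the averaging operator -/
noncomputable def avg (f : ℝ → ℝ) (x : ℝ) : ℝ := ∫ t in (2 * x - 1)..(2 * x), f t

theorem prim_hasDerivAt {f : ℝ → ℝ} (hf : Continuous f) (y : ℝ) : HasDerivAt (prim f) (f y) y :=
  (hf.integral_hasStrictDerivAt 0 y).hasDerivAt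

theorem avg_eq {f : ℝ → ℝ} (hf : Continuous f) (x : ℝ) :
    avg f x = prim f (2 * x) - prim f (2 * x - 1) := by
  rw [avg, prim, prim, intervalIntegral.integral_interval_sub_left]
  · exact hf.intervalIntegrable _ _
  · exact hf.intervalIntegrable _ _

theorem avg_hasDerivAt {f : ℝ → ℝ} (hf : Continuous f) (x : ℝ) :
    HasDerivAt (avg f) (2 * (f (2 * x) - f (2 * x - 1))) x := by
  have h0 : avg f = fun x => prim f (2 * x) - prim f (2 * x - 1) := funext fun x => avg_eq hf x
  rw [h0]
  have h1 : HasDerivAt (fun x : ℝ => 2 * x) 2 x := by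
    simpa using (hasDerivAt_id x).const_mul (2:ℝ)
  have h2 : HasDerivAt (fun x : ℝ => 2 * x - 1) 2 x := h1.sub_const 1
  have h3 := (prim_hasDerivAt hf (2 * x)).comp x h1
  have h4 := (prim_hasDerivAt hf (2 * x - 1)).comp x h2
  have h5 := h3.sub h4
  have e : f (2 * x) * 2 - f (2 * x - 1) * 2 = 2 * (f (2 * x) - f (2 * x - 1)) := by ring
  rw [e] at h5
  exact h5

theorem avg_continuous {f : ℝ → ℝ} (hf : Continuous f) : Continuous (avg f) :=
  continuous_iff_continuousAt.2 fun x => (avg_hasDerivAt hf x).continuousAt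

theorem avg_bound {f : ℝ → ℝ} {C : ℝ} (hC : ∀ x, |f x| ≤ C) (x : ℝ) : |avg f x| ≤ C := by
  have h := intervalIntegral.norm_integral_le_of_norm_le_const (f := f) (C := C)
    (a := 2 * x - 1) (b := 2 * x) (fun t _ => hC t)
  have e : |2 * x - (2 * x - 1)| = 1 := by norm_num
  rw [e, mul_one] at h
  exact h

/-- the invariant set of functions -/
def Good (f : ℝ → ℝ) : Prop :=
  (∀ x ≤ 0, f x = 0) ∧ (∀ x, 1 ≤ x → f x = 1) ∧ (∀ x, f (1 - x) = 1 - f x) ∧
    (∀ x y, x ≤ y → f x ≤ f y)

theorem avg_shift {f : ℝ → ℝ} (x : ℝ) : avg f x = ∫ t in (0:ℝ)..1, f (t + (2 * x - 1)) := by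
  rw [intervalIntegral.integral_comp_add_right (fun t => f t) (2 * x - 1), avg]
  congr 1 <;> ring

theorem avg_good {f : ℝ → ℝ} (hf : Continuous f) (hg : Good f) : Good (avg f) := by
  obtain ⟨h0, h1, h2, h3⟩ := hg
  refine ⟨?_, ?_, ?_, ?_⟩
  · intro x hx
    rw [avg_shift]
    have : ∀ t ∈ Set.uIcc (0:ℝ) 1, f (t + (2 * x - 1)) = 0 := by
      intro t ht
      rw [Set.uIcc_of_le zero_le_one] at ht
      exact h0 _ (by linarith [ht.2])
    rw [intervalIntegral.integral_congr this]; simp
  · intro x hx
    rw [avg_shift]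
    have : ∀ t ∈ Set.uIcc (0:ℝ) 1, f (t + (2 * x - 1)) = 1 := by
      intro t ht
      rw [Set.uIcc_of_le zero_le_one] at ht
      exact h1 _ (by linarith [ht.1])
    rw [intervalIntegral.integral_congr this]; simp
  · intro x
    have e1 : avg f (1 - x) = ∫ t in (1 - 2 * x)..(2 - 2 * x), f t := by
      rw [avg]; congr 1 <;> ring
    have e2 : (∫ t in (1 - 2 * x)..(2 - 2 * x), f t) = ∫ t in (2 * x - 1)..(2 * x), f (1 - t) := by
      rw [intervalIntegral.integral_comp_sub_left (fun t => f t) 1]
      congr 1; ring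
    have e3 : (∫ t in (2 * x - 1)..(2 * x), f (1 - t)) = ∫ t in (2 * x - 1)..(2 * x), (1 - f t) :=
      intervalIntegral.integral_congr fun t _ => h2 t
    rw [e1, e2, e3, intervalIntegral.integral_sub (by simp) (hf.intervalIntegrable _ _)]
    simp [avg]
  · intro x y hxy
    rw [avg_shift, avg_shift]
    apply intervalIntegral.integral_mono zero_le_one
    · exact (hf.comp (by fun_prop)).intervalIntegrable _ _
    · exact (hf.comp (by fun_prop)).intervalIntegrable _ _
    · intro t
      exact h3 _ _ (by linarith)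

/-- the key contraction estimate -/
theorem avg_contract {d : ℝ → ℝ} (hd : Continuous d) {C : ℝ} (hC : ∀ x, |d x| ≤ C)
    (h0 : ∀ x ≤ 0, d x = 0) (h1 : ∀ x, 1 ≤ x → d x = 0) (h2 : ∀ x, d (1 - x) = - d x) (x : ℝ) :
    |avg d x| ≤ C / 2 := by
  have hC0 : 0 ≤ C := (abs_nonneg _).trans (hC 0)
  have ii : ∀ a b, IntervalIntegrable d volume a b := fun a b => hd.intervalIntegrable a b
  -- total integral vanishes
  have hz : (∫ t in (0:ℝ)..1, d t) = 0 := by
    have e : (∫ t in (0:ℝ)..1, d t) = ∫ t in (0:ℝ)..1, d (1 - t) := by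
      rw [intervalIntegral.integral_comp_sub_left (fun t => d t) 1]; simp
    have e2 : (∫ t in (0:ℝ)..1, d (1 - t)) = - ∫ t in (0:ℝ)..1, d t := by
      rw [← intervalIntegral.integral_neg]
      exact intervalIntegral.integral_congr fun t _ => h2 t
    rw [e2] at e
    linarith
  have hneg : ∀ y ≤ 0, prim d y = 0 := by
    intro y hy
    have : ∀ t ∈ Set.uIcc (0:ℝ) y, d t = 0 := by
      intro t ht
      rw [Set.uIcc_of_ge hy] at ht
      exact h0 t ht.2
    rw [prim, intervalIntegral.integral_congr this]; simp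
  have hpos : ∀ y, 1 ≤ y → prim d y = 0 := by
    intro y hy
    have e : prim d y = (∫ t in (0:ℝ)..1, d t) + ∫ t in (1:ℝ)..y, d t := by
      rw [prim, intervalIntegral.integral_add_adjacent_intervals (ii _ _) (ii _ _)]
    have : ∀ t ∈ Set.uIcc (1:ℝ) y, d t = 0 := by
      intro t ht
      rw [Set.uIcc_of_le hy] at ht
      exact h1 t ht.1
    rw [e, hz, intervalIntegral.integral_congr this]; simp
  have hb : ∀ y, |prim d y| ≤ C / 2 := by
    intro y
    rcases le_total y 0 with hy | hy
    · rw [hneg y hy]; simpa using by positivity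
    rcases le_total 1 y with hy1 | hy1
    · rw [hpos y hy1]; simpa using by positivity
    rcases le_total y (1/2) with hh | hh
    · have h := intervalIntegral.norm_integral_le_of_norm_le_const (f := d) (C := C)
        (a := 0) (b := y) (fun t _ => hC t)
      rw [sub_zero, abs_of_nonneg hy] at h
      calc |prim d y| ≤ C * y := h
        _ ≤ C * (1/2) := by gcongr
        _ = C / 2 := by ring
    · have e : prim d y = - ∫ t in y..1, d t := by
        have := intervalIntegral.integral_add_adjacent_intervals (ii 0 y) (ii y 1)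
        rw [hz] at this
        rw [prim]; linarith
      have h := intervalIntegral.norm_integral_le_of_norm_le_const (f := d) (C := C)
        (a := y) (b := 1) (fun t _ => hC t)
      rw [abs_of_nonneg (by linarith : (0:ℝ) ≤ 1 - y)] at h
      rw [e, abs_neg]
      calc |∫ t in y..1, d t| ≤ C * (1 - y) := h
        _ ≤ C * (1/2) := by gcongr; linarith
        _ = C / 2 := by ring
  rw [avg_eq hd]
  rcases le_total x (1/2) with hx | hx
  · rw [hneg (2 * x - 1) (by linarith), sub_zero]; exact hb _
  · rw [hpos (2 * x) (by linarith), zero_sub, abs_neg]; exact hb _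

open BoundedContinuousFunction

/-- the averaging operator on bounded continuous functions -/
noncomputable def avgB (f : BoundedContinuousFunction ℝ ℝ) : BoundedContinuousFunction ℝ ℝ :=
  BoundedContinuousFunction.ofNormedAddCommGroup (avg f) (avg_continuous f.continuous) ‖f‖
    (fun x => avg_bound (fun y => f.norm_coe_le_norm y) x)

theorem avgB_apply (f : BoundedContinuousFunction ℝ ℝ) (x : ℝ) : avgB f x = avg f x := rfl

def goodSet : Set (BoundedContinuousFunction ℝ ℝ) := {f | Good f}

theorem isClosed_goodSet : IsClosed goodSet := by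
  have hev : ∀ x : ℝ, Continuous fun f : BoundedContinuousFunction ℝ ℝ => f x :=
    fun x => (continuous_apply x).comp BoundedContinuousFunction.continuous_coe
  have : goodSet = {f : BoundedContinuousFunction ℝ ℝ | ∀ x ≤ (0:ℝ), f x = 0} ∩
      ({f | ∀ x : ℝ, 1 ≤ x → f x = 1} ∩ ({f | ∀ x : ℝ, f (1 - x) = 1 - f x} ∩
        {f | ∀ x y : ℝ, x ≤ y → f x ≤ f y})) := by
    ext f; simp [goodSet, Good]
  rw [this]
  refine IsClosed.inter ?_ (IsClosed.inter ?_ (IsClosed.inter ?_ ?_))
  · simp only [Set.ofPred_forall]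
    exact isClosed_iInter fun x => isClosed_iInter fun _ => isClosed_eq (hev x) continuous_const
  · simp only [Set.ofPred_forall]
    exact isClosed_iInter fun x => isClosed_iInter fun _ => isClosed_eq (hev x) continuous_const
  · simp only [Set.ofPred_forall]
    exact isClosed_iInter fun x => isClosed_eq (hev _) (continuous_const.sub (hev x))
  · simp only [Set.ofPred_forall]
    exact isClosed_iInter fun x => isClosed_iInter fun y => isClosed_iInter fun _ =>
      isClosed_le (hev x) (hev y)

/-- the starting point -/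
noncomputable def clampB : BoundedContinuousFunction ℝ ℝ :=
  BoundedContinuousFunction.ofNormedAddCommGroup (fun x : ℝ => max 0 (min 1 x)) (by fun_prop) 1
    (fun x => by
      rw [Real.norm_eq_abs, abs_of_nonneg (le_max_left _ _)]
      exact max_le zero_le_one (min_le_left _ _))

theorem clampB_good : clampB ∈ goodSet := by
  refine ⟨?_, ?_, ?_, ?_⟩
  · intro x hx
    change max 0 (min 1 x) = (0:ℝ)
    rw [min_eq_right (by linarith), max_eq_left hx]
  · intro x hx
    change max 0 (min 1 x) = (1:ℝ)
    rw [min_eq_left hx, max_eq_right zero_le_one]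
  · intro x
    change max 0 (min 1 (1 - x)) = 1 - max 0 (min 1 x)
    rcases le_total x 0 with h | h
    · rw [min_eq_left (by linarith), min_eq_right (by linarith), max_eq_left h]; simp
    rcases le_total x 1 with h1 | h1
    · rw [min_eq_right (by linarith), min_eq_right h1, max_eq_right h,
        max_eq_right (by linarith)]
    · rw [min_eq_right (by linarith), min_eq_left h1, max_eq_left (by linarith)]; simp
  · intro x y hxy
    change max 0 (min 1 x) ≤ max 0 (min 1 y)
    exact max_le_max le_rfl (min_le_min le_rfl hxy)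

theorem mapsTo_good : MapsTo avgB goodSet goodSet := fun f hf => avg_good f.continuous hf

theorem contracting : ContractingWith (1/2) (mapsTo_good.restrict avgB goodSet goodSet) := by
  constructor
  · norm_num
  · refine LipschitzWith.of_dist_le_mul ?_
    rintro ⟨f, hf⟩ ⟨g, hg⟩
    rw [Subtype.dist_eq, Subtype.dist_eq]
    change dist (avgB f) (avgB g) ≤ _ * dist f g
    rw [BoundedContinuousFunction.dist_le (by positivity)]
    intro x
    rw [avgB_apply, avgB_apply, Real.dist_eq]
    have e : avg f x - avg g x = avg (fun t => f t - g t) x := by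
      rw [avg, avg, avg, intervalIntegral.integral_sub (f.continuous.intervalIntegrable _ _)
        (g.continuous.intervalIntegrable _ _)]
    rw [e]
    have h := avg_contract (d := fun t => f t - g t) (C := dist f g)
      (f.continuous.sub g.continuous)
      (fun x => by rw [← Real.dist_eq]; exact BoundedContinuousFunction.dist_coe_le_dist x)
      (fun x hx => by rw [hf.1 x hx, hg.1 x hx, sub_zero])
      (fun x hx => by rw [hf.2.1 x hx, hg.2.1 x hx, sub_self])
      (fun x => by rw [hf.2.2.1 x, hg.2.2.1 x]; ring) x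
    calc |avg (fun t => f t - g t) x| ≤ dist f g / 2 := h
      _ = ((1/2 : NNReal) : ℝ) * dist f g := by push_cast; ring

theorem exists_fixed : ∃ F : ℝ → ℝ, Continuous F ∧ Good F ∧ ∀ x, F x = avg F x := by
  obtain ⟨f, hf, hfix, -⟩ := ContractingWith.exists_fixedPoint' (f := avgB) (s := goodSet)
    isClosed_goodSet.isComplete mapsTo_good contracting clampB_good (edist_ne_top _ _)
  refine ⟨f, f.continuous, hf, fun x => ?_⟩
  have : avgB f = f := hfix
  conv_lhs => rw [← this]
  rfl

theorem contDiff_of_fixed {F : ℝ → ℝ} (hd : ∀ x, HasDerivAt F (2 * (F (2 * x) - F (2 * x - 1))) x) :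
    ContDiff ℝ (⊤ : ℕ∞) F := by
  rw [contDiff_infty]
  intro n
  induction n with
  | zero =>
    rw [Nat.cast_zero, contDiff_zero]
    exact continuous_iff_continuousAt.2 fun x => (hd x).continuousAt
  | succ n ih =>
    have hdiff : Differentiable ℝ F := fun x => (hd x).differentiableAt
    have hder : deriv F = fun x => 2 * (F (2 * x) - F (2 * x - 1)) := funext fun x => (hd x).deriv
    rw [show ((n + 1 : ℕ) : WithTop ℕ∞) = (n : WithTop ℕ∞) + 1 by push_cast; rfl,
      contDiff_succ_iff_deriv]
    refine ⟨hdiff, by simp, ?_⟩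
    rw [hder]
    have h1 : ContDiff ℝ n fun x : ℝ => F (2 * x) := ih.comp (by fun_prop)
    have h2 : ContDiff ℝ n fun x : ℝ => F (2 * x - 1) := ih.comp (by fun_prop)
    exact contDiff_const.mul (h1.sub h2)

/-- existence of the Fabius function, with the integral equation -/
theorem fab_analysis : ∃ F : ℝ → ℝ, Continuous F ∧ Good F ∧ (∀ x, F x = avg F x) ∧
    (∀ x, HasDerivAt F (2 * (F (2 * x) - F (2 * x - 1))) x) ∧ ContDiff ℝ (⊤ : ℕ∞) F := by
  obtain ⟨F, hc, hg, hfix⟩ := exists_fixed
  have hd : ∀ x, HasDerivAt F (2 * (F (2 * x) - F (2 * x - 1))) x := by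
    intro x
    have h := avg_hasDerivAt hc x
    have e : avg F = F := funext fun x => (hfix x).symm
    rwa [e] at h
  exact ⟨F, hc, hg, hfix, hd, contDiff_of_fixed hd⟩

end Vale.Agent.P113.FabC
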