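import Vale.Agent.Lib.P113.QCode
import Vale.Agent.Lib.P113.FabAnalysis

/-! Effective evaluation of the derivatives of the Fabius function. -/

open Set MeasureTheory Filter Topology

namespace Vale.Agent.P113.FabC

/-- finite linear combinations of evaluations -/
abbrev FL := List (QCode × QCode)

/-- evaluate a linear combination of point evaluations on `g` -/
noncomputable def ev (g : ℝ → ℝ) (L : FL) : ℝ := (L.map fun p => ratVal p.1 * g (ratVal p.2)).sum

theorem ev_nil (g : ℝ → ℝ) : ev g [] = 0 := rfl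

theorem ev_cons (g : ℝ → ℝ) (p : QCode × QCode) (L : FL) :
    ev g (p :: L) = ratVal p.1 * g (ratVal p.2) + ev g L := by simp [ev]

theorem ev_append (g : ℝ → ℝ) (L M : FL) : ev g (L ++ M) = ev g L + ev g M := by simp [ev]

theorem ev_flatMap (g g' : ℝ → ℝ) (st : QCode × QCode → FL)
    (h : ∀ p, ev g (st p) = ratVal p.1 * g' (ratVal p.2)) (L : FL) :
    ev g (L.flatMap st) = ev g' L := by
  induction L with
  | nil => rfl
  | cons p L ih => rw [List.flatMap_cons, ev_append, ev_cons, h, ih]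

/-- derivative step -/
def dstep (p : QCode × QCode) : FL :=
  [(qmul (qnat 2) p.1, qmul (qnat 2) p.2),
    (qneg (qmul (qnat 2) p.1), qsub (qmul (qnat 2) p.2) (qnat 1))]

/-- the operator `D g (x) = 2 (g (2x) - g (2x-1))` -/
noncomputable def Dop (g : ℝ → ℝ) (x : ℝ) : ℝ := 2 * (g (2 * x) - g (2 * x - 1))

theorem ev_dstep (g : ℝ → ℝ) (p : QCode × QCode) :
    ev g (dstep p) = ratVal p.1 * Dop g (ratVal p.2) := by
  simp [ev, dstep, Dop]; ring

/-- averaging step -/
def tstep (N : ℕ) (p : QCode × QCode) : FL :=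
  (List.range (N + 1)).map fun j =>
    (qdivs p.1 N, qsub (qmul (qnat 2) p.2) (qdivs (qnat j) N))

/-- the operator `T g (x) = (1/(N+1)) ∑ g (2x - j/(N+1))` -/
noncomputable def Top (N : ℕ) (g : ℝ → ℝ) (x : ℝ) : ℝ :=
  (∑ j ∈ Finset.range (N + 1), g (2 * x - (j : ℝ) / (N + 1))) / (N + 1)

theorem sum_map_range (f : ℕ → ℝ) (n : ℕ) :
    ((List.range n).map f).sum = ∑ j ∈ Finset.range n, f j := by
  induction n with
  | zero => simp
  | succ n ih => rw [List.range_succ, List.map_append, List.sum_append, ih,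
      Finset.sum_range_succ]; simp

theorem ev_tstep (N : ℕ) (g : ℝ → ℝ) (p : QCode × QCode) :
    ev g (tstep N p) = ratVal p.1 * Top N g (ratVal p.2) := by
  rw [ev, tstep, List.map_map, sum_map_range, Top, mul_div_assoc', Finset.mul_sum, Finset.sum_div]
  refine Finset.sum_congr rfl fun j _ => ?_
  simp only [Function.comp, ratVal_qdivs, ratVal_qsub, ratVal_qmul, ratVal_qnat]
  push_cast
  ring

theorem ev_iterate (st : QCode × QCode → FL) (Op : (ℝ → ℝ) → (ℝ → ℝ))
    (h : ∀ g p, ev g (st p) = ratVal p.1 * Op g (ratVal p.2)) (n : ℕ) (g : ℝ → ℝ) (L : FL) :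
    ev g ((fun M : FL => M.flatMap st)^[n] L) = ev (Op^[n] g) L := by
  induction n generalizing L g with
  | zero => rfl
  | succ n ih =>
    rw [Function.iterate_succ', Function.comp_apply, ev_flatMap g (Op g) st (h g), ih,
      Function.iterate_succ, Function.comp_apply]

/-- the sum of the absolute values of the coefficients -/
noncomputable def nrm (L : FL) : ℝ := (L.map fun p => |ratVal p.1|).sum

theorem nrm_cons (p : QCode × QCode) (L : FL) : nrm (p :: L) = |ratVal p.1| + nrm L := by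
  simp [nrm]

theorem nrm_flatMap_dstep (L : FL) : nrm (L.flatMap dstep) = 4 * nrm L := by
  induction L with
  | nil => simp [nrm]
  | cons p L ih =>
    rw [List.flatMap_cons]
    have : nrm (dstep p ++ L.flatMap dstep) = nrm (dstep p) + nrm (L.flatMap dstep) := by
      simp [nrm]
    rw [this, ih, nrm_cons]
    have : nrm (dstep p) = 4 * |ratVal p.1| := by
      simp [nrm, dstep, abs_mul]; ring
    rw [this]; ring

theorem nrm_iterate (n : ℕ) (L : FL) :
    nrm ((fun M : FL => M.flatMap dstep)^[n] L) = 4 ^ n * nrm L := by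
  induction n with
  | zero => simp
  | succ n ih => rw [Function.iterate_succ', Function.comp_apply, nrm_flatMap_dstep, ih]; ring

theorem ev_diff_le (g g' : ℝ → ℝ) (C : ℝ) (h : ∀ x, |g x - g' x| ≤ C) (L : FL) :
    |ev g L - ev g' L| ≤ nrm L * C := by
  induction L with
  | nil => simp [ev, nrm]
  | cons p L ih =>
    rw [ev_cons, ev_cons, nrm_cons]
    have e : ratVal p.1 * g (ratVal p.2) + ev g L - (ratVal p.1 * g' (ratVal p.2) + ev g' L)
        = ratVal p.1 * (g (ratVal p.2) - g' (ratVal p.2)) + (ev g L - ev g' L) := by ring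
    rw [e]
    calc |ratVal p.1 * (g (ratVal p.2) - g' (ratVal p.2)) + (ev g L - ev g' L)|
        ≤ |ratVal p.1 * (g (ratVal p.2) - g' (ratVal p.2))| + |ev g L - ev g' L| := abs_add_le _ _
      _ ≤ |ratVal p.1| * C + nrm L * C := by
          rw [abs_mul]
          gcongr
          exact h _
      _ = (|ratVal p.1| + nrm L) * C := by ring

/-- indicator of `[0, ∞)` -/
noncomputable def ind (x : ℝ) : ℝ := if 0 ≤ x then 1 else 0

/-- error of the approximation -/
noncomputable def del (N : ℕ) : ℕ → ℝ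
  | 0 => 1
  | K + 1 => (1 / ((N : ℝ) + 1) + del N K) / 2

theorem del_nonneg (N K : ℕ) : 0 ≤ del N K := by
  induction K with
  | zero => simp [del]
  | succ K ih => rw [del]; positivity

theorem del_le (N K : ℕ) : del N K ≤ 1 / ((N : ℝ) + 1) + 1 / 2 ^ K := by
  induction K with
  | zero => simp only [del, pow_zero, div_one]; have : (0:ℝ) ≤ 1 / ((N : ℝ) + 1) := by positivity
            linarith
  | succ K ih =>
    rw [del]
    have e : (1 : ℝ) / 2 ^ (K + 1) = (1 / 2 ^ K) / 2 := by rw [pow_succ]; field_simp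
    rw [e]
    linarith

theorem del_self_le (K : ℕ) : del K K ≤ 2 / ((K : ℝ) + 1) := by
  have h := del_le K K
  have h1 : (1 : ℝ) / 2 ^ K ≤ 1 / ((K : ℝ) + 1) := by
    apply one_div_le_one_div_of_le (by positivity)
    have : K + 1 ≤ 2 ^ K := Nat.lt_two_pow_self
    exact_mod_cast this
  calc del K K ≤ _ := h
    _ ≤ 1 / ((K : ℝ) + 1) + 1 / ((K : ℝ) + 1) := by linarith
    _ = 2 / ((K : ℝ) + 1) := by ring

section
variable {F : ℝ → ℝ} (hc : Continuous F) (hg : Good F) (hfix : ∀ x, F x = avg F x)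
include hc hg hfix

omit hc hg in
theorem F_eq_int (x : ℝ) : F x = ∫ u in (0:ℝ)..1, F (2 * x - u) := by
  have e : (∫ u in (0:ℝ)..1, F (2 * x - u)) = ∫ u in (2 * x - 1)..(2 * x), F u := by
    rw [intervalIntegral.integral_comp_sub_left (fun t => F t) (2 * x)]; simp
  rw [e, ← avg, ← hfix]

omit hg in
theorem F_eq_sum (N : ℕ) (x : ℝ) : F x = ∑ j ∈ Finset.range (N + 1),
    ∫ u in ((j : ℝ) / (N + 1))..(((j + 1 : ℕ) : ℝ) / (N + 1)), F (2 * x - u) := by
  have hci : Continuous fun u => F (2 * x - u) := hc.comp (by fun_prop)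
  rw [intervalIntegral.sum_integral_adjacent_intervals (a := fun j : ℕ => (j : ℝ) / (N + 1))
    (fun j _ => hci.intervalIntegrable _ _), F_eq_int hfix x]
  have : ((N + 1 : ℕ) : ℝ) / (N + 1) = 1 := by push_cast; exact div_self (by positivity)
  rw [this]; simp

theorem le_Top (N : ℕ) (H : ℝ → ℝ) (hH : ∀ x, F x ≤ H x) (x : ℝ) : F x ≤ Top N H x := by
  rw [F_eq_sum hc hfix N x, Top, Finset.sum_div]
  refine Finset.sum_le_sum fun j _ => ?_
  have hci : Continuous fun u => F (2 * x - u) := hc.comp (by fun_prop)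
  have hN : (0 : ℝ) < (N : ℝ) + 1 := by positivity
  have hle : (j : ℝ) / (N + 1) ≤ ((j + 1 : ℕ) : ℝ) / (N + 1) := by
    gcongr; simp
  calc (∫ u in ((j : ℝ) / (N + 1))..(((j + 1 : ℕ) : ℝ) / (N + 1)), F (2 * x - u))
      ≤ ∫ u in ((j : ℝ) / (N + 1))..(((j + 1 : ℕ) : ℝ) / (N + 1)), F (2 * x - (j : ℝ) / (N + 1)) := by
        apply intervalIntegral.integral_mono_on hle (hci.intervalIntegrable _ _)
          (by simp)
        intro u hu
        exact hg.2.2.2 _ _ (by linarith [hu.1])
    _ = F (2 * x - (j : ℝ) / (N + 1)) / (N + 1) := by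
        rw [intervalIntegral.integral_const, smul_eq_mul]
        push_cast
        field_simp
        ring
    _ ≤ H (2 * x - (j : ℝ) / (N + 1)) / (N + 1) := by gcongr; exact hH _

theorem Top_le (N : ℕ) (H : ℝ → ℝ) (δ : ℝ) (hH : ∀ x, H x ≤ F (x + δ)) (x : ℝ) :
    Top N H x ≤ F (x + (1 / ((N : ℝ) + 1) + δ) / 2) := by
  rw [F_eq_sum hc hfix N, Top, Finset.sum_div]
  refine Finset.sum_le_sum fun j _ => ?_
  have hN : (0 : ℝ) < (N : ℝ) + 1 := by positivity
  have hle : (j : ℝ) / (N + 1) ≤ ((j + 1 : ℕ) : ℝ) / (N + 1) := by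
    gcongr; simp
  set y := x + (1 / ((N : ℝ) + 1) + δ) / 2 with hy
  have hci : Continuous fun u => F (2 * y - u) := hc.comp (by fun_prop)
  calc H (2 * x - (j : ℝ) / (N + 1)) / (N + 1)
      ≤ F (2 * x - (j : ℝ) / (N + 1) + δ) / (N + 1) := by gcongr; exact hH _
    _ = ∫ u in ((j : ℝ) / (N + 1))..(((j + 1 : ℕ) : ℝ) / (N + 1)),
          F (2 * x - (j : ℝ) / (N + 1) + δ) := by
        rw [intervalIntegral.integral_const, smul_eq_mul]
        push_cast
        field_simp
        ring
    _ ≤ ∫ u in ((j : ℝ) / (N + 1))..(((j + 1 : ℕ) : ℝ) / (N + 1)), F (2 * y - u) := by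
        apply intervalIntegral.integral_mono_on hle (by simp) (hci.intervalIntegrable _ _)
        intro u hu
        apply hg.2.2.2
        have h2 : u ≤ (j : ℝ) / (N + 1) + 1 / (N + 1) := by
          have := hu.2
          push_cast at this
          rw [add_div] at this
          exact this
        rw [hy]; linarith

theorem approx (N K : ℕ) (x : ℝ) :
    F x ≤ ((Top N)^[K] ind) x ∧ ((Top N)^[K] ind) x ≤ F (x + del N K) := by
  induction K generalizing x with
  | zero =>
    simp only [Function.iterate_zero, id_eq, del, ind]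
    split_ifs with h
    · refine ⟨?_, ?_⟩
      · rw [← hg.2.1 (max x 1) (le_max_right _ _)]; exact hg.2.2.2 _ _ (le_max_left _ _)
      · rw [hg.2.1 _ (by linarith)]
    · push Not at h
      refine ⟨?_, ?_⟩
      · rw [hg.1 x h.le]
      · rw [← hg.1 (min 0 (x + 1)) (min_le_left _ _)]; exact hg.2.2.2 _ _ (min_le_right _ _)
  | succ K ih =>
    rw [Function.iterate_succ', Function.comp_apply]
    exact ⟨le_Top hc hg hfix N _ (fun y => (ih y).1) x,
      Top_le hc hg hfix N _ _ (fun y => (ih y).2) x⟩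

theorem F_lip (x δ : ℝ) (hδ : 0 ≤ δ) : F (x + δ) - F x ≤ 2 * δ := by
  have ii : ∀ a b, IntervalIntegrable F volume a b := fun a b => hc.intervalIntegrable a b
  have hb : ∀ t, |F t| ≤ 1 := by
    intro t
    rw [abs_le]
    have h0 : 0 ≤ F t := by
      rw [← hg.1 (min 0 t) (min_le_left _ _)]; exact hg.2.2.2 _ _ (min_le_right _ _)
    have h1 : F t ≤ 1 := by
      rw [← hg.2.1 (max t 1) (le_max_right _ _)]; exact hg.2.2.2 _ _ (le_max_left _ _)
    constructor <;> linarith
  have hnn : ∀ t, 0 ≤ F t := by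
    intro t
    rw [← hg.1 (min 0 t) (min_le_left _ _)]; exact hg.2.2.2 _ _ (min_le_right _ _)
  rw [hfix (x + δ), hfix x, avg_eq hc, avg_eq hc]
  have e1 : prim F (2 * (x + δ)) - prim F (2 * x) = ∫ t in (2 * x)..(2 * (x + δ)), F t := by
    rw [prim, prim, intervalIntegral.integral_interval_sub_left (ii _ _) (ii _ _)]
  have e2 : prim F (2 * (x + δ) - 1) - prim F (2 * x - 1)
      = ∫ t in (2 * x - 1)..(2 * (x + δ) - 1), F t := by
    rw [prim, prim, intervalIntegral.integral_interval_sub_left (ii _ _) (ii _ _)]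
  have h1 : (∫ t in (2 * x)..(2 * (x + δ)), F t) ≤ 2 * δ := by
    have h := intervalIntegral.norm_integral_le_of_norm_le_const (f := F) (C := 1)
        (a := 2 * x) (b := 2 * (x + δ)) (fun t _ => hb t)
    have e : |2 * (x + δ) - 2 * x| = 2 * δ := by
      rw [show 2 * (x + δ) - 2 * x = 2 * δ by ring, abs_of_nonneg (by positivity)]
    rw [e, one_mul] at h
    exact (le_abs_self _).trans h
  have h2 : 0 ≤ ∫ t in (2 * x - 1)..(2 * (x + δ) - 1), F t :=
    intervalIntegral.integral_nonneg (by linarith) fun t _ => hnn t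
  linarith

theorem approx_abs (K : ℕ) (x : ℝ) : |((Top K)^[K] ind) x - F x| ≤ 4 / ((K : ℝ) + 1) := by
  obtain ⟨h1, h2⟩ := approx hc hg hfix K K x
  have h3 := F_lip hc hg hfix x (del K K) (del_nonneg _ _)
  have h4 := del_self_le K
  rw [abs_of_nonneg (by linarith)]
  have e : (4 : ℝ) / ((K : ℝ) + 1) = 2 * (2 / ((K : ℝ) + 1)) := by ring
  rw [e]
  linarith

end

/-- the numerical factor in the iterated derivative -/
def cf (n : ℕ) : ℕ := Nat.rec 1 (fun m r => r * 2 ^ m) n

theorem cf_succ (n : ℕ) : cf (n + 1) = cf n * 2 ^ n := rfl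

theorem Dop_const_mul (c : ℝ) (g : ℝ → ℝ) : Dop (fun x => c * g x) = fun x => c * Dop g x := by
  funext x; simp only [Dop]; ring

theorem hasDerivAt_Dop {g g' : ℝ → ℝ} (h : ∀ x, HasDerivAt g (g' x) x) (x : ℝ) :
    HasDerivAt (Dop g) (2 * Dop g' x) x := by
  have h1 : HasDerivAt (fun x : ℝ => 2 * x) 2 x := by
    simpa using (hasDerivAt_id x).const_mul (2:ℝ)
  have h2 : HasDerivAt (fun x : ℝ => 2 * x - 1) 2 x := h1.sub_const 1
  have h3 := (h (2 * x)).comp x h1
  have h4 := (h (2 * x - 1)).comp x h2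
  have h5 := (h3.sub h4).const_mul 2
  have e : 2 * (g' (2 * x) * 2 - g' (2 * x - 1) * 2) = 2 * Dop g' x := by simp only [Dop]; ring
  rw [e] at h5
  exact h5

theorem hasDerivAt_iter {F : ℝ → ℝ} (hd : ∀ x, HasDerivAt F (Dop F x) x) (n : ℕ) (x : ℝ) :
    HasDerivAt (Dop^[n] F) (2 ^ n * (Dop^[n + 1] F) x) x := by
  induction n generalizing x with
  | zero => simpa using hd x
  | succ n ih =>
    have h := hasDerivAt_Dop ih x
    rw [Dop_const_mul] at h
    have e : 2 * (2 ^ n * Dop (Dop^[n + 1] F) x) = 2 ^ (n + 1) * (Dop^[n + 1 + 1] F) x := by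
      rw [Function.iterate_succ' Dop (n + 1), Function.comp_apply, pow_succ]; ring
    rw [e] at h
    rw [Function.iterate_succ' Dop n]
    exact h

theorem iteratedDeriv_eq {F : ℝ → ℝ} (hd : ∀ x, HasDerivAt F (Dop F x) x) (n : ℕ) :
    iteratedDeriv n F = fun x => (cf n : ℝ) * (Dop^[n] F) x := by
  induction n with
  | zero => funext x; simp [cf]
  | succ n ih =>
    funext x
    rw [iteratedDeriv_succ, ih]
    rw [((hasDerivAt_iter hd n x).const_mul (cf n : ℝ)).deriv, cf_succ]
    push_cast; ring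

/-- precision parameter -/
def kpar (n k : ℕ) : ℕ := cf n * 4 ^ n * 4 * (k + 1)

/-- the list of points and coefficients -/
def pts (n : ℕ) (s : QCode) (k : ℕ) : FL :=
  (fun M : FL => M.flatMap (tstep (kpar n k)))^[kpar n k]
    ((fun M : FL => M.flatMap dstep)^[n] [(qnat 1, s)])

/-- the algorithm -/
def alg (x : ℕ × QCode × ℕ) : QCode :=
  qmul (qnat (cf x.1)) (qsum ((pts x.1 x.2.1 x.2.2).map fun p =>
    bif qleb (qnat 0) p.2 then p.1 else qnat 0))

theorem ratVal_alg (n : ℕ) (s : QCode) (k : ℕ) :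
    ratVal (alg (n, s, k)) = cf n * ev ((Top (kpar n k))^[kpar n k] ind)
      ((fun M : FL => M.flatMap dstep)^[n] [(qnat 1, s)]) := by
  rw [alg, ratVal_qmul, ratVal_qnat, ratVal_qsum, List.map_map]
  congr 1
  rw [← ev_iterate (tstep (kpar n k)) (Top (kpar n k)) (ev_tstep (kpar n k))]
  change _ = ev ind (pts n s k)
  rw [ev]
  congr 1
  apply List.map_congr_left
  intro p _
  simp only [Function.comp, ind]
  cases h : qleb (qnat 0) p.2 with
  | true =>
    rw [qleb_iff, ratVal_qnat, Nat.cast_zero] at h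
    simp [h]
  | false =>
    rw [qleb_false_iff, ratVal_qnat, Nat.cast_zero] at h
    simp [not_le.2 h]

theorem alg_spec {F : ℝ → ℝ} (hc : Continuous F) (hg : Good F) (hfix : ∀ x, F x = avg F x)
    (hd : ∀ x, HasDerivAt F (2 * (F (2 * x) - F (2 * x - 1))) x) (n : ℕ) (s : QCode) (k : ℕ) :
    |ratVal (alg (n, s, k)) - iteratedDeriv n F (ratVal s)| ≤ 1 / ((k : ℝ) + 1) := by
  rw [ratVal_alg, iteratedDeriv_eq (F := F) hd n]
  have e1 : (Dop^[n] F) (ratVal s) = ev F ((fun M : FL => M.flatMap dstep)^[n] [(qnat 1, s)]) := by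
    rw [ev_iterate dstep Dop ev_dstep]; simp [ev]
  simp only [e1]
  rw [← mul_sub, abs_mul, abs_of_nonneg (Nat.cast_nonneg _)]
  have h1 := ev_diff_le ((Top (kpar n k))^[kpar n k] ind) F (4 / ((kpar n k : ℝ) + 1))
    (fun x => approx_abs hc hg hfix (kpar n k) x) ((fun M : FL => M.flatMap dstep)^[n] [(qnat 1, s)])
  rw [nrm_iterate] at h1
  have e2 : nrm [(qnat 1, s)] = 1 := by simp [nrm]
  rw [e2, mul_one] at h1
  calc (cf n : ℝ) * |_| ≤ (cf n : ℝ) * (4 ^ n * (4 / ((kpar n k : ℝ) + 1))) := by gcongr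
    _ = ((cf n * 4 ^ n * 4 : ℕ) : ℝ) / ((kpar n k : ℝ) + 1) := by push_cast; ring
    _ ≤ 1 / ((k : ℝ) + 1) := by
      rw [div_le_div_iff₀ (by positivity) (by positivity), kpar]
      push_cast
      linarith

/-! ### primitive recursiveness -/

theorem primrec_dstep : Primrec dstep := by
  unfold dstep
  have h2 : Primrec fun p : QCode × QCode => qmul (qnat 2) p.1 :=
    primrec_qmul.comp (Primrec.const _) Primrec.fst
  have h3 : Primrec fun p : QCode × QCode => qmul (qnat 2) p.2 :=
    primrec_qmul.comp (Primrec.const _) Primrec.snd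
  exact Primrec.list_cons.comp (Primrec.pair h2 h3) (Primrec.list_cons.comp
    (Primrec.pair (primrec_qneg.comp h2) (primrec_qsub.comp h3 (Primrec.const _)))
    (Primrec.const []))

theorem primrec_tstep : Primrec₂ tstep := by
  unfold tstep
  refine Primrec.list_map (Primrec.list_range.comp (Primrec.succ.comp Primrec.fst)) ?_
  have hN : Primrec fun x : (ℕ × QCode × QCode) × ℕ => x.1.1 := Primrec.fst.comp Primrec.fst
  have hp : Primrec fun x : (ℕ × QCode × QCode) × ℕ => x.1.2 := Primrec.snd.comp Primrec.fst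
  have hj : Primrec fun x : (ℕ × QCode × QCode) × ℕ => x.2 := Primrec.snd
  exact (Primrec.pair (primrec_qdivs.comp (Primrec.fst.comp hp) hN)
    (primrec_qsub.comp (primrec_qmul.comp (Primrec.const _) (Primrec.snd.comp hp))
      (primrec_qdivs.comp (primrec_qnat.comp hj) hN))).to₂

theorem primrec_cf : Primrec cf := by
  unfold cf
  refine Primrec.nat_rec₁ 1 ?_
  exact pr_mul Primrec.snd (pr_pow (Primrec.const 2) Primrec.fst)

theorem primrec_kpar : Primrec₂ kpar := by
  unfold kpar
  have hn : Primrec fun x : ℕ × ℕ => x.1 := Primrec.fst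
  have hk : Primrec fun x : ℕ × ℕ => x.2 := Primrec.snd
  exact pr_mul (pr_mul (pr_mul (primrec_cf.comp hn) (pr_pow (Primrec.const 4) hn))
    (Primrec.const 4)) (pr_succ hk)

theorem primrec_flatD : Primrec fun M : FL => M.flatMap dstep :=
  Primrec.list_flatMap Primrec.id (primrec_dstep.comp Primrec.snd).to₂

theorem primrec_flatT : Primrec₂ fun (N : ℕ) (M : FL) => M.flatMap (tstep N) :=
  Primrec.list_flatMap Primrec.snd
    (primrec_tstep.comp (Primrec.fst.comp Primrec.fst) Primrec.snd).to₂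

theorem primrec_start : Primrec fun x : ℕ × QCode =>
    (fun M : FL => M.flatMap dstep)^[x.1] ([(qnat 1, x.2)] : FL) := by
  have h0 : Primrec fun x : ℕ × QCode => ([(qnat 1, x.2)] : FL) :=
    Primrec.list_cons.comp (Primrec.pair (Primrec.const _) Primrec.snd) (Primrec.const [])
  exact Primrec.nat_iterate (f := fun x : ℕ × QCode => x.1)
    (g := fun x : ℕ × QCode => ([(qnat 1, x.2)] : FL))
    (h := fun _ M => M.flatMap dstep) Primrec.fst h0 (primrec_flatD.comp Primrec.snd).to₂

theorem primrec_iterT : Primrec fun x : ℕ × FL =>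
    (fun M : FL => M.flatMap (tstep x.1))^[x.1] x.2 :=
  Primrec.nat_iterate (f := fun x : ℕ × FL => x.1) (g := fun x : ℕ × FL => x.2)
    (h := fun (x : ℕ × FL) (M : FL) => M.flatMap (tstep x.1)) Primrec.fst Primrec.snd
    (primrec_flatT.comp (Primrec.fst.comp Primrec.fst) Primrec.snd).to₂

theorem primrec_pts : Primrec fun x : ℕ × QCode × ℕ => pts x.1 x.2.1 x.2.2 := by
  have hn : Primrec fun x : ℕ × QCode × ℕ => x.1 := Primrec.fst
  have hs : Primrec fun x : ℕ × QCode × ℕ => x.2.1 := Primrec.fst.comp Primrec.snd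
  have hk : Primrec fun x : ℕ × QCode × ℕ => x.2.2 := Primrec.snd.comp Primrec.snd
  have hkp : Primrec fun x : ℕ × QCode × ℕ => kpar x.1 x.2.2 := primrec_kpar.comp hn hk
  have h1 := primrec_start.comp (Primrec.pair hn hs)
  exact primrec_iterT.comp (Primrec.pair hkp h1)

theorem primrec_alg : Primrec alg := by
  unfold alg
  refine primrec_qmul.comp (primrec_qnat.comp (primrec_cf.comp Primrec.fst))
    (primrec_qsum.comp (Primrec.list_map primrec_pts ?_))
  have hp : Primrec fun x : (ℕ × QCode × ℕ) × QCode × QCode => x.2 := Primrec.snd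
  exact (Primrec.cond (primrec_qleb.comp (Primrec.const _) (Primrec.snd.comp hp))
    (Primrec.fst.comp hp) (Primrec.const _)).to₂

end Vale.Agent.P113.FabC
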