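import Vale.Agent.Lib.P113.FabEff

/-! Existence of the Fabius function with an effective evaluation procedure. -/

open Set

namespace Vale.Agent.P113

theorem fab_exists : ∃ F : ℝ → ℝ, (∀ x ≤ 0, F x = 0) ∧ (∀ x, 1 ≤ x → F x = 1) ∧ Monotone F ∧
    (∀ x, F (1 - x) = 1 - F x) ∧ ContDiff ℝ (⊤ : ℕ∞) F ∧
    (∀ x, HasDerivAt F (2 * (F (2 * x) - F (2 * x - 1))) x) ∧
    ∃ A : ℕ × QCode × ℕ → QCode, Primrec A ∧
      ∀ n s k, |ratVal (A (n, s, k)) - iteratedDeriv n F (ratVal s)| ≤ 1 / ((k : ℝ) + 1) := by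
  obtain ⟨F, hc, hg, hfix, hd, hs⟩ := FabC.fab_analysis
  exact ⟨F, hg.1, hg.2.1, fun x y h => hg.2.2.2 x y h, hg.2.2.1, hs, hd, FabC.alg,
    FabC.primrec_alg, FabC.alg_spec hc hg hfix hd⟩

end Vale.Agent.P113
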