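import Vale.Agent.Lib.P113.Fab

/-! # Velocity fields that are shears on successive time windows of length `1/16` -/

open Set

namespace Vale.Agent.P113

/-- The derivative of `t ↦ fab (16 t - N)`, as a function of `16 t - N`. -/
noncomputable def bump (s : ℝ) : ℝ := 32 * fab (2 * s) * fab (2 - 2 * s)

theorem bump_hasDerivAt (N t : ℝ) : HasDerivAt (fun s => fab (16 * s - N)) (bump (16 * t - N)) t := by
  have h1 : HasDerivAt (fun s : ℝ => 16 * s - N) 16 t := by
    simpa using ((hasDerivAt_id t).const_mul (16:ℝ)).sub_const N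
  have h2 := (fab_hasDerivAt' (16 * t - N)).comp t h1
  have e : bump (16 * t - N)
      = 2 * fab (2 * (16 * t - N)) * fab (2 - 2 * (16 * t - N)) * 16 := by
    unfold bump; ring
  rw [e]; exact h2

theorem bump_of_nonpos {s : ℝ} (h : s ≤ 0) : bump s = 0 := by
  unfold bump; rw [fab_of_nonpos (by linarith)]; ring

theorem bump_of_one_le {s : ℝ} (h : 1 ≤ s) : bump s = 0 := by
  unfold bump; rw [fab_of_nonpos (by linarith : 2 - 2 * s ≤ 0)]; ring

/-- A field that moves only the coordinates in a set `A`, and does not depend on them. -/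
def IsShear (V : R3 → R3) : Prop :=
  ∃ A : Set (Fin 3), (∀ x, ∀ j ∉ A, V x j = 0) ∧ ∀ x y : R3, (∀ j ∉ A, x j = y j) → V x = V y

/-- On the window `[N/16, (N+1)/16]`, the field is `bump (16 t - N) V_N(x)`. -/
structure WindowField (u : ℝ → R3 → R3) (V : ℕ → R3 → R3) : Prop where
  shear : ∀ N, IsShear (V N)
  eq : ∀ (N : ℕ) (t : ℝ) (x : R3), (N : ℝ) / 16 ≤ t → t ≤ ((N : ℝ) + 1) / 16 →
    u t x = bump (16 * t - N) • V N x

theorem IsShear.apply_eq {V : R3 → R3} (h : IsShear V) (x : R3) (s : ℝ) :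
    V (x + s • V x) = V x := by
  obtain ⟨A, h0, h1⟩ := h
  apply h1
  intro j hj
  simp [h0 x j hj]

variable {u : ℝ → R3 → R3} {V : ℕ → R3 → R3}

/-- Solutions on one window. -/
theorem WindowField.solution (hu : WindowField u V) {X : ℝ → R3}
    (hX : ∀ t, 0 ≤ t → HasDerivWithinAt X (u t (X t)) (Ici 0) t) (N : ℕ) (t : ℝ)
    (h1 : (N : ℝ) / 16 ≤ t) (h2 : t ≤ ((N : ℝ) + 1) / 16) :
    X t = X ((N : ℝ) / 16) + fab (16 * t - N) • V N (X ((N : ℝ) / 16)) := by
  set a : ℝ := (N : ℝ) / 16 with ha
  set b : ℝ := ((N : ℝ) + 1) / 16 with hb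
  have ha0 : 0 ≤ a := by positivity
  obtain ⟨A, hA0, hA1⟩ := hu.shear N
  have hcont : ContinuousOn X (Icc a b) := by
    intro s hs
    exact ((hX s (ha0.trans hs.1)).continuousWithinAt).mono
      (fun r hr => ha0.trans hr.1)
  have hder : ∀ s ∈ Ico a b, HasDerivWithinAt X (bump (16 * s - N) • V N (X s)) (Ici s) s := by
    intro s hs
    have := (hX s (ha0.trans hs.1)).mono (show Ici s ⊆ Ici 0 from
      fun r hr => (ha0.trans hs.1).trans hr)
    rwa [hu.eq N s (X s) hs.1 hs.2.le] at this
  -- coordinates off `A` are constant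
  have hoff : ∀ s ∈ Icc a b, ∀ j ∉ A, X s j = X a j := by
    intro s hs j hj
    refine constant_of_has_deriv_right_zero (f := fun r => X r j) ?_ ?_ s hs
    · exact (continuous_apply j).comp_continuousOn hcont
    · intro r hr
      have h3 := (hasDerivWithinAt_pi.1 (hder r hr)) j
      simpa [hA0 _ j hj] using h3
  have hV : ∀ s ∈ Icc a b, V N (X s) = V N (X a) := fun s hs => hA1 _ _ (hoff s hs)
  have hconst : ∀ s ∈ Icc a b,
      X s - fab (16 * s - N) • V N (X a) = X a - fab (16 * a - N) • V N (X a) := by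
    refine constant_of_has_deriv_right_zero
      (f := fun s => X s - fab (16 * s - N) • V N (X a)) ?_ ?_
    · refine hcont.sub ?_
      have hc : Continuous fun s : ℝ => fab (16 * s - N) :=
        fab_contDiff.continuous.comp (by fun_prop)
      exact (hc.smul continuous_const).continuousOn
    · intro s hs
      have h3 := hder s hs
      rw [hV s ⟨hs.1, hs.2.le⟩] at h3
      have h4 : HasDerivWithinAt (fun s => fab (16 * s - N) • V N (X a))
          (bump (16 * s - N) • V N (X a)) (Ici s) s :=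
        ((bump_hasDerivAt N s).hasDerivWithinAt).smul_const _
      have h5 := h3.fun_sub h4
      rwa [sub_self] at h5
  have h6 := hconst t ⟨h1, h2⟩
  have h7 : fab (16 * a - N) = 0 := by
    apply fab_of_nonpos; rw [ha]; apply le_of_eq; ring
  rw [h7, zero_smul, sub_zero] at h6
  exact eq_add_of_sub_eq h6

/-- The successive positions at the times `N/16`. -/
noncomputable def stops (V : ℕ → R3 → R3) (x₀ : R3) : ℕ → R3
  | 0 => x₀
  | N + 1 => stops V x₀ N + V N (stops V x₀ N)

theorem WindowField.solution_stops (hu : WindowField u V) {X : ℝ → R3}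
    (hX : ∀ t, 0 ≤ t → HasDerivWithinAt X (u t (X t)) (Ici 0) t) (N : ℕ) :
    X ((N : ℝ) / 16) = stops V (X 0) N := by
  induction N with
  | zero => simp [stops]
  | succ N ih =>
    have h := hu.solution hX N (((N : ℝ) + 1) / 16) (by gcongr; linarith) le_rfl
    have e : ((N + 1 : ℕ) : ℝ) / 16 = ((N : ℝ) + 1) / 16 := by push_cast; ring
    rw [e, h, ih]
    have e2 : 16 * (((N : ℝ) + 1) / 16) - N = 1 := by ring
    rw [e2, fab_of_one_le le_rfl, one_smul]
    rfl

/-- Explicit solution. -/
noncomputable def path (V : ℕ → R3 → R3) (x₀ : R3) (t : ℝ) : R3 :=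
  x₀ + ∑ N ∈ Finset.range (⌊16 * t⌋₊ + 1), fab (16 * t - N) • V N (stops V x₀ N)

theorem path_eq (V : ℕ → R3 → R3) (x₀ : R3) {t : ℝ} {M : ℕ} (hM : 16 * t ≤ M) :
    path V x₀ t = x₀ + ∑ N ∈ Finset.range M, fab (16 * t - N) • V N (stops V x₀ N) := by
  unfold path
  congr 1
  rcases le_total (⌊16 * t⌋₊ + 1) M with h | h
  · refine Finset.sum_subset (Finset.range_mono h) ?_
    intro N _ hN
    have h1 : ⌊16 * t⌋₊ + 1 ≤ N := by simpa using hN
    have h2 : 16 * t < N := by
      have := Nat.lt_floor_add_one (16 * t)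
      have h3 : ((⌊16 * t⌋₊ + 1 : ℕ) : ℝ) ≤ N := by exact_mod_cast h1
      push_cast at h3; linarith
    rw [fab_of_nonpos (by linarith), zero_smul]
  · symm
    refine Finset.sum_subset (Finset.range_mono h) ?_
    intro N _ hN
    have h1 : M ≤ N := by simpa using hN
    have h2 : (M : ℝ) ≤ N := by exact_mod_cast h1
    rw [fab_of_nonpos (by linarith), zero_smul]

theorem stops_eq_sum (V : ℕ → R3 → R3) (x₀ : R3) (M : ℕ) :
    stops V x₀ M = x₀ + ∑ N ∈ Finset.range M, V N (stops V x₀ N) := by
  induction M with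
  | zero => simp [stops]
  | succ M ih => rw [Finset.sum_range_succ, ← add_assoc, ← ih]; rfl

theorem path_window (V : ℕ → R3 → R3) (x₀ : R3) {t : ℝ} {M : ℕ} (h1 : (M : ℝ) / 16 ≤ t)
    (h2 : t ≤ ((M : ℝ) + 1) / 16) :
    path V x₀ t = stops V x₀ M + fab (16 * t - M) • V M (stops V x₀ M) := by
  have h3 : 16 * t ≤ ((M + 1 : ℕ) : ℝ) := by push_cast; linarith
  rw [path_eq V x₀ h3, Finset.sum_range_succ, ← add_assoc, stops_eq_sum V x₀ M]
  congr 2
  refine Finset.sum_congr rfl ?_
  intro N hN
  have h4 : N + 1 ≤ M := by simpa using hN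
  have h5 : (N : ℝ) + 1 ≤ M := by exact_mod_cast h4
  rw [fab_of_one_le (by linarith), one_smul]

theorem WindowField.path_hasDerivAt (hu : WindowField u V) (x₀ : R3) {t : ℝ} (ht : 0 ≤ t) :
    HasDerivAt (path V x₀) (u t (path V x₀ t)) t := by
  set M := ⌊16 * t⌋₊ with hM
  have hM1 : (M : ℝ) ≤ 16 * t := Nat.floor_le (by positivity)
  have hM2 : 16 * t < (M : ℝ) + 1 := Nat.lt_floor_add_one _
  have w1 : (M : ℝ) / 16 ≤ t := by linarith
  have w2 : t ≤ ((M : ℝ) + 1) / 16 := by linarith
  rw [hu.eq M t _ w1 w2, path_window V x₀ w1 w2, (hu.shear M).apply_eq]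
  have hev : path V x₀ =ᶠ[nhds t] fun s => x₀ + ∑ N ∈ Finset.range (M + 1),
      fab (16 * s - N) • V N (stops V x₀ N) := by
    have : ∀ᶠ s in nhds t, 16 * s < (M : ℝ) + 1 := by
      have hc : Continuous fun s : ℝ => 16 * s := by fun_prop
      exact hc.continuousAt.eventually_lt continuousAt_const hM2
    filter_upwards [this] with s hs
    exact path_eq V x₀ (by push_cast; linarith)
  refine HasDerivAt.congr_of_eventuallyEq ?_ hev
  have hsum : HasDerivAt (fun s => ∑ N ∈ Finset.range (M + 1),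
      fab (16 * s - N) • V N (stops V x₀ N))
      (∑ N ∈ Finset.range (M + 1), bump (16 * t - N) • V N (stops V x₀ N)) t := by
    exact HasDerivAt.fun_sum (u := Finset.range (M + 1))
      (A := fun N s => fab (16 * s - (N : ℝ)) • V N (stops V x₀ N))
      (A' := fun N => bump (16 * t - N) • V N (stops V x₀ N)) (x := t)
      (fun N _ => (bump_hasDerivAt N t).smul_const _)
  have h3 : (∑ N ∈ Finset.range (M + 1), bump (16 * t - N) • V N (stops V x₀ N))
      = bump (16 * t - M) • V M (stops V x₀ M) := by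
    rw [Finset.sum_range_succ, Finset.sum_eq_zero, zero_add]
    intro N hN
    have h4 : N + 1 ≤ M := by simpa using hN
    have h5 : (N : ℝ) + 1 ≤ M := by exact_mod_cast h4
    rw [bump_of_one_le (by linarith), zero_smul]
  rw [h3] at hsum
  exact hsum.const_add x₀

theorem path_zero (V : ℕ → R3 → R3) (x₀ : R3) : path V x₀ 0 = x₀ := by
  have := path_window V x₀ (t := 0) (M := 0) (by simp) (by norm_num)
  rw [this]
  simp [stops, fab_of_nonpos]

/-- A component of a shear field has no derivative in the moving directions. -/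
theorem pd_eq_zero_of_indep {g : R3 → ℝ} {A : Set (Fin 3)}
    (h : ∀ x y : R3, (∀ j ∉ A, x j = y j) → g x = g y) {i : Fin 3} (hi : i ∈ A) (x : R3) :
    pd i g x = 0 := by
  unfold pd
  by_cases hd : DifferentiableAt ℝ g x
  · have h1 : HasDerivAt (fun s : ℝ => g (x + s • (Pi.single i 1 : R3)))
        (fderiv ℝ g x (Pi.single i 1)) 0 := by
      have h2 : HasDerivAt (fun s : ℝ => x + s • (Pi.single i 1 : R3)) (Pi.single i 1) 0 := by
        simpa using ((hasDerivAt_id (0:ℝ)).smul_const (Pi.single i 1 : R3)).const_add x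
      have h3 : HasFDerivAt g (fderiv ℝ g x) (x + (0:ℝ) • (Pi.single i 1 : R3)) := by
        simpa using hd.hasFDerivAt
      exact h3.comp_hasDerivAt (0:ℝ) h2
    have h4 : (fun s : ℝ => g (x + s • (Pi.single i 1 : R3))) = fun _ => g x := by
      funext s
      apply h
      intro j hj
      have : j ≠ i := fun e => hj (e ▸ hi)
      simp [this]
    rw [h4] at h1
    exact h1.unique (hasDerivAt_const _ _)
  · rw [fderiv_zero_of_not_differentiableAt hd]; rfl

/-- The divergence of a shear field vanishes. -/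
theorem IsShear.div {V : R3 → R3} (h : IsShear V) (x : R3) : ∑ i, pd i (fun y => V y i) x = 0 := by
  obtain ⟨A, h0, h1⟩ := h
  refine Finset.sum_eq_zero fun i _ => ?_
  by_cases hi : i ∈ A
  · exact pd_eq_zero_of_indep (fun x y hxy => by rw [h1 x y hxy]) hi x
  · have : (fun y => V y i) = fun _ => 0 := funext fun y => h0 y i hi
    rw [this]; simp [pd]

/-- A shear field does not transport itself. -/
theorem IsShear.transport {V : R3 → R3} (h : IsShear V) (x : R3) (j : Fin 3) :
    ∑ i, V x i * pd i (fun y => V y j) x = 0 := by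
  obtain ⟨A, h0, h1⟩ := h
  refine Finset.sum_eq_zero fun i _ => ?_
  by_cases hi : i ∈ A
  · rw [pd_eq_zero_of_indep (fun x y hxy => by rw [h1 x y hxy]) hi x, mul_zero]
  · rw [h0 x i hi, zero_mul]

theorem pd_const_mul (i : Fin 3) (c : ℝ) (g : R3 → ℝ) (x : R3) :
    pd i (fun y => c * g y) x = c * pd i g x := by
  unfold pd
  rcases eq_or_ne c 0 with rfl | hc
  · simp
  · by_cases hd : DifferentiableAt ℝ g x
    · rw [fderiv_const_mul hd]; simp
    · have : ¬ DifferentiableAt ℝ (fun y => c * g y) x := by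
        intro h
        apply hd
        have h2 := h.const_mul c⁻¹
        have e : (fun y => c⁻¹ * (c * g y)) = g := by
          funext y; field_simp
        rwa [e] at h2
      rw [fderiv_zero_of_not_differentiableAt hd, fderiv_zero_of_not_differentiableAt this]; simp

theorem WindowField.exists_window {t : ℝ} (ht : 0 ≤ t) :
    ∃ N : ℕ, (N : ℝ) / 16 ≤ t ∧ t ≤ ((N : ℝ) + 1) / 16 := by
  refine ⟨⌊16 * t⌋₊, ?_, ?_⟩
  · have := Nat.floor_le (a := 16 * t) (by positivity)
    linarith
  · have := Nat.lt_floor_add_one (16 * t)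
    linarith

theorem WindowField.div (hu : WindowField u V) {t : ℝ} (ht : 0 ≤ t) (x : R3) :
    ∑ i, pd i (fun y => u t y i) x = 0 := by
  obtain ⟨N, h1, h2⟩ := WindowField.exists_window ht
  have e : ∀ i, (fun y => u t y i) = fun y => bump (16 * t - N) * V N y i := by
    intro i; funext y; rw [hu.eq N t y h1 h2]; rfl
  simp_rw [e, pd_const_mul, ← Finset.mul_sum]
  rw [(hu.shear N).div x, mul_zero]

theorem WindowField.transport (hu : WindowField u V) {t : ℝ} (ht : 0 ≤ t) (x : R3) (j : Fin 3) :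
    ∑ i, u t x i * pd i (fun y => u t y j) x = 0 := by
  obtain ⟨N, h1, h2⟩ := WindowField.exists_window ht
  have e : ∀ i, (fun y => u t y i) = fun y => bump (16 * t - N) * V N y i := by
    intro i; funext y; rw [hu.eq N t y h1 h2]; rfl
  have e2 : ∀ i, u t x i = bump (16 * t - N) * V N x i := by
    intro i; rw [hu.eq N t x h1 h2]; rfl
  have : ∀ i, u t x i * pd i (fun y => u t y j) x
      = bump (16 * t - N) ^ 2 * (V N x i * pd i (fun y => V N y j) x) := by
    intro i; rw [e j, pd_const_mul, e2 i]; ring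
  simp_rw [this, ← Finset.mul_sum]
  rw [(hu.shear N).transport x j, mul_zero]

end Vale.Agent.P113
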