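import Vale.Agent.Lib.P113.Defs

/-! # Two-stack prefix rewriting rules simulating a Turing machine injectively

A configuration of the simulating device is `(σ, L, R)`: control digit `σ = 3 q + d`
(`q` a state of the machine, `d` the code of the last move: 0 left, 1 stay, 2 right) and two
stacks of digits.  Digits `e < K₀ = m + 1` are tape symbols, digits `(σ+1) K₀ + s` are history
records.  The stacks, read without the records, are the two halves of the tape: for `d = 0` the
scanned symbol is the first symbol on `L`, for `d = 1, 2` it is the first symbol on `R`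
(for `d = 1` it is on top of `R`).  The device is encoded by the real numbers
`x = pval B (σ :: L) 0`, `y = pval B R 0`, with `B = 2 K`, `K = (3 (n+1) + 1) (m+1)`. -/

open Set

namespace Vale.Agent.P113

/-- Push the digits `p` on the stack with value `v`, in base `B`. -/
noncomputable def pval (B : ℕ) (p : List ℕ) (v : ℝ) : ℝ :=
  p.foldr (fun (e : ℕ) (v : ℝ) => ((e : ℝ) + v) / (B : ℝ)) v

/-- A rule `((px, py), (px', py'))`. -/
abbrev Rule : Type := (List ℕ × List ℕ) × (List ℕ × List ℕ)

/-- number of digits -/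
def numDigits (c : TMCode) : ℕ := (3 * (c.1 + 1) + 1) * (c.2.1 + 1)

/-- base -/
def base (c : TMCode) : ℕ := 2 * numDigits c

/-- Is the state `q` halting? -/
def isHalt (c : TMCode) (q : ℕ) : Bool := c.2.2.2.1.getD q false

/-- Look up the transition table. -/
def lookup (c : TMCode) (q s : ℕ) : ℕ × ℕ × ℕ := (c.2.2.2.2.getD q []).getD s (0, 0, 0)

/-- The rule for control digit `σ` and front digit `e` (a list with at most one element). -/
def ruleFor (c : TMCode) (σ e : ℕ) : List Rule :=
  let K₀ := c.2.1 + 1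
  let q := σ / 3
  let d := σ % 3
  let src : List ℕ × List ℕ := if d = 0 then ([σ, e], []) else ([σ], [e])
  if isHalt c q = true then []
  else if e < K₀ then
    let r := lookup c q e
    let ρ := (σ + 1) * K₀ + e
    if r.2.2 = 0 then [(src, ([3 * r.1], [r.2.1, ρ]))]
    else if r.2.2 = 1 then [(src, ([3 * r.1 + 1, ρ], [r.2.1]))]
    else [(src, ([3 * r.1 + 2, r.2.1, ρ], []))]
  else if d = 1 then []
  else if d = 0 then [(src, ([σ], [e]))]
  else [(src, ([σ, e], []))]

/-- All rules. -/
def rules (c : TMCode) : List Rule :=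
  (List.range (3 * (c.1 + 1))).flatMap fun σ =>
    (List.range (numDigits c)).flatMap fun e => ruleFor c σ e

/-- The control digits of halting states. -/
def haltDigits (c : TMCode) : List ℕ :=
  (List.range (3 * (c.1 + 1))).filter fun σ => isHalt c (σ / 3)

/-- Two prefixes are incompatible if they differ at a common position. -/
def Incompat (p p' : List ℕ) : Prop :=
  ∃ i a a' : ℕ, p[i]? = some a ∧ p'[i]? = some a' ∧ a ≠ a'

/-- Two prefix pairs are incompatible. -/
def Incompat2 (P P' : List ℕ × List ℕ) : Prop := Incompat P.1 P'.1 ∨ Incompat P.2 P'.2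

/-- The encoded point is in a halting block. -/
def IsHaltPt (c : TMCode) (x y : ℝ) : Prop :=
  ∃ σ ∈ haltDigits c, ∃ v ∈ Icc (0 : ℝ) (1 / 2), x = pval (base c) [σ] v ∧ y ∈ Icc (0 : ℝ) (1 / 2)

/-- One rule is applied. -/
def IsStep (c : TMCode) (x y x' y' : ℝ) : Prop :=
  ∃ r ∈ rules c, ∃ v ∈ Icc (0 : ℝ) (1 / 2), ∃ w ∈ Icc (0 : ℝ) (1 / 2),
    x = pval (base c) r.1.1 v ∧ y = pval (base c) r.1.2 w ∧
    x' = pval (base c) r.2.1 v ∧ y' = pval (base c) r.2.2 w


/-! ### Shape of the rules -/

theorem lookup_code (M : TM) {q s : ℕ} (hq : q < M.n + 1) (hs : s < M.m + 1) :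
    lookup M.code q s = ((M.step ⟨q, hq⟩ ⟨s, hs⟩).1.val, (M.step ⟨q, hq⟩ ⟨s, hs⟩).2.1.val,
      (M.step ⟨q, hq⟩ ⟨s, hs⟩).2.2.code) := by
  simp only [lookup, TM.code, List.getD_eq_getElem?_getD, List.getElem?_ofFn, dif_pos hq,
    dif_pos hs, Option.getD_some]

theorem isHalt_code (M : TM) {q : ℕ} (hq : q < M.n + 1) :
    isHalt M.code q = M.halting ⟨q, hq⟩ := by
  simp only [isHalt, TM.code, List.getD_eq_getElem?_getD, List.getElem?_ofFn, dif_pos hq,
    Option.getD_some]

/-- The source of the rule for `(σ, e)`. -/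
def srcOf (σ e : ℕ) : List ℕ × List ℕ := if σ % 3 = 0 then ([σ, e], []) else ([σ], [e])

/-- The possible targets of the rule for `(σ, e)`. -/
def TgtShape (n K₀ σ e : ℕ) (T : List ℕ × List ℕ) : Prop :=
  (∃ q' s', q' ≤ n ∧ s' < K₀ ∧ e < K₀ ∧ T = ([3 * q'], [s', (σ + 1) * K₀ + e])) ∨
  (∃ q' s', q' ≤ n ∧ s' < K₀ ∧ e < K₀ ∧ T = ([3 * q' + 1, (σ + 1) * K₀ + e], [s'])) ∨
  (∃ q' s', q' ≤ n ∧ s' < K₀ ∧ e < K₀ ∧ T = ([3 * q' + 2, s', (σ + 1) * K₀ + e], [])) ∨
  (K₀ ≤ e ∧ σ % 3 = 0 ∧ T = ([σ], [e])) ∨
  (K₀ ≤ e ∧ σ % 3 = 2 ∧ T = ([σ, e], []))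

theorem mem_ruleFor (M : TM) {σ e : ℕ} (hσ : σ < 3 * (M.n + 1)) {r : Rule}
    (hr : r ∈ ruleFor M.code σ e) :
    isHalt M.code (σ / 3) = false ∧ r.1 = srcOf σ e ∧ TgtShape M.n (M.m + 1) σ e r.2 := by
  have hq : σ / 3 < M.n + 1 := by omega
  have hm : M.code.2.1 = M.m := rfl
  unfold ruleFor at hr
  simp only [hm] at hr
  by_cases hH : isHalt M.code (σ / 3) = true
  · simp [hH] at hr
  have hH' : isHalt M.code (σ / 3) = false := by simpa using hH
  rw [if_neg hH] at hr
  refine ⟨hH', ?_⟩
  by_cases he : e < M.m + 1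
  · rw [if_pos he, lookup_code M hq he] at hr
    generalize M.step ⟨σ / 3, hq⟩ ⟨e, he⟩ = st at hr
    obtain ⟨q', s', mv⟩ := st
    cases mv with
    | left =>
      rw [if_pos (show Move.left.code = 0 from rfl), List.mem_singleton] at hr
      subst hr
      exact ⟨rfl, Or.inl ⟨q', s', by omega, s'.2, he, rfl⟩⟩
    | stay =>
      rw [if_neg (show ¬ Move.stay.code = 0 by decide),
        if_pos (show Move.stay.code = 1 from rfl), List.mem_singleton] at hr
      subst hr
      exact ⟨rfl, Or.inr (Or.inl ⟨q', s', by omega, s'.2, he, rfl⟩)⟩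
    | right =>
      rw [if_neg (show ¬ Move.right.code = 0 by decide),
        if_neg (show ¬ Move.right.code = 1 by decide), List.mem_singleton] at hr
      subst hr
      exact ⟨rfl, Or.inr (Or.inr (Or.inl ⟨q', s', by omega, s'.2, he, rfl⟩))⟩
  · rw [if_neg he] at hr
    by_cases h1 : σ % 3 = 1
    · simp [h1] at hr
    rw [if_neg h1] at hr
    by_cases h0 : σ % 3 = 0
    · rw [if_pos h0, List.mem_singleton] at hr
      subst hr
      exact ⟨rfl, Or.inr (Or.inr (Or.inr (Or.inl ⟨by omega, h0, rfl⟩)))⟩
    · rw [if_neg h0, List.mem_singleton] at hr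
      subst hr
      exact ⟨rfl, Or.inr (Or.inr (Or.inr (Or.inr ⟨by omega, by omega, rfl⟩)))⟩

theorem numDigits_code (M : TM) : numDigits M.code = (3 * (M.n + 1) + 1) * (M.m + 1) := rfl

theorem mem_rules (M : TM) {r : Rule} (hr : r ∈ rules M.code) :
    ∃ σ e, σ < 3 * (M.n + 1) ∧ e < numDigits M.code ∧ r ∈ ruleFor M.code σ e := by
  unfold rules at hr
  simp only [List.mem_flatMap, List.mem_range] at hr
  obtain ⟨σ, hσ, e, he, h⟩ := hr
  exact ⟨σ, e, hσ, he, h⟩

theorem mem_rules_of (M : TM) {r : Rule} {σ e : ℕ} (hσ : σ < 3 * (M.n + 1))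
    (he : e < numDigits M.code) (h : r ∈ ruleFor M.code σ e) : r ∈ rules M.code := by
  unfold rules
  simp only [List.mem_flatMap, List.mem_range]
  exact ⟨σ, hσ, e, he, h⟩

theorem rec_lt (M : TM) {σ e : ℕ} (hσ : σ < 3 * (M.n + 1)) (he : e < M.m + 1) :
    (σ + 1) * (M.m + 1) + e < numDigits M.code := by
  rw [numDigits_code]
  have : (σ + 1) * (M.m + 1) ≤ (3 * (M.n + 1)) * (M.m + 1) := Nat.mul_le_mul_right _ hσ
  nlinarith

theorem ctrl_lt (M : TM) {σ : ℕ} (hσ : σ < 3 * (M.n + 1)) : σ < numDigits M.code := by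
  rw [numDigits_code]
  have : (3 * (M.n + 1) + 1) * 1 ≤ (3 * (M.n + 1) + 1) * (M.m + 1) :=
    Nat.mul_le_mul_left _ (by omega)
  omega

theorem sym_lt (M : TM) {s : ℕ} (hs : s < M.m + 1) : s < numDigits M.code := by
  rw [numDigits_code]
  have : 1 * (M.m + 1) ≤ (3 * (M.n + 1) + 1) * (M.m + 1) :=
    Nat.mul_le_mul_right _ (by omega)
  omega

theorem rec_inj {K₀ σ e σ' e' : ℕ} (he : e < K₀) (he' : e' < K₀)
    (h : (σ + 1) * K₀ + e = (σ' + 1) * K₀ + e') : σ = σ' ∧ e = e' := by
  have hK : 0 < K₀ := by omega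
  have h1 : ((σ + 1) * K₀ + e) / K₀ = σ + 1 := by
    rw [Nat.add_comm, Nat.add_mul_div_right _ _ hK, Nat.div_eq_of_lt he]; omega
  have h2 : ((σ' + 1) * K₀ + e') / K₀ = σ' + 1 := by
    rw [Nat.add_comm, Nat.add_mul_div_right _ _ hK, Nat.div_eq_of_lt he']; omega
  have h3 : σ + 1 = σ' + 1 := by rw [← h1, ← h2, h]
  have h4 : σ = σ' := by omega
  subst h4
  exact ⟨rfl, by omega⟩

/-- Static properties of the rules (for codes of actual machines). -/
theorem rules_wf (M : TM) : ∀ r ∈ rules M.code,
    (∀ e ∈ r.1.1 ++ r.1.2 ++ r.2.1 ++ r.2.2, e < numDigits M.code) ∧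
    r.1.1.length ≤ 3 ∧ r.1.2.length ≤ 3 ∧ r.2.1.length ≤ 3 ∧ r.2.2.length ≤ 3 := by
  intro r hr
  obtain ⟨σ, e, hσ, he, h⟩ := mem_rules M hr
  obtain ⟨_, hs, ht⟩ := mem_ruleFor M hσ h
  obtain ⟨⟨s1, s2⟩, ⟨t1, t2⟩⟩ := r
  simp only at hs ht ⊢
  have hσK := ctrl_lt M hσ
  have hS : (∀ x ∈ s1 ++ s2, x < numDigits M.code) ∧ s1.length ≤ 3 ∧ s2.length ≤ 3 := by
    unfold srcOf at hs
    split_ifs at hs
    · obtain ⟨rfl, rfl⟩ := Prod.mk.inj hs
      simp [hσK, he]
    · obtain ⟨rfl, rfl⟩ := Prod.mk.inj hs
      simp [hσK, he]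
  have hT : (∀ x ∈ t1 ++ t2, x < numDigits M.code) ∧ t1.length ≤ 3 ∧ t2.length ≤ 3 := by
    rcases ht with ⟨q', s', hq', hs', he', hT⟩ | ⟨q', s', hq', hs', he', hT⟩ |
      ⟨q', s', hq', hs', he', hT⟩ | ⟨_, _, hT⟩ | ⟨_, _, hT⟩
    · obtain ⟨rfl, rfl⟩ := Prod.mk.inj hT
      have h1 := rec_lt M hσ he'
      have h2 : 3 * q' < numDigits M.code := ctrl_lt M (by omega)
      have h3 := sym_lt M hs'
      simp [h1, h2, h3]
    · obtain ⟨rfl, rfl⟩ := Prod.mk.inj hT
      have h1 := rec_lt M hσ he'
      have h2 : 3 * q' + 1 < numDigits M.code := ctrl_lt M (by omega)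
      have h3 := sym_lt M hs'
      simp [h1, h2, h3]
    · obtain ⟨rfl, rfl⟩ := Prod.mk.inj hT
      have h1 := rec_lt M hσ he'
      have h2 : 3 * q' + 2 < numDigits M.code := ctrl_lt M (by omega)
      have h3 := sym_lt M hs'
      simp [h1, h2, h3]
    · obtain ⟨rfl, rfl⟩ := Prod.mk.inj hT
      simp [hσK, he]
    · obtain ⟨rfl, rfl⟩ := Prod.mk.inj hT
      simp [hσK, he]
  refine ⟨?_, hS.2.1, hS.2.2, hT.2.1, hT.2.2⟩
  intro x hx
  simp only [List.mem_append] at hx hS hT
  rcases hx with (((hx | hx) | hx) | hx)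
  · exact hS.1 x (Or.inl hx)
  · exact hS.1 x (Or.inr hx)
  · exact hT.1 x (Or.inl hx)
  · exact hT.1 x (Or.inr hx)

theorem ruleFor_length (c : TMCode) (σ e : ℕ) : (ruleFor c σ e).length ≤ 1 := by
  unfold ruleFor
  simp only
  split_ifs <;> simp

theorem pairwise_of_length_le_one {α : Type*} {R : α → α → Prop} {l : List α}
    (h : l.length ≤ 1) : l.Pairwise R := by
  match l, h with
  | [], _ => exact List.Pairwise.nil
  | [a], _ => exact List.pairwise_singleton R a

theorem rules_pairwise (M : TM) {R : Rule → Rule → Prop}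
    (hR : ∀ σ e σ' e' r r', σ < 3 * (M.n + 1) → σ' < 3 * (M.n + 1) → (σ, e) ≠ (σ', e') →
      r ∈ ruleFor M.code σ e → r' ∈ ruleFor M.code σ' e' → R r r') :
    (rules M.code).Pairwise R := by
  unfold rules
  rw [List.pairwise_flatMap]
  constructor
  · intro σ hσ
    rw [List.mem_range] at hσ
    rw [List.pairwise_flatMap]
    refine ⟨fun e _ => pairwise_of_length_le_one (ruleFor_length _ _ _), ?_⟩
    refine List.Pairwise.imp ?_ List.pairwise_lt_range
    intro e e' hee r hr r' hr'
    exact hR σ e σ e' r r' hσ hσ (by intro h; simp at h; omega) hr hr'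
  · have h1 : (List.range (3 * (M.code.1 + 1))).Pairwise
        (fun a b => a < b ∧ a < 3 * (M.n + 1) ∧ b < 3 * (M.n + 1)) := by
      have h2 : (List.range (3 * (M.code.1 + 1))).Pairwise (fun a b => a < b) :=
        List.pairwise_lt_range
      refine List.Pairwise.imp_of_mem ?_ h2
      intro a b ha hb hab
      rw [List.mem_range] at ha hb
      exact ⟨hab, ha, hb⟩
    refine List.Pairwise.imp ?_ h1
    rintro σ σ' ⟨hlt, hσ, hσ'⟩ r hr r' hr'
    simp only [List.mem_flatMap, List.mem_range] at hr hr'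
    obtain ⟨e, _, hr⟩ := hr
    obtain ⟨e', _, hr'⟩ := hr'
    exact hR σ e σ' e' r r' hσ hσ' (by intro h; simp at h; omega) hr hr'

theorem incompat_at {p p' : List ℕ} (i a a' : ℕ) (h : p[i]? = some a) (h' : p'[i]? = some a')
    (hne : a ≠ a') : Incompat p p' := ⟨i, a, a', h, h', hne⟩

theorem rules_src (M : TM) : (rules M.code).Pairwise fun r r' => Incompat2 r.1 r'.1 := by
  apply rules_pairwise
  intro σ e σ' e' r r' hσ hσ' hne hr hr'
  obtain ⟨_, hs, _⟩ := mem_ruleFor M hσ hr
  obtain ⟨_, hs', _⟩ := mem_ruleFor M hσ' hr'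
  rw [hs, hs']
  unfold srcOf
  by_cases hσσ : σ = σ'
  · subst hσσ
    have hee : e ≠ e' := by intro h; exact hne (by rw [h])
    split_ifs
    · exact Or.inl (incompat_at 1 e e' rfl rfl hee)
    · exact Or.inr (incompat_at 0 e e' rfl rfl hee)
  · split_ifs
    · exact Or.inl (incompat_at 0 σ σ' rfl rfl hσσ)
    · exact Or.inl (incompat_at 0 σ σ' rfl rfl hσσ)
    · exact Or.inl (incompat_at 0 σ σ' rfl rfl hσσ)
    · exact Or.inl (incompat_at 0 σ σ' rfl rfl hσσ)

theorem tgt_incompat {n K₀ σ e σ' e' : ℕ} {T T' : List ℕ × List ℕ} (hne : (σ, e) ≠ (σ', e'))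
    (h : TgtShape n K₀ σ e T) (h' : TgtShape n K₀ σ' e' T') : Incompat2 T T' := by
  rcases h with ⟨q, s, hq, hs, he, rfl⟩ | ⟨q, s, hq, hs, he, rfl⟩ | ⟨q, s, hq, hs, he, rfl⟩ |
    ⟨he, hσ, rfl⟩ | ⟨he, hσ, rfl⟩ <;>
  rcases h' with ⟨q', s', hq', hs', he', rfl⟩ | ⟨q', s', hq', hs', he', rfl⟩ |
    ⟨q', s', hq', hs', he', rfl⟩ | ⟨he', hσ', rfl⟩ | ⟨he', hσ', rfl⟩
  -- A-A
  · refine Or.inr (incompat_at 1 _ _ rfl rfl ?_)
    intro h
    obtain ⟨h1, h2⟩ := rec_inj he he' h
    exact hne (by rw [h1, h2])
  · exact Or.inl (incompat_at 0 _ _ rfl rfl (by omega))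
  · exact Or.inl (incompat_at 0 _ _ rfl rfl (by omega))
  · exact Or.inr (incompat_at 0 _ _ rfl rfl (by omega))
  · exact Or.inl (incompat_at 0 _ _ rfl rfl (by omega))
  -- B
  · exact Or.inl (incompat_at 0 _ _ rfl rfl (by omega))
  · refine Or.inl (incompat_at 1 _ _ rfl rfl ?_)
    intro h
    obtain ⟨h1, h2⟩ := rec_inj he he' h
    exact hne (by rw [h1, h2])
  · exact Or.inl (incompat_at 0 _ _ rfl rfl (by omega))
  · exact Or.inl (incompat_at 0 _ _ rfl rfl (by omega))
  · exact Or.inl (incompat_at 0 _ _ rfl rfl (by omega))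
  -- C
  · exact Or.inl (incompat_at 0 _ _ rfl rfl (by omega))
  · exact Or.inl (incompat_at 0 _ _ rfl rfl (by omega))
  · refine Or.inl (incompat_at 2 _ _ rfl rfl ?_)
    intro h
    obtain ⟨h1, h2⟩ := rec_inj he he' h
    exact hne (by rw [h1, h2])
  · exact Or.inl (incompat_at 0 _ _ rfl rfl (by omega))
  · exact Or.inl (incompat_at 1 _ _ rfl rfl (by omega))
  -- D
  · exact Or.inr (incompat_at 0 _ _ rfl rfl (by omega))
  · exact Or.inl (incompat_at 0 _ _ rfl rfl (by omega))
  · exact Or.inl (incompat_at 0 _ _ rfl rfl (by omega))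
  · by_cases hσσ : σ = σ'
    · subst hσσ
      exact Or.inr (incompat_at 0 _ _ rfl rfl (by intro h; exact hne (by rw [h])))
    · exact Or.inl (incompat_at 0 _ _ rfl rfl hσσ)
  · exact Or.inl (incompat_at 0 _ _ rfl rfl (by omega))
  -- E
  · exact Or.inl (incompat_at 0 _ _ rfl rfl (by omega))
  · exact Or.inl (incompat_at 0 _ _ rfl rfl (by omega))
  · exact Or.inl (incompat_at 1 _ _ rfl rfl (by omega))
  · exact Or.inl (incompat_at 0 _ _ rfl rfl (by omega))
  · by_cases hσσ : σ = σ'
    · subst hσσ
      exact Or.inl (incompat_at 1 _ _ rfl rfl (by intro h; exact hne (by rw [h])))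
    · exact Or.inl (incompat_at 0 _ _ rfl rfl hσσ)

theorem rules_tgt (M : TM) : (rules M.code).Pairwise fun r r' => Incompat2 r.2 r'.2 := by
  apply rules_pairwise
  intro σ e σ' e' r r' hσ hσ' hne hr hr'
  obtain ⟨_, _, ht⟩ := mem_ruleFor M hσ hr
  obtain ⟨_, _, ht'⟩ := mem_ruleFor M hσ' hr'
  exact tgt_incompat hne ht ht'

theorem rules_halt (M : TM) : ∀ r ∈ rules M.code, ∀ σ ∈ haltDigits M.code,
    Incompat r.1.1 [σ] := by
  intro r hr τ hτ
  obtain ⟨σ, e, hσ, he, h⟩ := mem_rules M hr
  obtain ⟨hH, hs, _⟩ := mem_ruleFor M hσ h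
  unfold haltDigits at hτ
  rw [List.mem_filter] at hτ
  have hne : σ ≠ τ := by
    rintro rfl
    rw [hH] at hτ
    exact absurd hτ.2 (by simp)
  rw [hs]
  unfold srcOf
  split_ifs
  · exact incompat_at 0 σ τ rfl rfl hne
  · exact incompat_at 0 σ τ rfl rfl hne

theorem haltDigits_lt (M : TM) : ∀ σ ∈ haltDigits M.code, σ < numDigits M.code := by
  intro σ hσ
  unfold haltDigits at hσ
  rw [List.mem_filter, List.mem_range] at hσ
  exact ctrl_lt M hσ.1

theorem haltDigits_nodup (M : TM) : (haltDigits M.code).Nodup := by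
  unfold haltDigits
  exact List.Nodup.filter _ List.nodup_range

/-! ### The simulating device -/

/-- State of the device: control digit and the two stacks. -/
abbrev DState : Type := ℕ × List ℕ × List ℕ

/-- The front digit. -/
def front (D : DState) : ℕ := if D.1 % 3 = 0 then D.2.1.headD 0 else D.2.2.headD 0

/-- The left stack without the front digit. -/
def restL (D : DState) : List ℕ := if D.1 % 3 = 0 then D.2.1.tail else D.2.1

/-- The right stack without the front digit. -/
def restR (D : DState) : List ℕ := if D.1 % 3 = 0 then D.2.2 else D.2.2.tail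

/-- The history record. -/
def record (c : TMCode) (D : DState) : ℕ := (D.1 + 1) * (c.2.1 + 1) + front D

/-- One step of the device. -/
def dnext (c : TMCode) (D : DState) : DState :=
  if isHalt c (D.1 / 3) = true then D
  else if front D < c.2.1 + 1 then
    if (lookup c (D.1 / 3) (front D)).2.2 = 0 then
      (3 * (lookup c (D.1 / 3) (front D)).1, restL D,
        (lookup c (D.1 / 3) (front D)).2.1 :: record c D :: restR D)
    else if (lookup c (D.1 / 3) (front D)).2.2 = 1 then
      (3 * (lookup c (D.1 / 3) (front D)).1 + 1, record c D :: restL D,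
        (lookup c (D.1 / 3) (front D)).2.1 :: restR D)
    else
      (3 * (lookup c (D.1 / 3) (front D)).1 + 2,
        (lookup c (D.1 / 3) (front D)).2.1 :: record c D :: restL D, restR D)
  else if D.1 % 3 = 1 then D
  else if D.1 % 3 = 0 then (D.1, restL D, front D :: restR D)
  else (D.1, front D :: restL D, restR D)

/-- Read the `i`-th tape symbol of a stack. -/
def rd (K₀ : ℕ) (l : List ℕ) (i : ℕ) : ℕ := (l.filter (fun e => decide (e < K₀))).getD i 0

theorem rd_cons_zero {K₀ s : ℕ} {l : List ℕ} (hs : s < K₀) : rd K₀ (s :: l) 0 = s := by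
  simp [rd, hs]

theorem rd_cons_succ {K₀ s i : ℕ} {l : List ℕ} (hs : s < K₀) :
    rd K₀ (s :: l) (i + 1) = rd K₀ l i := by
  simp [rd, hs]

theorem rd_cons_rec {K₀ ρ i : ℕ} {l : List ℕ} (hρ : K₀ ≤ ρ) :
    rd K₀ (ρ :: l) i = rd K₀ l i := by
  have : ¬ ρ < K₀ := by omega
  simp [rd, this]

theorem rd_nil {K₀ i : ℕ} : rd K₀ [] i = 0 := by simp [rd]

theorem rd_head {K₀ : ℕ} {l : List ℕ} (h : l.headD 0 < K₀) : rd K₀ l 0 = l.headD 0 := by
  cases l with
  | nil => simp [rd]
  | cons a l => exact rd_cons_zero h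

theorem rd_tail {K₀ i : ℕ} {l : List ℕ} (h : l.headD 0 < K₀) :
    rd K₀ l (i + 1) = rd K₀ l.tail i := by
  cases l with
  | nil => simp [rd]
  | cons a l => exact rd_cons_succ h

theorem rd_tail_rec {K₀ i : ℕ} {l : List ℕ} (h : K₀ ≤ l.headD 0) (hK : 0 < K₀) :
    rd K₀ l i = rd K₀ l.tail i := by
  cases l with
  | nil => simp at h; omega
  | cons a l => exact rd_cons_rec h

/-- The device state `D` represents the configuration `c`. -/
structure Good (M : TM) (D : DState) (c : Config M) : Prop where
  ctrl : D.1 < 3 * (M.n + 1)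
  state : D.1 / 3 = c.state.val
  digL : ∀ e ∈ D.2.1, e < numDigits M.code
  digR : ∀ e ∈ D.2.2, e < numDigits M.code
  left0 : D.1 % 3 = 0 → ∀ i : ℕ, (c.tape (c.head - i)).val = rd (M.m + 1) D.2.1 i
  right0 : D.1 % 3 = 0 → ∀ i : ℕ, (c.tape (c.head + 1 + i)).val = rd (M.m + 1) D.2.2 i
  left1 : D.1 % 3 ≠ 0 → ∀ i : ℕ, (c.tape (c.head - 1 - i)).val = rd (M.m + 1) D.2.1 i
  right1 : D.1 % 3 ≠ 0 → ∀ i : ℕ, (c.tape (c.head + i)).val = rd (M.m + 1) D.2.2 i
  top1 : D.1 % 3 = 1 → D.2.2.headD 0 < M.m + 1

theorem front_lt {M : TM} {D : DState} {c : Config M} (h : Good M D c) :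
    front D < numDigits M.code := by
  have h0 : 0 < numDigits M.code := sym_lt M (Nat.succ_pos _)
  have key : ∀ l : List ℕ, (∀ e ∈ l, e < numDigits M.code) → l.headD 0 < numDigits M.code := by
    intro l hl
    cases l with
    | nil => simpa using h0
    | cons a l => simpa using hl a (by simp)
  unfold front
  split_ifs
  · exact key _ h.digL
  · exact key _ h.digR

theorem restL_lt {M : TM} {D : DState} {c : Config M} (h : Good M D c) :
    ∀ e ∈ restL D, e < numDigits M.code := by
  unfold restL
  split_ifs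
  · intro e he
    exact h.digL e (List.mem_of_mem_tail he)
  · exact h.digL

theorem restR_lt {M : TM} {D : DState} {c : Config M} (h : Good M D c) :
    ∀ e ∈ restR D, e < numDigits M.code := by
  unfold restR
  split_ifs
  · exact h.digR
  · intro e he
    exact h.digR e (List.mem_of_mem_tail he)

/-- Reading around the head when the front digit is a symbol. -/
theorem good_read {M : TM} {D : DState} {c : Config M} (h : Good M D c)
    (hf : front D < M.m + 1) :
    (c.tape c.head).val = front D ∧
    (∀ i : ℕ, (c.tape (c.head - 1 - i)).val = rd (M.m + 1) (restL D) i) ∧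
    (∀ i : ℕ, (c.tape (c.head + 1 + i)).val = rd (M.m + 1) (restR D) i) := by
  by_cases h0 : D.1 % 3 = 0
  · have hf' : D.2.1.headD 0 < M.m + 1 := by simpa [front, h0] using hf
    refine ⟨?_, ?_, ?_⟩
    · have := h.left0 h0 0
      rw [rd_head hf'] at this
      simpa [front, h0] using this
    · intro i
      have := h.left0 h0 (i + 1)
      rw [rd_tail hf'] at this
      have e : c.head - ((i + 1 : ℕ) : ℤ) = c.head - 1 - i := by push_cast; ring
      rw [e] at this
      simpa [restL, h0] using this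
    · intro i
      have := h.right0 h0 i
      simpa [restR, h0] using this
  · have hf' : D.2.2.headD 0 < M.m + 1 := by simpa [front, h0] using hf
    refine ⟨?_, ?_, ?_⟩
    · have := h.right1 h0 0
      rw [rd_head hf'] at this
      simpa [front, h0] using this
    · intro i
      have := h.left1 h0 i
      simpa [restL, h0] using this
    · intro i
      have := h.right1 h0 (i + 1)
      rw [rd_tail hf'] at this
      have e : c.head + ((i + 1 : ℕ) : ℤ) = c.head + 1 + i := by push_cast; ring
      rw [e] at this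
      simpa [restR, h0] using this

theorem record_ge (M : TM) (D : DState) : M.m + 1 ≤ record M.code D := by
  have h : M.code.2.1 = M.m := rfl
  unfold record
  rw [h]
  nlinarith [Nat.zero_le (D.1 * (M.m + 1)), Nat.zero_le (front D)]

/-- A symbol step. -/
theorem good_symbol {M : TM} {D : DState} {c : Config M} (h : Good M D c)
    (hH : isHalt M.code (D.1 / 3) = false) (hf : front D < M.m + 1) :
    Good M (dnext M.code D) (M.next c) := by
  obtain ⟨hhead, hleft, hright⟩ := good_read h hf
  have hm : M.code.2.1 = M.m := rfl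
  have hq : D.1 / 3 < M.n + 1 := by have := h.ctrl; omega
  have hρ := record_ge M D
  have hρK : record M.code D < numDigits M.code := rec_lt M h.ctrl hf
  have hstate : (⟨D.1 / 3, hq⟩ : Fin (M.n + 1)) = c.state := Fin.ext h.state
  have hsym : (⟨front D, hf⟩ : Fin (M.m + 1)) = c.tape c.head := Fin.ext hhead.symm
  have hlook : lookup M.code (D.1 / 3) (front D) =
      ((M.step c.state (c.tape c.head)).1.val, (M.step c.state (c.tape c.head)).2.1.val,
        (M.step c.state (c.tape c.head)).2.2.code) := by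
    rw [lookup_code M hq hf, hstate, hsym]
  have hH' : ¬ (isHalt M.code (D.1 / 3) = true) := by simp [hH]
  have hL := restL_lt h
  have hR := restR_lt h
  unfold dnext
  rw [if_neg hH', hm, if_pos hf, hlook]
  unfold TM.next
  generalize M.step c.state (c.tape c.head) = st
  obtain ⟨q', s', mv⟩ := st
  have hs' : s'.val < numDigits M.code := sym_lt M s'.2
  cases mv with
  | left =>
    rw [if_pos (show Move.left.code = 0 from rfl)]
    refine ⟨?_, ?_, ?_, ?_, ?_, ?_, ?_, ?_, ?_⟩
    · have := q'.2; simp only; omega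
    · simp only; omega
    · exact hL
    · intro e he
      simp only [List.mem_cons] at he
      rcases he with rfl | rfl | he
      · exact hs'
      · exact hρK
      · exact hR e he
    · intro _ i
      simp only [Move.shift]
      have e1 : c.head + -1 - (i : ℤ) = c.head - 1 - i := by ring
      rw [e1, Function.update_of_ne (by omega)]
      exact hleft i
    · intro _ i
      simp only [Move.shift]
      cases i with
      | zero =>
        have e1 : c.head + -1 + 1 + ((0 : ℕ) : ℤ) = c.head := by push_cast; ring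
        rw [e1, Function.update_self, rd_cons_zero s'.2]
      | succ j =>
        have e1 : c.head + -1 + 1 + ((j + 1 : ℕ) : ℤ) = c.head + 1 + j := by push_cast; ring
        rw [e1, Function.update_of_ne (by omega), rd_cons_succ s'.2, rd_cons_rec hρ]
        exact hright j
    · intro hne; simp only at hne; omega
    · intro hne; simp only at hne; omega
    · intro hne; simp only at hne; omega
  | stay =>
    rw [if_neg (show ¬ Move.stay.code = 0 by decide),
      if_pos (show Move.stay.code = 1 from rfl)]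
    refine ⟨?_, ?_, ?_, ?_, ?_, ?_, ?_, ?_, ?_⟩
    · have := q'.2; simp only; omega
    · simp only; omega
    · intro e he
      simp only [List.mem_cons] at he
      rcases he with rfl | he
      · exact hρK
      · exact hL e he
    · intro e he
      simp only [List.mem_cons] at he
      rcases he with rfl | he
      · exact hs'
      · exact hR e he
    · intro hne; simp only at hne; omega
    · intro hne; simp only at hne; omega
    · intro _ i
      simp only [Move.shift, add_zero]
      rw [Function.update_of_ne (by omega), rd_cons_rec hρ]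
      exact hleft i
    · intro _ i
      simp only [Move.shift, add_zero]
      cases i with
      | zero =>
        have e1 : c.head + ((0 : ℕ) : ℤ) = c.head := by push_cast; ring
        rw [e1, Function.update_self, rd_cons_zero s'.2]
      | succ j =>
        have e1 : c.head + ((j + 1 : ℕ) : ℤ) = c.head + 1 + j := by push_cast; ring
        rw [e1, Function.update_of_ne (by omega), rd_cons_succ s'.2]
        exact hright j
    · intro _
      simpa using s'.2
  | right =>
    rw [if_neg (show ¬ Move.right.code = 0 by decide),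
      if_neg (show ¬ Move.right.code = 1 by decide)]
    refine ⟨?_, ?_, ?_, ?_, ?_, ?_, ?_, ?_, ?_⟩
    · have := q'.2; simp only; omega
    · simp only; omega
    · intro e he
      simp only [List.mem_cons] at he
      rcases he with rfl | rfl | he
      · exact hs'
      · exact hρK
      · exact hL e he
    · exact hR
    · intro hne; simp only at hne; omega
    · intro hne; simp only at hne; omega
    · intro _ i
      simp only [Move.shift]
      cases i with
      | zero =>
        have e1 : c.head + 1 - 1 - ((0 : ℕ) : ℤ) = c.head := by push_cast; ring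
        rw [e1, Function.update_self, rd_cons_zero s'.2]
      | succ j =>
        have e1 : c.head + 1 - 1 - ((j + 1 : ℕ) : ℤ) = c.head - 1 - j := by push_cast; ring
        rw [e1, Function.update_of_ne (by omega), rd_cons_succ s'.2, rd_cons_rec hρ]
        exact hleft j
    · intro _ i
      simp only [Move.shift]
      rw [Function.update_of_ne (by omega)]
      exact hright i
    · intro hne; simp only at hne; omega

/-- Number of digits on the stack being read. -/
def meas (D : DState) : ℕ := if D.1 % 3 = 0 then D.2.1.length else D.2.2.length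

/-- A record step. -/
theorem good_record {M : TM} {D : DState} {c : Config M} (h : Good M D c)
    (hH : isHalt M.code (D.1 / 3) = false) (hf : M.m + 1 ≤ front D) :
    Good M (dnext M.code D) c ∧ meas (dnext M.code D) < meas D ∧ (dnext M.code D).1 = D.1 := by
  have hm : M.code.2.1 = M.m := rfl
  have hH' : ¬ (isHalt M.code (D.1 / 3) = true) := by simp [hH]
  have hf' : ¬ front D < M.m + 1 := by omega
  have h1 : D.1 % 3 ≠ 1 := by
    intro h1
    have h2 := h.top1 h1
    have h0 : D.1 % 3 ≠ 0 := by omega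
    apply hf'
    unfold front
    rw [if_neg h0]
    exact h2
  have hfK := front_lt h
  have hL := restL_lt h
  have hR := restR_lt h
  unfold dnext
  rw [if_neg hH', hm, if_neg hf', if_neg h1]
  by_cases h0 : D.1 % 3 = 0
  · rw [if_pos h0]
    have hfr : front D = D.2.1.headD 0 := by simp [front, h0]
    have hrl : restL D = D.2.1.tail := by simp [restL, h0]
    have hrr : restR D = D.2.2 := by simp [restR, h0]
    rw [hfr] at hf hfK ⊢
    rw [hrl] at hL ⊢
    rw [hrr] at hR ⊢
    refine ⟨⟨h.ctrl, h.state, hL, ?_, ?_, ?_, ?_, ?_, ?_⟩, ?_, rfl⟩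
    · intro e he
      simp only [List.mem_cons] at he
      rcases he with rfl | he
      · exact hfK
      · exact hR e he
    · intro _ i
      simp only
      rw [← rd_tail_rec hf (Nat.succ_pos _)]
      exact h.left0 h0 i
    · intro _ i
      simp only
      rw [rd_cons_rec hf]
      exact h.right0 h0 i
    · intro hne; exact absurd h0 hne
    · intro hne; exact absurd h0 hne
    · intro hne; exact absurd hne h1
    · simp only [meas, if_pos h0]
      cases hl : D.2.1 with
      | nil => rw [hl] at hf; simp at hf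
      | cons a l => simp
  · rw [if_neg h0]
    have hfr : front D = D.2.2.headD 0 := by simp [front, h0]
    have hrl : restL D = D.2.1 := by simp [restL, h0]
    have hrr : restR D = D.2.2.tail := by simp [restR, h0]
    rw [hfr] at hf hfK ⊢
    rw [hrl] at hL ⊢
    rw [hrr] at hR ⊢
    refine ⟨⟨h.ctrl, h.state, ?_, hR, ?_, ?_, ?_, ?_, ?_⟩, ?_, rfl⟩
    · intro e he
      simp only [List.mem_cons] at he
      rcases he with rfl | he
      · exact hfK
      · exact hL e he
    · intro hne; exact absurd hne h0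
    · intro hne; exact absurd hne h0
    · intro _ i
      simp only
      rw [rd_cons_rec hf]
      exact h.left1 h0 i
    · intro _ i
      simp only
      rw [← rd_tail_rec hf (Nat.succ_pos _)]
      exact h.right1 h0 i
    · intro hne; exact absurd hne h1
    · simp only [meas, if_neg h0]
      cases hl : D.2.2 with
      | nil => rw [hl] at hf; simp at hf
      | cons a l => simp

theorem good_reach {M : TM} : ∀ (k : ℕ) {D : DState} {c : Config M}, meas D ≤ k → Good M D c →
    isHalt M.code (D.1 / 3) = false →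
    ∃ j, Good M ((dnext M.code)^[j] D) (M.next c) := by
  intro k
  induction k with
  | zero =>
    intro D c hk h hH
    by_cases hf : front D < M.m + 1
    · exact ⟨1, good_symbol h hH hf⟩
    · obtain ⟨_, h2, _⟩ := good_record h hH (by omega)
      omega
  | succ k ih =>
    intro D c hk h hH
    by_cases hf : front D < M.m + 1
    · exact ⟨1, good_symbol h hH hf⟩
    · obtain ⟨h1, h2, h3⟩ := good_record h hH (by omega)
      obtain ⟨j, hj⟩ := ih (by omega) h1 (by rw [h3]; exact hH)
      exact ⟨j + 1, hj⟩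

theorem good_halt_iff {M : TM} {D : DState} {c : Config M} (h : Good M D c) :
    isHalt M.code (D.1 / 3) = M.halting c.state := by
  have hq : D.1 / 3 < M.n + 1 := by have := h.ctrl; omega
  rw [isHalt_code M hq]
  congr 1
  exact Fin.ext h.state

theorem dnext_halt {c : TMCode} {D : DState} (h : isHalt c (D.1 / 3) = true) :
    dnext c D = D := by
  unfold dnext
  rw [if_pos h]

/-- Every device state represents some configuration of the run. -/
theorem good_run {M : TM} {D : DState} {c : Config M} (h : Good M D c) :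
    ∀ k, ∃ j, Good M ((dnext M.code)^[k] D) ((M.next^[j]) c) := by
  intro k
  induction k with
  | zero => exact ⟨0, h⟩
  | succ k ih =>
    obtain ⟨j, hj⟩ := ih
    rw [Function.iterate_succ_apply']
    by_cases hH : isHalt M.code (((dnext M.code)^[k] D).1 / 3) = true
    · rw [dnext_halt hH]
      exact ⟨j, hj⟩
    · have hH' : isHalt M.code (((dnext M.code)^[k] D).1 / 3) = false := by simpa using hH
      by_cases hf : front ((dnext M.code)^[k] D) < M.m + 1
      · refine ⟨j + 1, ?_⟩
        rw [Function.iterate_succ_apply']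
        exact good_symbol hj hH' hf
      · exact ⟨j, (good_record hj hH' (by omega)).1⟩

/-- Every configuration of the run up to the first halting one is represented. -/
theorem good_run' {M : TM} {D : DState} {c : Config M} (h : Good M D c) :
    ∀ j, (∀ i < j, M.halting ((M.next^[i]) c).state = false) →
      ∃ k, Good M ((dnext M.code)^[k] D) ((M.next^[j]) c) := by
  intro j
  induction j with
  | zero => intro _; exact ⟨0, h⟩
  | succ j ih =>
    intro hj
    obtain ⟨k, hk⟩ := ih (fun i hi => hj i (by omega))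
    have hH : isHalt M.code (((dnext M.code)^[k] D).1 / 3) = false := by
      rw [good_halt_iff hk]; exact hj j (by omega)
    obtain ⟨l, hl⟩ := good_reach _ le_rfl hk hH
    refine ⟨l + k, ?_⟩
    rw [Function.iterate_add_apply, Function.iterate_succ_apply']
    exact hl

theorem good_init (M : TM) (w : List (Fin (M.m + 1))) :
    Good M (3 * M.start.val + 1, [], w.map Fin.val) (M.init w) := by
  have hw : ∀ e ∈ w.map Fin.val, e < M.m + 1 := by
    intro e he
    simp only [List.mem_map] at he
    obtain ⟨a, _, rfl⟩ := he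
    exact a.2
  have hrd : ∀ i : ℕ, rd (M.m + 1) (w.map Fin.val) i = (w.getD i 0).val := by
    intro i
    have h1 : (w.map Fin.val).filter (fun e => decide (e < M.m + 1)) = w.map Fin.val := by
      rw [List.filter_eq_self]
      intro e he
      simpa using hw e he
    unfold rd
    rw [h1, List.getD_eq_getElem?_getD, List.getD_eq_getElem?_getD, List.getElem?_map]
    cases w[i]? with
    | none => simp
    | some a => simp
  refine ⟨?_, ?_, ?_, ?_, ?_, ?_, ?_, ?_, ?_⟩
  · have := M.start.2; simp only; omega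
  · simp only [TM.init]; omega
  · intro e he; simp at he
  · intro e he
    exact sym_lt M (hw e he)
  · intro hne; simp only at hne; omega
  · intro hne; simp only at hne; omega
  · intro _ i
    simp only [TM.init]
    rw [if_neg (by omega), rd_nil]
    rfl
  · intro _ i
    simp only [TM.init]
    rw [if_pos (by omega), hrd]
    congr 2
    omega
  · intro _
    simp only
    cases hl : w.map Fin.val with
    | nil => simp
    | cons a l => exact hw a (by rw [hl]; simp)

/-! ### Real encodings -/

theorem pval_nil (B : ℕ) (v : ℝ) : pval B [] v = v := rfl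

theorem pval_cons (B e : ℕ) (p : List ℕ) (v : ℝ) :
    pval B (e :: p) v = ((e : ℝ) + pval B p v) / (B : ℝ) := rfl

theorem pval_append (B : ℕ) (p q : List ℕ) (v : ℝ) :
    pval B (p ++ q) v = pval B p (pval B q v) := by
  induction p with
  | nil => rfl
  | cons e p ih => rw [List.cons_append, pval_cons, pval_cons, ih]

theorem pval_pop (B : ℕ) (l : List ℕ) : pval B l 0 = pval B [l.headD 0] (pval B l.tail 0) := by
  cases l with
  | nil => simp [pval]
  | cons a l => simp [pval]

theorem pval_range {K : ℕ} {p : List ℕ} (hp : ∀ e ∈ p, e < K) {v : ℝ}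
    (hv : v ∈ Icc (0 : ℝ) (1 / 2)) : pval (2 * K) p v ∈ Icc (0 : ℝ) (1 / 2) := by
  induction p with
  | nil => exact hv
  | cons e p ih =>
    have h1 := ih (fun x hx => hp x (List.mem_cons_of_mem _ hx))
    have he : e < K := hp e (by simp)
    have he' : (e : ℝ) + 1 ≤ (K : ℝ) := by exact_mod_cast he
    have hK : (0 : ℝ) < ((2 * K : ℕ) : ℝ) := by
      have : 0 < 2 * K := by omega
      exact_mod_cast this
    rw [pval_cons]
    have he0 : (0 : ℝ) ≤ (e : ℝ) := Nat.cast_nonneg e
    constructor
    · exact div_nonneg (by linarith [h1.1]) hK.le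
    · rw [div_le_iff₀ hK]
      push_cast
      nlinarith [h1.2]

theorem zero_mem_half : (0 : ℝ) ∈ Icc (0 : ℝ) (1 / 2) := ⟨le_rfl, by norm_num⟩

/-- The `x`-coordinate of a device state. -/
noncomputable def encX (c : TMCode) (D : DState) : ℝ := pval (base c) (D.1 :: D.2.1) 0

/-- The `y`-coordinate of a device state. -/
noncomputable def encY (c : TMCode) (D : DState) : ℝ := pval (base c) D.2.2 0

theorem encX_range {M : TM} {D : DState} {c : Config M} (h : Good M D c) :
    encX M.code D ∈ Icc (0 : ℝ) (1 / 2) := by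
  refine pval_range ?_ zero_mem_half
  intro e he
  simp only [List.mem_cons] at he
  rcases he with rfl | he
  · exact ctrl_lt M h.ctrl
  · exact h.digL e he

theorem encY_range {M : TM} {D : DState} {c : Config M} (h : Good M D c) :
    encY M.code D ∈ Icc (0 : ℝ) (1 / 2) := pval_range h.digR zero_mem_half

theorem mem_haltDigits (M : TM) {σ : ℕ} :
    σ ∈ haltDigits M.code ↔ σ < 3 * (M.n + 1) ∧ isHalt M.code (σ / 3) = true := by
  unfold haltDigits
  rw [List.mem_filter, List.mem_range]
  exact Iff.rfl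

theorem base_pos (M : TM) : (0 : ℝ) < (base M.code : ℝ) := by
  have h : 0 < numDigits M.code := sym_lt M (Nat.succ_pos _)
  have : 0 < base M.code := by unfold base; omega
  exact_mod_cast this

theorem isHaltPt_iff {M : TM} {D : DState} {c : Config M} (h : Good M D c) :
    IsHaltPt M.code (encX M.code D) (encY M.code D) ↔ isHalt M.code (D.1 / 3) = true := by
  have hB := base_pos M
  have hL : pval (base M.code) D.2.1 0 ∈ Icc (0 : ℝ) (1 / 2) := pval_range h.digL zero_mem_half
  constructor
  · rintro ⟨σ, hσ, v, hv, hx, _⟩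
    have h1 : encX M.code D = ((D.1 : ℝ) + pval (base M.code) D.2.1 0) / (base M.code : ℝ) := rfl
    rw [h1, pval_cons, pval_nil, div_left_inj' hB.ne'] at hx
    have h2 : σ = D.1 := by
      have h3 : (D.1 : ℝ) < (σ : ℝ) + 1 := by linarith [hL.1, hv.2]
      have h4 : (σ : ℝ) < (D.1 : ℝ) + 1 := by linarith [hL.2, hv.1]
      have h5 : D.1 < σ + 1 := by exact_mod_cast h3
      have h6 : σ < D.1 + 1 := by exact_mod_cast h4
      omega
    rw [mem_haltDigits, h2] at hσ
    exact hσ.2
  · intro hH
    refine ⟨D.1, ?_, pval (base M.code) D.2.1 0, hL, ?_, encY_range h⟩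
    · rw [mem_haltDigits]; exact ⟨h.ctrl, hH⟩
    · rfl

theorem ruleFor_mem_of_symbol {c : TMCode} {σ e : ℕ} (hH : isHalt c (σ / 3) = false)
    (he : e < c.2.1 + 1) :
    ((srcOf σ e), (if (lookup c (σ / 3) e).2.2 = 0 then
        ([3 * (lookup c (σ / 3) e).1], [(lookup c (σ / 3) e).2.1, (σ + 1) * (c.2.1 + 1) + e])
      else if (lookup c (σ / 3) e).2.2 = 1 then
        ([3 * (lookup c (σ / 3) e).1 + 1, (σ + 1) * (c.2.1 + 1) + e],
          [(lookup c (σ / 3) e).2.1])
      else ([3 * (lookup c (σ / 3) e).1 + 2, (lookup c (σ / 3) e).2.1,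
          (σ + 1) * (c.2.1 + 1) + e], []))) ∈ ruleFor c σ e := by
  have hH' : ¬ (isHalt c (σ / 3) = true) := by simp [hH]
  unfold ruleFor srcOf
  simp only
  rw [if_neg hH', if_pos he]
  by_cases h0 : (lookup c (σ / 3) e).2.2 = 0
  · simp only [if_pos h0, List.mem_singleton]
  · by_cases h1 : (lookup c (σ / 3) e).2.2 = 1
    · simp only [if_neg h0, if_pos h1, List.mem_singleton]
    · simp only [if_neg h0, if_neg h1, List.mem_singleton]

theorem src_enc (c : TMCode) (D : DState) :
    encX c D = pval (base c) (srcOf D.1 (front D)).1 (pval (base c) (restL D) 0) ∧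
    encY c D = pval (base c) (srcOf D.1 (front D)).2 (pval (base c) (restR D) 0) := by
  unfold srcOf front restL restR encX encY
  by_cases h0 : D.1 % 3 = 0
  · simp only [if_pos h0]
    refine ⟨?_, rfl⟩
    rw [pval_cons, pval_pop (base c) D.2.1, pval_cons]
    rfl
  · simp only [if_neg h0]
    refine ⟨rfl, ?_⟩
    rw [pval_pop (base c) D.2.2]

theorem isStep_of {M : TM} {D : DState} {c : Config M} (h : Good M D c)
    (hH : isHalt M.code (D.1 / 3) = false) :
    IsStep M.code (encX M.code D) (encY M.code D)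
      (encX M.code (dnext M.code D)) (encY M.code (dnext M.code D)) := by
  have hm : M.code.2.1 = M.m := rfl
  have hH' : ¬ (isHalt M.code (D.1 / 3) = true) := by simp [hH]
  have hL : pval (base M.code) (restL D) 0 ∈ Icc (0 : ℝ) (1 / 2) :=
    pval_range (restL_lt h) zero_mem_half
  have hR : pval (base M.code) (restR D) 0 ∈ Icc (0 : ℝ) (1 / 2) :=
    pval_range (restR_lt h) zero_mem_half
  obtain ⟨hsx, hsy⟩ := src_enc M.code D
  by_cases hf : front D < M.code.2.1 + 1
  · refine ⟨_, mem_rules_of M h.ctrl (front_lt h) (ruleFor_mem_of_symbol hH hf),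
      _, hL, _, hR, hsx, hsy, ?_⟩
    unfold dnext
    rw [if_neg hH', if_pos hf]
    by_cases h0 : (lookup M.code (D.1 / 3) (front D)).2.2 = 0
    · simp only [if_pos h0]
      exact ⟨rfl, rfl⟩
    · by_cases h1 : (lookup M.code (D.1 / 3) (front D)).2.2 = 1
      · simp only [if_neg h0, if_pos h1]
        exact ⟨rfl, rfl⟩
      · simp only [if_neg h0, if_neg h1]
        exact ⟨rfl, rfl⟩
  · have h1 : D.1 % 3 ≠ 1 := by
      intro h1
      have h2 := h.top1 h1
      have h0 : D.1 % 3 ≠ 0 := by omega
      apply hf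
      unfold front
      rw [if_neg h0]
      exact h2
    by_cases h0 : D.1 % 3 = 0
    · refine ⟨(srcOf D.1 (front D), ([D.1], [front D])),
        mem_rules_of M h.ctrl (front_lt h) ?_, _, hL, _, hR, hsx, hsy, ?_⟩
      · unfold ruleFor srcOf
        simp only
        rw [if_neg hH', if_neg hf, if_neg h1, if_pos h0]
        simp [h0]
      · unfold dnext
        rw [if_neg hH', if_neg hf, if_neg h1, if_pos h0]
        exact ⟨rfl, rfl⟩
    · refine ⟨(srcOf D.1 (front D), ([D.1, front D], [])),
        mem_rules_of M h.ctrl (front_lt h) ?_, _, hL, _, hR, hsx, hsy, ?_⟩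
      · unfold ruleFor srcOf
        simp only
        rw [if_neg hH', if_neg hf, if_neg h1, if_neg h0]
        simp [h0]
      · unfold dnext
        rw [if_neg hH', if_neg hf, if_neg h1, if_neg h0]
        exact ⟨rfl, rfl⟩

/-- The simulation theorem. -/
theorem simulation (M : TM) (w : List (Fin (M.m + 1))) : ∃ x y : ℕ → ℝ,
    x 0 = pval (base M.code) [3 * M.start.val + 1] 0 ∧
    y 0 = pval (base M.code) (w.map Fin.val) 0 ∧
    (∀ k, x k ∈ Icc (0 : ℝ) (1 / 2) ∧ y k ∈ Icc (0 : ℝ) (1 / 2)) ∧
    (∀ k, IsHaltPt M.code (x k) (y k) ∨ IsStep M.code (x k) (y k) (x (k + 1)) (y (k + 1))) ∧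
    (M.HaltsOn w ↔ ∃ k, IsHaltPt M.code (x k) (y k)) := by
  have h0 := good_init M w
  set D₀ : DState := (3 * M.start.val + 1, [], w.map Fin.val) with hD₀
  have hrun := good_run h0
  refine ⟨fun k => encX M.code ((dnext M.code)^[k] D₀),
    fun k => encY M.code ((dnext M.code)^[k] D₀), rfl, rfl, ?_, ?_, ?_⟩
  · intro k
    obtain ⟨j, hj⟩ := hrun k
    exact ⟨encX_range hj, encY_range hj⟩
  · intro k
    obtain ⟨j, hj⟩ := hrun k
    by_cases hH : isHalt M.code (((dnext M.code)^[k] D₀).1 / 3) = true
    · exact Or.inl ((isHaltPt_iff hj).2 hH)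
    · right
      simp only [Function.iterate_succ_apply']
      exact isStep_of hj (by simpa using hH)
  · constructor
    · intro hM
      classical
      have hM' : ∃ j, M.halting ((M.next^[j]) (M.init w)).state = true := hM
      have hmin : ∀ i < Nat.find hM', M.halting ((M.next^[i]) (M.init w)).state = false := by
        intro i hi
        simpa using Nat.find_min hM' hi
      obtain ⟨k, hk⟩ := good_run' h0 (Nat.find hM') hmin
      refine ⟨k, (isHaltPt_iff hk).2 ?_⟩
      rw [good_halt_iff hk]
      exact Nat.find_spec hM'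
    · rintro ⟨k, hk⟩
      obtain ⟨j, hj⟩ := hrun k
      have := (isHaltPt_iff hj).1 hk
      rw [good_halt_iff hj] at this
      exact ⟨j, this⟩

end Vale.Agent.P113
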