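import Vale.Agent.Lib.P113.Terms
import Vale.Agent.Lib.P113.Rules
import Vale.Agent.Lib.P113.Flow

/-! # The velocity field attached to a machine and an input -/

open Set

namespace Vale.Agent.P113

/-! ## Symbolic data -/

/-- The natural number `a`. -/
def qn (a : ℕ) : QCode := (a, 0, 0)

/-- The integer `-a`. -/
def qm (a : ℕ) : QCode := (0, a, 0)

/-- Value of a digit string in base `B`. -/
def numOf (B : ℕ) (p : List ℕ) : ℕ := p.foldl (fun a e => a * B + e) 0

/-- The constant factor `1`. -/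
def oneFac : FacCode := (0, qn 0, qn 0, qn 0, qn 0, qn 0, qn 0)

/-- The time factor of window `k`. -/
def timeFac (k : ℕ) : FacCode := (1, qn 32, qn 0, qn 32, qm (2 * k), qm 32, qn (2 + 2 * k))

/-- The time factor of the initial translation. -/
def startFac : FacCode := (2, qn 32, qn 0, qn 32, qm 0, qm 32, qn 2)

/-- `(a + b s)` times a plateau function of the block of the digit string `p`. -/
def prefFac (B : ℕ) (p : List ℕ) (a b : QCode) : FacCode :=
  (1, a, b, qn (4 * B ^ 3), (1, 4 * B ^ (3 - p.length) * numOf B p, 0), qm (4 * B ^ 3),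
    qn (4 * B ^ (3 - p.length) * numOf B p + 2 * B ^ (3 - p.length) + 1))

/-- `(a + b s)` times a plateau function of slot `j`. -/
def slotFac (n j : ℕ) (a b : QCode) : FacCode :=
  (1, a, b, qn (32 * (n + 1)), (1, 8 * (j + 1), 0), qm (32 * (n + 1)), qn (8 * (j + 1) + 5))

/-- Coefficients of the affine map load. -/
def loadA (B n j : ℕ) (p p' : List ℕ) : QCode :=
  ((j + 1) * B ^ p'.length + numOf B p', numOf B p, 4 * (n + 1) * B ^ p'.length - 1)

/-- Coefficients of the affine map load. -/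
def loadB (B n : ℕ) (p p' : List ℕ) : QCode :=
  (B ^ p.length, 0, 4 * (n + 1) * B ^ p'.length - 1)

/-- Coefficients of the affine map move. -/
def moveA (B j : ℕ) (p p' : List ℕ) : QCode :=
  ((j + 1) * B ^ p'.length + numOf B p', (j + 1) * B ^ p.length + numOf B p, B ^ p.length - 1)

/-- Coefficients of the affine map move. -/
def moveB (B n : ℕ) (p p' : List ℕ) : QCode :=
  (4 * (n + 1) * B ^ p.length, 4 * (n + 1) * B ^ p'.length, B ^ p.length - 1)

/-- The identity factor `s`. -/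
def idFac : FacCode := (1, qn 0, qn 1, qn 0, qn 1, qn 0, qn 1)

/-- The `j`-th rule. -/
def ruleAt (c : TMCode) (j : ℕ) : Rule := (rules c).getD j (([], []), ([], []))

/-- Spatial factors of phase 1 for rule `j`. -/
def t1 (c : TMCode) (j : ℕ) : TermCode :=
  let B := base c
  let n := (rules c).length
  let r := ruleAt c j
  (qn 1, timeFac 1, prefFac B r.1.1 (loadA B n j r.1.1 r.2.1) (loadB B n r.1.1 r.2.1),
    prefFac B r.1.2 (qn 1) (qn 0), oneFac)

/-- The term for a halting control digit. -/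
def tHalt (c : TMCode) (σ : ℕ) : TermCode :=
  ((5, 0, 7), timeFac 1, prefFac (base c) [σ] (qn 1) (qn 0),
    prefFac (base c) [] (qn 1) (qn 0), oneFac)

/-- Phase 2. -/
def t2 (c : TMCode) (j : ℕ) : TermCode :=
  let B := base c
  let n := (rules c).length
  let r := ruleAt c j
  (qn 1, timeFac 2, oneFac, oneFac,
    slotFac n j (moveA B j r.1.1 r.2.1) (moveB B n r.1.1 r.2.1))

/-- Phase 3, moving by `δ y`. -/
def t3y (c : TMCode) : TermCode :=
  ((1, 0, 4 * ((rules c).length + 1) - 1), timeFac 3, oneFac, idFac, oneFac)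

/-- Phase 3, moving by `-δ x`. -/
def t3x (c : TMCode) : TermCode :=
  ((0, 1, 4 * ((rules c).length + 1) - 1), timeFac 3, idFac, oneFac, oneFac)

/-- Phase 4. -/
def t4 (c : TMCode) (j : ℕ) : TermCode :=
  let B := base c
  let n := (rules c).length
  let r := ruleAt c j
  (qm 1, timeFac 4, oneFac, oneFac,
    slotFac n j (moveA B j r.2.2 r.1.2) (moveB B n r.2.2 r.1.2))

/-- Phase 5. -/
def t5 (c : TMCode) (j : ℕ) : TermCode :=
  let B := base c
  let n := (rules c).length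
  let r := ruleAt c j
  (qm 1, timeFac 5, prefFac B r.2.1 (qn 1) (qn 0),
    prefFac B r.2.2 (loadA B n j r.2.2 r.1.2) (loadB B n r.2.2 r.1.2), oneFac)

/-- The initial translation in `x`. -/
def tStartX (c : TMCode) : TermCode :=
  ((3 * c.2.2.1 + 1, 0, base c - 1), startFac, oneFac, oneFac, oneFac)

/-- The initial translation in `y`. -/
def tStartY (c : TMCode) (w : List ℕ) : TermCode :=
  ((numOf (base c) w, 0, base c ^ w.length - 1), startFac, oneFac, oneFac, oneFac)

/-- The three components of the velocity. -/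
def velTerms (i : Fin 3) (a : TMCode × List ℕ) : List TermCode :=
  match i with
  | 0 => tStartX a.1 :: (List.range (rules a.1).length).map (t2 a.1)
  | 1 => tStartY a.1 a.2 :: (List.range (rules a.1).length).map (t4 a.1)
  | 2 => (List.range (rules a.1).length).map (t1 a.1) ++ ((haltDigits a.1).map (tHalt a.1) ++
      (t3y a.1 :: t3x a.1 :: (List.range (rules a.1).length).map (t5 a.1)))

/-! ## Evaluation of the factors -/

theorem ratVal_qn (a : ℕ) : ratVal (qn a) = a := by simp [ratVal, qn]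

theorem ratVal_qm (a : ℕ) : ratVal (qm a) = -(a : ℝ) := by simp [ratVal, qm]

theorem rep_of_mem {s : ℝ} (h1 : -(1 / 4) ≤ s) (h2 : s < 3 / 4) : rep s = s := by
  unfold rep
  rw [Int.fract_eq_self.2 ⟨by linarith, by linarith⟩]; ring

theorem rep_add_int (s : ℝ) (m : ℤ) : rep (s + m) = rep s := by
  unfold rep
  rw [show s + (m:ℝ) + 1 / 4 = s + 1 / 4 + m by ring, Int.fract_add_intCast]

theorem cut_of_mem {s : ℝ} (h1 : -(1 / 16) ≤ s) (h2 : s ≤ 9 / 16) : cut s = 1 := by
  unfold cut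
  rw [fab_of_one_le (by linarith), fab_of_one_le (by linarith)]; ring

theorem evalFac_one (s : ℝ) : evalFac oneFac s = 1 := rfl

theorem evalFac_kind1 (a b c₁ d₁ c₂ d₂ : QCode) (s : ℝ) :
    evalFac (1, a, b, c₁, d₁, c₂, d₂) s =
      atom (ratVal a) (ratVal b) (ratVal c₁) (ratVal d₁) (ratVal c₂) (ratVal d₂) (rep s)
        * cut (rep s) := rfl

theorem evalFac_kind2 (a b c₁ d₁ c₂ d₂ : QCode) (s : ℝ) :
    evalFac (2, a, b, c₁, d₁, c₂, d₂) s =
      atom (ratVal a) (ratVal b) (ratVal c₁) (ratVal d₁) (ratVal c₂) (ratVal d₂) s := rfl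

theorem evalFac_time {k : ℕ} (hk : k ≤ 8) (t : ℝ) :
    evalFac (timeFac k) t = bump (16 * rep t - k) := by
  unfold timeFac
  rw [evalFac_kind1]
  simp only [ratVal_qn, ratVal_qm, atom]
  set s := rep t
  have hk' : (k : ℝ) ≤ 8 := by exact_mod_cast hk
  have hk0 : (0 : ℝ) ≤ k := Nat.cast_nonneg k
  have e1 : ((32 : ℕ) : ℝ) * s + -((2 * k : ℕ) : ℝ) = 2 * (16 * s - k) := by push_cast; ring
  have e2 : -((32 : ℕ) : ℝ) * s + ((2 + 2 * k : ℕ) : ℝ) = 2 - 2 * (16 * s - k) := by
    push_cast; ring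
  rw [e1, e2]
  rcases le_total (16 * s - k) 0 with h | h
  · rw [bump_of_nonpos h, fab_of_nonpos (by linarith : 2 * (16 * s - k) ≤ 0)]; ring
  rcases le_total 1 (16 * s - k) with h' | h'
  · rw [bump_of_one_le h', fab_of_nonpos (by linarith : 2 - 2 * (16 * s - k) ≤ 0)]; ring
  · rw [cut_of_mem (by linarith) (by linarith)]
    unfold bump
    push_cast; ring

theorem evalFac_start (t : ℝ) : evalFac startFac t = bump (16 * t) := by
  unfold startFac
  rw [evalFac_kind2]
  simp only [ratVal_qn, ratVal_qm, atom, bump]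
  push_cast
  have e1 : (32 : ℝ) * t + -0 = 2 * (16 * t) := by ring
  have e2 : -(32 : ℝ) * t + 2 = 2 - 2 * (16 * t) := by ring
  rw [e1, e2]; ring

theorem evalFac_time_window {k N : ℕ} (hk : k ≤ 8) {t : ℝ} (h1 : (N : ℝ) / 16 ≤ t)
    (h2 : t ≤ ((N : ℝ) + 1) / 16) :
    evalFac (timeFac k) t = if N % 16 = k then bump (16 * t - N) else 0 := by
  rw [evalFac_time hk]
  have hN : N = 16 * (N / 16) + N % 16 := (Nat.div_add_mod N 16).symm
  set m := N / 16
  set r := N % 16 with hr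
  have hr16 : r < 16 := Nat.mod_lt _ (by norm_num)
  have hNR : (N : ℝ) = 16 * m + r := by exact_mod_cast hN
  have hk' : (k : ℝ) ≤ 8 := by exact_mod_cast hk
  have hk0 : (0 : ℝ) ≤ k := Nat.cast_nonneg k
  have hr0 : (0 : ℝ) ≤ r := Nat.cast_nonneg r
  have hr16' : (r : ℝ) + 1 ≤ 16 := by exact_mod_cast hr16
  rcases lt_or_ge t (m + 3 / 4) with ht | ht
  · have e : rep t = t - m := by
      have := rep_add_int (t - m) (m : ℤ)
      rw [← rep_of_mem (s := t - m) (by linarith) (by linarith), ← this]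
      congr 1; push_cast; ring
    rw [e]
    split_ifs with hrk
    · congr 1; rw [hNR, hrk]; ring
    · rcases Nat.lt_or_gt_of_ne hrk with h | h
      · apply bump_of_nonpos
        have : (r : ℝ) + 1 ≤ k := by exact_mod_cast h
        linarith
      · apply bump_of_one_le
        have : (k : ℝ) + 1 ≤ r := by exact_mod_cast h
        linarith
  · have e : rep t = t - m - 1 := by
      have := rep_add_int (t - m - 1) ((m + 1 : ℕ) : ℤ)
      rw [← rep_of_mem (s := t - m - 1) (by linarith) (by linarith), ← this]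
      congr 1; push_cast; ring
    rw [e]
    have h3 : bump (16 * (t - m - 1) - k) = 0 := bump_of_nonpos (by linarith)
    rw [h3]
    split_ifs with hrk
    · exfalso
      have : (r : ℝ) = k := by exact_mod_cast hrk
      linarith
    · rfl

theorem evalFac_start_window {N : ℕ} {t : ℝ} (h1 : (N : ℝ) / 16 ≤ t)
    (_h2 : t ≤ ((N : ℝ) + 1) / 16) :
    evalFac startFac t = if N = 0 then bump (16 * t - N) else 0 := by
  rw [evalFac_start]
  split_ifs with h
  · subst h; simp
  · apply bump_of_one_le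
    have : (1 : ℝ) ≤ N := by exact_mod_cast Nat.one_le_iff_ne_zero.2 h
    linarith

/-! ## Blocks -/

theorem foldl_num (B : ℕ) (p : List ℕ) (a : ℕ) :
    p.foldl (fun a e => a * B + e) a = a * B ^ p.length + numOf B p := by
  induction p generalizing a with
  | nil => simp [numOf]
  | cons e p ih =>
    simp only [List.foldl_cons, List.length_cons, numOf]
    rw [ih, ih (0 * B + e)]
    ring

theorem numOf_cons (B e : ℕ) (p : List ℕ) : numOf B (e :: p) = e * B ^ p.length + numOf B p := by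
  have := foldl_num B p (0 * B + e)
  simpa [numOf] using this

theorem pval_eq {B : ℕ} (hB : 0 < B) (p : List ℕ) (v : ℝ) :
    pval B p v = ((numOf B p : ℝ) + v) / (B : ℝ) ^ p.length := by
  have hB' : (B : ℝ) ≠ 0 := by positivity
  induction p with
  | nil => simp [pval_nil, numOf]
  | cons e p ih =>
    rw [pval_cons, ih, numOf_cons, List.length_cons]
    push_cast
    field_simp
    ring

/-- Values of stacks lie in `[0, 1/2]`. -/
theorem pval_mem {K : ℕ} (hK : 0 < K) {p : List ℕ} (hp : ∀ e ∈ p, e < K) {v : ℝ}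
    (hv : v ∈ Icc (0 : ℝ) (1 / 2)) : pval (2 * K) p v ∈ Icc (0 : ℝ) (1 / 2) := by
  induction p with
  | nil => exact hv
  | cons e p ih =>
    have h1 := ih (fun e he => hp e (by simp [he]))
    have h2 : e + 1 ≤ K := hp e (by simp)
    have h3 : (e : ℝ) + 1 ≤ K := by exact_mod_cast h2
    have hK' : (0 : ℝ) < K := by exact_mod_cast hK
    rw [pval_cons]
    have h4 : (0 : ℝ) ≤ e := Nat.cast_nonneg e
    push_cast
    constructor
    · exact div_nonneg (by linarith [h1.1]) (by linarith)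
    · rw [div_le_iff₀ (by linarith)]
      linarith [h1.2]

/-- Blocks of incompatible prefixes are separated. -/
theorem pval_sep {K : ℕ} (hK : 0 < K) {v v' : ℝ} (hv : v ∈ Icc (0 : ℝ) (1 / 2))
    (hv' : v' ∈ Icc (0 : ℝ) (1 / 2)) : ∀ (l : ℕ) (p p' : List ℕ), (∀ e ∈ p, e < K) →
    (∀ e ∈ p', e < K) → Incompat p p' → p.length ≤ l →
    1 / (2 * ((2 * K : ℕ) : ℝ) ^ l) ≤ |pval (2 * K) p v - pval (2 * K) p' v'| := by
  intro l
  have hB : (0 : ℝ) < ((2 * K : ℕ) : ℝ) := by exact_mod_cast (by omega : 0 < 2 * K)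
  have hB1 : (1 : ℝ) ≤ ((2 * K : ℕ) : ℝ) := by exact_mod_cast (by omega : 1 ≤ 2 * K)
  induction l with
  | zero =>
    intro p p' _ _ h hl
    obtain ⟨i, a, a', h1, _⟩ := h
    have : p = [] := List.length_eq_zero_iff.1 (by omega)
    rw [this] at h1; simp at h1
  | succ l ih =>
    intro p p' hp hp' h hl
    obtain ⟨i, a, a', h1, h2, hne⟩ := h
    cases p with
    | nil => simp at h1
    | cons e q =>
    cases p' with
    | nil => simp at h2
    | cons e' q' =>
    have hq : ∀ x ∈ q, x < K := fun x hx => hp x (by simp [hx])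
    have hq' : ∀ x ∈ q', x < K := fun x hx => hp' x (by simp [hx])
    have m1 := pval_mem hK hq hv
    have m2 := pval_mem hK hq' hv'
    rw [pval_cons, pval_cons, ← sub_div, abs_div, abs_of_pos hB, le_div_iff₀ hB]
    have e1 : 1 / (2 * ((2 * K : ℕ) : ℝ) ^ (l + 1)) * ((2 * K : ℕ) : ℝ)
        = 1 / (2 * ((2 * K : ℕ) : ℝ) ^ l) := by
      rw [pow_succ]; field_simp
    rw [e1]
    by_cases hee : e = e'
    · subst hee
      have h3 : Incompat q q' := by
        cases i with
        | zero => simp at h1 h2; exact absurd (h1.symm.trans h2) hne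
        | succ i => exact ⟨i, a, a', by simpa using h1, by simpa using h2, hne⟩
      have h4 := ih q q' hq hq' h3 (by simpa using hl)
      have e2 : (e : ℝ) + pval (2 * K) q v - (e + pval (2 * K) q' v')
          = pval (2 * K) q v - pval (2 * K) q' v' := by ring
      rw [e2]; exact h4
    · have h5 : 1 / (2 * ((2 * K : ℕ) : ℝ) ^ l) ≤ 1 / 2 := by
        apply one_div_le_one_div_of_le (by norm_num)
        have := one_le_pow₀ hB1 (n := l)
        linarith
      refine h5.trans ?_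
      rcases Nat.lt_or_gt_of_ne hee with h | h
      · have h6 : (e : ℝ) + 1 ≤ e' := by exact_mod_cast h
        rw [abs_sub_comm]
        refine le_trans ?_ (le_abs_self _)
        linarith [m1.1, m1.2, m2.1, m2.2]
      · have h6 : (e' : ℝ) + 1 ≤ e := by exact_mod_cast h
        refine le_trans ?_ (le_abs_self _)
        linarith [m1.1, m1.2, m2.1, m2.2]

theorem ratVal_sub_one {a b c : ℕ} (hc : 0 < c) : ratVal (a, b, c - 1) = ((a : ℝ) - b) / c := by
  unfold ratVal
  have : (((c - 1 : ℕ) : ℝ)) + 1 = c := by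
    have : c - 1 + 1 = c := by omega
    exact_mod_cast this
  simp only [this]

theorem rep_small {s : ℝ} (h : s ∈ Icc (0 : ℝ) (1 / 2)) : rep s = s :=
  rep_of_mem (by linarith [h.1]) (by linarith [h.2])

theorem cut_small {s : ℝ} (h : s ∈ Icc (0 : ℝ) (1 / 2)) : cut s = 1 :=
  cut_of_mem (by linarith [h.1]) (by linarith [h.2])

theorem prefFac_eval {B : ℕ} (hB : 0 < B) {p : List ℕ} (hl : p.length ≤ 3) (a b : QCode) {s : ℝ}
    (hs : s ∈ Icc (0 : ℝ) (1 / 2)) :
    evalFac (prefFac B p a b) s = (ratVal a + ratVal b * s)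
      * fab (4 * (B : ℝ) ^ 3 * (s - pval B p 0) + 1)
      * fab (4 * (B : ℝ) ^ 3 * (pval B p (1 / 2) - s) + 1) := by
  unfold prefFac
  rw [evalFac_kind1, rep_small hs, cut_small hs, mul_one]
  unfold atom
  rw [ratVal_qn, ratVal_qm, ratVal_qn, pval_eq hB, pval_eq hB]
  have hB' : (B : ℝ) ≠ 0 := by positivity
  have e3 : (B : ℝ) ^ 3 = (B : ℝ) ^ (3 - p.length) * (B : ℝ) ^ p.length := by
    rw [← pow_add]; congr 1; omega
  have e4 : ((numOf B p : ℝ) + 0) / (B : ℝ) ^ p.length * (B : ℝ) ^ p.length = numOf B p := by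
    field_simp; ring
  have e5 : ((numOf B p : ℝ) + 1 / 2) / (B : ℝ) ^ p.length * (B : ℝ) ^ p.length
      = numOf B p + 1 / 2 := by
    field_simp
  congr 2
  · congr 1
    simp only [ratVal]
    push_cast
    rw [show (4 : ℝ) * (B : ℝ) ^ 3 * (s - ((numOf B p : ℝ) + 0) / (B : ℝ) ^ p.length) + 1
      = 4 * (B : ℝ) ^ 3 * s + 1
        - 4 * (B : ℝ) ^ 3 * (((numOf B p : ℝ) + 0) / (B : ℝ) ^ p.length) by ring]
    nth_rewrite 3 [e3]
    rw [show 4 * ((B : ℝ) ^ (3 - p.length) * (B : ℝ) ^ p.length)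
        * (((numOf B p : ℝ) + 0) / (B : ℝ) ^ p.length)
        = 4 * (B : ℝ) ^ (3 - p.length)
          * (((numOf B p : ℝ) + 0) / (B : ℝ) ^ p.length * (B : ℝ) ^ p.length) by ring, e4]
    ring
  · push_cast
    rw [show (4 : ℝ) * (B : ℝ) ^ 3 * (((numOf B p : ℝ) + 1 / 2) / (B : ℝ) ^ p.length - s) + 1
      = 4 * (B : ℝ) ^ 3 * (((numOf B p : ℝ) + 1 / 2) / (B : ℝ) ^ p.length)
        - 4 * (B : ℝ) ^ 3 * s + 1 by ring]
    nth_rewrite 2 [e3]
    rw [show 4 * ((B : ℝ) ^ (3 - p.length) * (B : ℝ) ^ p.length)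
        * (((numOf B p : ℝ) + 1 / 2) / (B : ℝ) ^ p.length)
        = 4 * (B : ℝ) ^ (3 - p.length)
          * (((numOf B p : ℝ) + 1 / 2) / (B : ℝ) ^ p.length * (B : ℝ) ^ p.length) by ring, e5]
    ring

theorem pval_le_pval {B : ℕ} (hB : 0 < B) (p : List ℕ) {v v' : ℝ} (h : v ≤ v') :
    pval B p v ≤ pval B p v' := by
  rw [pval_eq hB, pval_eq hB]
  have hB' : (0 : ℝ) < B := by exact_mod_cast hB
  gcongr

theorem prefFac_in {K : ℕ} (hK : 0 < K) {p : List ℕ} (hp : ∀ e ∈ p, e < K)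
    (hl : p.length ≤ 3) (a b : QCode) {v : ℝ} (hv : v ∈ Icc (0 : ℝ) (1 / 2)) :
    evalFac (prefFac (2 * K) p a b) (pval (2 * K) p v)
      = ratVal a + ratVal b * pval (2 * K) p v := by
  have hB : 0 < 2 * K := by omega
  have hB' : (0 : ℝ) < ((2 * K : ℕ) : ℝ) := by exact_mod_cast hB
  rw [prefFac_eval hB hl a b (pval_mem hK hp hv)]
  have h1 := pval_le_pval hB p hv.1
  have h2 := pval_le_pval hB p hv.2
  rw [fab_of_one_le, fab_of_one_le, mul_one, mul_one]
  · have : 0 ≤ 4 * ((2 * K : ℕ) : ℝ) ^ 3 * (pval (2 * K) p (1 / 2) - pval (2 * K) p v) :=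
      mul_nonneg (by positivity) (by linarith)
    linarith
  · have : 0 ≤ 4 * ((2 * K : ℕ) : ℝ) ^ 3 * (pval (2 * K) p v - pval (2 * K) p 0) :=
      mul_nonneg (by positivity) (by linarith)
    linarith

theorem prefFac_out {K : ℕ} (hK : 0 < K) {p p' : List ℕ} (hp : ∀ e ∈ p, e < K)
    (hp' : ∀ e ∈ p', e < K) (hl : p.length ≤ 3) (h : Incompat p p') (a b : QCode) {v : ℝ}
    (hv : v ∈ Icc (0 : ℝ) (1 / 2)) :
    evalFac (prefFac (2 * K) p a b) (pval (2 * K) p' v) = 0 := by
  have hB : 0 < 2 * K := by omega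
  have hB' : (0 : ℝ) < ((2 * K : ℕ) : ℝ) := by exact_mod_cast hB
  rw [prefFac_eval hB hl a b (pval_mem hK hp' hv)]
  set s := pval (2 * K) p' v with hs
  have hsep : ∀ v' ∈ Icc (0 : ℝ) (1 / 2),
      1 / (2 * ((2 * K : ℕ) : ℝ) ^ 3) ≤ |pval (2 * K) p v' - s| :=
    fun v' hv' => pval_sep hK hv' hv 3 p p' hp hp' h hl
  have hg : (0 : ℝ) < 1 / (2 * ((2 * K : ℕ) : ℝ) ^ 3) := by positivity
  have e6 : 4 * ((2 * K : ℕ) : ℝ) ^ 3 * (1 / (2 * ((2 * K : ℕ) : ℝ) ^ 3)) = 2 := by
    field_simp; norm_num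
  rcases le_or_gt s (pval (2 * K) p 0) with h1 | h1
  · have h2 := hsep 0 (by norm_num)
    rw [abs_of_nonneg (by linarith)] at h2
    rw [fab_of_nonpos (x := 4 * ((2 * K : ℕ) : ℝ) ^ 3 * (s - pval (2 * K) p 0) + 1)]
    · ring
    · have : 4 * ((2 * K : ℕ) : ℝ) ^ 3 * (s - pval (2 * K) p 0)
          ≤ 4 * ((2 * K : ℕ) : ℝ) ^ 3 * (-(1 / (2 * ((2 * K : ℕ) : ℝ) ^ 3))) :=
        mul_le_mul_of_nonneg_left (by linarith) (by positivity)
      rw [mul_neg, e6] at this
      linarith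
  · rcases le_or_gt (pval (2 * K) p (1 / 2)) s with h3 | h3
    · have h2 := hsep (1 / 2) (by norm_num)
      rw [abs_sub_comm, abs_of_nonneg (by linarith)] at h2
      rw [fab_of_nonpos (x := 4 * ((2 * K : ℕ) : ℝ) ^ 3 * (pval (2 * K) p (1 / 2) - s) + 1)]
      · ring
      · have : 4 * ((2 * K : ℕ) : ℝ) ^ 3 * (pval (2 * K) p (1 / 2) - s)
            ≤ 4 * ((2 * K : ℕ) : ℝ) ^ 3 * (-(1 / (2 * ((2 * K : ℕ) : ℝ) ^ 3))) :=
          mul_le_mul_of_nonneg_left (by linarith) (by positivity)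
        rw [mul_neg, e6] at this
        linarith
    · exfalso
      -- `s` would be in the block
      rw [pval_eq hB] at h1 h3
      have hpow : (0 : ℝ) < ((2 * K : ℕ) : ℝ) ^ p.length := by positivity
      rw [div_lt_iff₀ hpow] at h1
      rw [lt_div_iff₀ hpow] at h3
      set v' := s * ((2 * K : ℕ) : ℝ) ^ p.length - numOf (2 * K) p with hv'
      have h4 := hsep v' ⟨by rw [hv']; linarith, by rw [hv']; linarith⟩
      have h5 : pval (2 * K) p v' = s := by
        rw [pval_eq hB, hv']; field_simp; ring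
      rw [h5, sub_self, abs_zero] at h4
      linarith

theorem slotFac_eval (n j : ℕ) (a b : QCode) {s : ℝ} (hs : s ∈ Icc (0 : ℝ) (1 / 2)) :
    evalFac (slotFac n j a b) s = (ratVal a + ratVal b * s)
      * fab (8 * (4 * ((n : ℝ) + 1) * s - (j + 1)) + 1)
      * fab (5 - 8 * (4 * ((n : ℝ) + 1) * s - (j + 1))) := by
  unfold slotFac
  rw [evalFac_kind1, rep_small hs, cut_small hs, mul_one]
  unfold atom
  rw [ratVal_qn, ratVal_qm, ratVal_qn]
  congr 2
  · congr 1
    simp only [ratVal]; push_cast; ring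
  · push_cast; ring

/-- The point `δ (j + 1 + ξ)` of slot `j`, where `δ = 1 / (4 (n + 1))`. -/
noncomputable def slotPt (n j : ℕ) (ξ : ℝ) : ℝ := ((j : ℝ) + 1 + ξ) / (4 * ((n : ℝ) + 1))

theorem slotPt_mem {n j : ℕ} (hj : j < n) {ξ : ℝ} (hξ : ξ ∈ Icc (0 : ℝ) (1 / 2)) :
    slotPt n j ξ ∈ Icc (0 : ℝ) (1 / 4) := by
  have h1 : (j : ℝ) + 1 ≤ n := by exact_mod_cast hj
  have h0 : (0 : ℝ) ≤ j := Nat.cast_nonneg j
  unfold slotPt
  constructor
  · apply div_nonneg <;> linarith [hξ.1]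
  · rw [div_le_iff₀ (by linarith)]; linarith [hξ.2]

theorem slotPt_mem' {n j : ℕ} (hj : j < n) {ξ : ℝ} (hξ : ξ ∈ Icc (0 : ℝ) (1 / 2)) :
    slotPt n j ξ ∈ Icc (0 : ℝ) (1 / 2) :=
  ⟨(slotPt_mem hj hξ).1, (slotPt_mem hj hξ).2.trans (by norm_num)⟩

theorem slotFac_in {n j : ℕ} (hj : j < n) (a b : QCode) {ξ : ℝ} (hξ : ξ ∈ Icc (0 : ℝ) (1 / 2)) :
    evalFac (slotFac n j a b) (slotPt n j ξ) = ratVal a + ratVal b * slotPt n j ξ := by
  rw [slotFac_eval n j a b (slotPt_mem' hj hξ)]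
  have e : 4 * ((n : ℝ) + 1) * slotPt n j ξ = j + 1 + ξ := by
    unfold slotPt; field_simp
  rw [e, fab_of_one_le (by linarith [hξ.1]), fab_of_one_le (by linarith [hξ.2])]; ring

theorem slotFac_out {n j j' : ℕ} (hj' : j' < n) (hne : j ≠ j') (a b : QCode) {ξ : ℝ}
    (hξ : ξ ∈ Icc (0 : ℝ) (1 / 2)) :
    evalFac (slotFac n j a b) (slotPt n j' ξ) = 0 := by
  rw [slotFac_eval n j a b (slotPt_mem' hj' hξ)]
  have e : 4 * ((n : ℝ) + 1) * slotPt n j' ξ = j' + 1 + ξ := by
    unfold slotPt; field_simp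
  rw [e]
  rcases Nat.lt_or_gt_of_ne hne with h | h
  · have h1 : (j : ℝ) + 1 ≤ j' := by exact_mod_cast h
    rw [fab_of_nonpos (x := 5 - 8 * ((j' : ℝ) + 1 + ξ - (j + 1))) (by linarith [hξ.1, hξ.2])]
    ring
  · have h1 : (j' : ℝ) + 1 ≤ j := by exact_mod_cast h
    rw [fab_of_nonpos (x := 8 * ((j' : ℝ) + 1 + ξ - (j + 1)) + 1) (by linarith [hξ.1, hξ.2])]
    ring

theorem load_val {B : ℕ} (hB : 0 < B) (n j : ℕ) (p p' : List ℕ) (v : ℝ) :
    ratVal (loadA B n j p p') + ratVal (loadB B n p p') * pval B p v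
      = slotPt n j (pval B p' v) := by
  have hB' : (B : ℝ) ≠ 0 := by positivity
  unfold loadA loadB slotPt
  rw [ratVal_sub_one (by positivity), ratVal_sub_one (by positivity), pval_eq hB, pval_eq hB]
  push_cast
  field_simp
  ring

theorem move_val {B : ℕ} (hB : 0 < B) (n j : ℕ) (p p' : List ℕ) (v : ℝ) :
    ratVal (moveA B j p p') + ratVal (moveB B n p p') * slotPt n j (pval B p' v)
      = pval B p' v - pval B p v := by
  have hB' : (B : ℝ) ≠ 0 := by positivity
  unfold moveA moveB slotPt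
  rw [ratVal_sub_one (by positivity), ratVal_sub_one (by positivity), pval_eq hB, pval_eq hB]
  push_cast
  field_simp
  ring

end Vale.Agent.P113
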