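import Vale.Agent.Lib.P113.Orbit

/-! # The trajectory from the origin detects halting -/

open Set

namespace Vale.Agent.P113

theorem vec_ext {x : R3} {a b c : ℝ} (h0 : x 0 = a) (h1 : x 1 = b) (h2 : x 2 = c) :
    x = ![a, b, c] := by
  funext i; fin_cases i
  · exact h0
  · exact h1
  · exact h2

variable (M : TM) (w : List ℕ)

theorem stops_succ (V : ℕ → R3 → R3) (x₀ : R3) (N : ℕ) :
    stops V x₀ (N + 1) = stops V x₀ N + V N (stops V x₀ N) := rfl

/-- Successive positions. -/
noncomputable def P (N : ℕ) : R3 := stops (Vf (M.code, w)) 0 N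

theorem P_succ (N : ℕ) : P M w (N + 1) = P M w N + Vf (M.code, w) N (P M w N) := rfl

theorem P_one : P M w 1 = ![pval (base M.code) [3 * M.start.val + 1] 0,
    pval (base M.code) w 0, 0] := by
  have hB := base_pos_nat M.code
  show (0 : R3) + Vf (M.code, w) 0 0 = _
  unfold Vf
  rw [if_pos rfl, zero_add]
  have e1 : ratVal (tStartX M.code).1 = pval (base M.code) [3 * M.start.val + 1] 0 := by
    unfold tStartX
    rw [ratVal_sub_one hB, pval_eq hB]
    simp [numOf, TM.code]
  have e2 : ratVal (tStartY M.code w).1 = pval (base M.code) w 0 := by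
    unfold tStartY
    rw [ratVal_sub_one (by positivity), pval_eq hB]
    push_cast; ring
  rw [e1, e2]

theorem Vf_one (a : TMCode × List ℕ) (m : ℕ) (x : R3) :
    Vf a (16 * m + 1) x = ![0, 0, H1 a.1 x] := by
  unfold Vf
  rw [if_neg (by omega), if_pos (by omega)]

theorem Vf_two (a : TMCode × List ℕ) (m : ℕ) (x : R3) :
    Vf a (16 * m + 2) x = ![H2 a.1 x, 0, 0] := by
  unfold Vf
  rw [if_neg (by omega), if_neg (by omega), if_pos (by omega)]

theorem Vf_three (a : TMCode × List ℕ) (m : ℕ) (x : R3) :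
    Vf a (16 * m + 3) x = ![0, 0, H3 a.1 x] := by
  unfold Vf
  rw [if_neg (by omega), if_neg (by omega), if_neg (by omega), if_pos (by omega)]

theorem Vf_four (a : TMCode × List ℕ) (m : ℕ) (x : R3) :
    Vf a (16 * m + 4) x = ![0, H4 a.1 x, 0] := by
  unfold Vf
  rw [if_neg (by omega), if_neg (by omega), if_neg (by omega), if_neg (by omega),
    if_pos (by omega)]

theorem Vf_five (a : TMCode × List ℕ) (m : ℕ) (x : R3) :
    Vf a (16 * m + 5) x = ![0, 0, H5 a.1 x] := by
  unfold Vf
  rw [if_neg (by omega), if_neg (by omega), if_neg (by omega), if_neg (by omega),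
    if_neg (by omega), if_pos (by omega)]

theorem Vf_idle (a : TMCode × List ℕ) (m k : ℕ) (h1 : 6 ≤ k) (h2 : k ≤ 16) (x : R3) :
    Vf a (16 * m + k) x = 0 := by
  unfold Vf
  rw [if_neg (by omega), if_neg (by omega), if_neg (by omega), if_neg (by omega),
    if_neg (by omega), if_neg (by omega)]

/-- One period of the flow from the encoding of a non-halting configuration. -/
theorem period {m : ℕ} {x y x' y' : ℝ} (h : IsStep M.code x y x' y')
    (hP : P M w (16 * m + 1) = ![x, y, 0]) :
    (∀ k, 1 ≤ k → k ≤ 17 → P M w (16 * m + k) 2 ∈ Icc (0 : ℝ) (1 / 4)) ∧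
      P M w (16 * (m + 1) + 1) = ![x', y', 0] := by
  obtain ⟨r, hr, v, hv, u, hu, rfl, rfl, rfl, rfl⟩ := h
  obtain ⟨j, hj, rfl⟩ := exists_ruleAt M.code hr
  have hK := numDigits_pos M.code
  have hb := rule_bounds M hr
  set n := (rules M.code).length with hn
  set B := base M.code with hB
  set x := pval B (ruleAt M.code j).1.1 v with hx
  set y := pval B (ruleAt M.code j).1.2 u with hy
  set x' := pval B (ruleAt M.code j).2.1 v with hx'
  set y' := pval B (ruleAt M.code j).2.2 u with hy'
  have mx : x ∈ Icc (0 : ℝ) (1 / 2) := pval_mem hK hb.1 hv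
  have my : y ∈ Icc (0 : ℝ) (1 / 2) := pval_mem hK hb.2.1 hu
  have mx' : x' ∈ Icc (0 : ℝ) (1 / 2) := pval_mem hK hb.2.2.1 hv
  have my' : y' ∈ Icc (0 : ℝ) (1 / 2) := pval_mem hK hb.2.2.2 hu
  have p1 : P M w (16 * m + 1) = ![x, y, 0] := hP
  have p2 : P M w (16 * m + 2) = ![x, y, slotPt n j x'] := by
    rw [show 16 * m + 2 = 16 * m + 1 + 1 by ring, P_succ, p1, Vf_one, H1_rule M hj hv hu (by rfl) (by rfl)]
    apply vec_ext <;> simp [hn, hx', hB]
  have p3 : P M w (16 * m + 3) = ![x', y, slotPt n j x'] := by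
    rw [show 16 * m + 3 = 16 * m + 2 + 1 by ring, P_succ, p2, Vf_two, H2_slot M hj hv (by rfl)]
    apply vec_ext <;> simp [hx, hx', hB]
  have p4 : P M w (16 * m + 4) = ![x', y, slotPt n j y] := by
    rw [show 16 * m + 4 = 16 * m + 3 + 1 by ring, P_succ, p3, Vf_three, H3_eval M.code (by exact mx') (by exact my)]
    apply vec_ext
    · simp
    · simp
    · simp only [slotPt, Pi.add_apply, Matrix.cons_val]
      show _ + (y - x') / _ = _
      rw [← add_div]; congr 1; ring
  have p5 : P M w (16 * m + 5) = ![x', y', slotPt n j y] := by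
    rw [show 16 * m + 5 = 16 * m + 4 + 1 by ring, P_succ, p4, Vf_four, H4_slot M hj hu (by rfl)]
    apply vec_ext <;> simp [hy, hy', hB]
  have p6 : P M w (16 * m + 6) = ![x', y', 0] := by
    rw [show 16 * m + 6 = 16 * m + 5 + 1 by ring, P_succ, p5, Vf_five, H5_rule M hj hv hu (by rfl) (by rfl)]
    apply vec_ext <;> simp [hn, hy, hB]
  have pk : ∀ k, 6 ≤ k → k ≤ 17 → P M w (16 * m + k) = ![x', y', 0] := by
    intro k h6
    induction k, h6 using Nat.le_induction with
    | base => intro _; exact p6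
    | succ k hk ih =>
      intro h17
      rw [← add_assoc, P_succ, Vf_idle _ m k hk (by omega), add_zero]
      exact ih (by omega)
  refine ⟨?_, ?_⟩
  · intro k h1 h17
    rcases le_or_gt 6 k with h6 | h6
    · rw [pk k h6 h17]; simp
    · interval_cases k
      · rw [p1]; simp
      · rw [p2]; exact slotPt_mem hj mx'
      · rw [p3]; exact slotPt_mem hj mx'
      · rw [p4]; exact slotPt_mem hj my
      · rw [p5]; exact slotPt_mem hj my
  · have := pk 17 (by norm_num) le_rfl
    have e : 16 * (m + 1) + 1 = 16 * m + 17 := by ring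
    rw [e]; exact this

/-- The open set detecting halting. -/
def detector : Set T3 := {θ | θ 2 ∈ (fun s : ℝ => (s : UnitAddCircle)) '' Ioo (9 / 16) (11 / 16)}

theorem detector_open : IsOpen detector := by
  have h1 : IsOpen ((fun s : ℝ => (s : UnitAddCircle)) '' Ioo (9 / 16 : ℝ) (11 / 16)) :=
    QuotientAddGroup.isOpenMap_coe _ isOpen_Ioo
  exact h1.preimage (continuous_apply 2)

theorem not_mem_detector {x : R3} (h : x 2 ∈ Icc (0 : ℝ) (1 / 4)) : toTorus x ∉ detector := by
  rintro ⟨s, hs, he⟩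
  have h1 : ((s - x 2 : ℝ) : UnitAddCircle) = 0 := by
    rw [AddCircle.coe_sub, sub_eq_zero]; exact he
  rw [AddCircle.coe_eq_zero_iff] at h1
  obtain ⟨k, hk⟩ := h1
  simp only [zsmul_eq_mul, mul_one] at hk
  have h2 : (0 : ℝ) < k := by rw [hk]; linarith [hs.1, h.2]
  have h3 : (k : ℝ) < 1 := by rw [hk]; linarith [hs.2, h.1]
  have h4 : (0 : ℤ) < k := by exact_mod_cast h2
  have h5 : k < 1 := by exact_mod_cast h3
  omega

/-- Trajectories starting at the origin. -/
theorem halting_iff (w' : List (Fin (M.m + 1))) {X : ℝ → R3} (hX0 : X 0 = 0)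
    (hX : ∀ t, 0 ≤ t → HasDerivWithinAt X (uField (M.code, w'.map Fin.val) t (X t)) (Ici 0) t) :
    (∃ t, 0 ≤ t ∧ toTorus (X t) ∈ detector) ↔ M.HaltsOn w' := by
  set w := w'.map Fin.val with hw
  obtain ⟨x, y, hx0, hy0, hmem, hstep, hiff⟩ := simulation M w'
  have hWF := uField_window (M.code, w)
  have hXP : ∀ N : ℕ, X ((N : ℝ) / 16) = P M w N := by
    intro N
    rw [hWF.solution_stops hX N, hX0]; rfl
  -- positions as long as the machine has not halted
  have hpos : ∀ k, (∀ i < k, ¬ IsHaltPt M.code (x i) (y i)) →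
      P M w (16 * k + 1) = ![x k, y k, 0] ∧
        ∀ N, N ≤ 16 * k + 1 → P M w N 2 ∈ Icc (0 : ℝ) (1 / 4) := by
    intro k
    induction k with
    | zero =>
      intro _
      refine ⟨?_, ?_⟩
      · rw [hx0, hy0]; exact P_one M w
      · intro N hN
        have : N = 0 ∨ N = 1 := by omega
        rcases this with rfl | rfl
        · simp [P, stops]
        · rw [P_one]; simp
    | succ k ih =>
      intro h
      obtain ⟨h1, h2⟩ := ih (fun i hi => h i (by omega))
      have h3 : IsStep M.code (x k) (y k) (x (k + 1)) (y (k + 1)) :=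
        (hstep k).resolve_left (h k (by omega))
      obtain ⟨h4, h5⟩ := period M w h3 h1
      refine ⟨h5, ?_⟩
      intro N hN
      rcases le_or_gt N (16 * k + 1) with h6 | h6
      · exact h2 N h6
      · have := h4 (N - 16 * k) (by omega) (by omega)
        rwa [show 16 * k + (N - 16 * k) = N by omega] at this
  rw [hiff]
  constructor
  · rintro ⟨t, ht, hmem⟩
    by_contra hno
    push Not at hno
    obtain ⟨N, h1, h2⟩ := WindowField.exists_window ht
    have h3 := (hpos N (fun i _ => hno i)).2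
    have h4 : P M w N 2 ∈ Icc (0 : ℝ) (1 / 4) := h3 N (by omega)
    have h5 : P M w (N + 1) 2 ∈ Icc (0 : ℝ) (1 / 4) := by
      have := (hpos (N + 1) (fun i _ => hno i)).2
      exact this (N + 1) (by omega)
    refine not_mem_detector ?_ hmem
    rw [hWF.solution hX N t h1 h2, hXP N]
    have h6 : P M w (N + 1) 2 = P M w N 2 + Vf (M.code, w) N (P M w N) 2 := by
      rw [P_succ]; rfl
    have h7 : (P M w N + fab (16 * t - N) • Vf (M.code, w) N (P M w N)) 2
        = (1 - fab (16 * t - N)) * P M w N 2 + fab (16 * t - N) * P M w (N + 1) 2 := by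
      rw [h6]
      simp only [Pi.add_apply, Pi.smul_apply, smul_eq_mul]
      ring
    rw [h7]
    have f0 := fab_nonneg (16 * t - N)
    have f1 := fab_le_one (16 * t - N)
    constructor
    · have := mul_nonneg (sub_nonneg.2 f1) h4.1
      have := mul_nonneg f0 h5.1
      linarith
    · have := mul_le_mul_of_nonneg_left h4.2 (sub_nonneg.2 f1)
      have := mul_le_mul_of_nonneg_left h5.2 f0
      linarith
  · rintro ⟨k₀, hk₀⟩
    classical
    let k := Nat.find (p := fun k => IsHaltPt M.code (x k) (y k)) ⟨k₀, hk₀⟩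
    have hk : IsHaltPt M.code (x k) (y k) :=
      Nat.find_spec (p := fun k => IsHaltPt M.code (x k) (y k)) ⟨k₀, hk₀⟩
    have hmin : ∀ i < k, ¬ IsHaltPt M.code (x i) (y i) := fun i hi =>
      Nat.find_min (p := fun k => IsHaltPt M.code (x k) (y k)) ⟨k₀, hk₀⟩ hi
    obtain ⟨h1, _⟩ := hpos k hmin
    refine ⟨((16 * k + 2 : ℕ) : ℝ) / 16, by positivity, ?_⟩
    rw [hXP]
    have h2 : P M w (16 * k + 2) = ![x k, y k, 5 / 8] := by
      rw [show 16 * k + 2 = 16 * k + 1 + 1 by ring, P_succ, h1,
        Vf_one, H1_halt M (by exact hk)]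
      apply vec_ext <;> simp
    rw [h2]
    exact ⟨5 / 8, by norm_num, rfl⟩

end Vale.Agent.P113
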