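import Vale.Agent.Lib.P113.Eff4
import Vale.Agent.Lib.P113.Halting

/-! # The velocity field solves the forced Navier–Stokes system -/

open Set MeasureTheory

namespace Vale.Agent.P113

/-! ## Partial derivatives of smooth functions on `ℝ × ℝ³` -/

section Partials

variable {E : Type} [NormedAddCommGroup E] [NormedSpace ℝ E]

theorem hasDerivAt_time {g : ℝ × R3 → E} (hg : ContDiff ℝ (⊤ : ℕ∞) g) (t : ℝ) (x : R3) :
    HasDerivAt (fun s => g (s, x)) (fderiv ℝ g (t, x) (1, 0)) t := by
  have h1 : HasFDerivAt g (fderiv ℝ g (t, x)) (t, x) :=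
    (hg.differentiable (by simp)).differentiableAt.hasFDerivAt
  have h2 : HasDerivAt (fun s : ℝ => (s, x)) ((1 : ℝ), (0 : R3)) t :=
    (hasDerivAt_id t).prodMk (hasDerivAt_const t x)
  exact h1.comp_hasDerivAt t h2

theorem pd_space {g : ℝ × R3 → ℝ} (hg : ContDiff ℝ (⊤ : ℕ∞) g) (i : Fin 3) (t : ℝ) (x : R3) :
    pd i (fun y => g (t, y)) x = fderiv ℝ g (t, x) (0, Pi.single i 1) := by
  have h1 : HasFDerivAt g (fderiv ℝ g (t, x)) (t, x) :=
    (hg.differentiable (by simp)).differentiableAt.hasFDerivAt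
  have h2 : HasFDerivAt (fun y : R3 => (t, y)) (ContinuousLinearMap.inr ℝ ℝ R3) x :=
    hasFDerivAt_prodMk_right t x
  have h3 := (h1.comp x h2).fderiv
  unfold pd
  rw [show (fun y => g (t, y)) = g ∘ fun y => (t, y) from rfl, h3]
  rfl

theorem contDiff_fderiv_apply {g : ℝ × R3 → E} (hg : ContDiff ℝ (⊤ : ℕ∞) g) (v : ℝ × R3) :
    ContDiff ℝ (⊤ : ℕ∞) fun z => fderiv ℝ g z v :=
  (hg.fderiv_right (by simp)).clm_apply contDiff_const

theorem contDiff_pd_joint {g : ℝ × R3 → ℝ} (hg : ContDiff ℝ (⊤ : ℕ∞) g) (i : Fin 3) :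
    ContDiff ℝ (⊤ : ℕ∞) fun z : ℝ × R3 => pd i (fun y => g (z.1, y)) z.2 := by
  have : (fun z : ℝ × R3 => pd i (fun y => g (z.1, y)) z.2)
      = fun z => fderiv ℝ g z (0, Pi.single i 1) := by
    funext z; exact pd_space hg i z.1 z.2
  rw [this]; exact contDiff_fderiv_apply hg _

theorem contDiff_time {g : ℝ × R3 → E} (hg : ContDiff ℝ (⊤ : ℕ∞) g) :
    ContDiff ℝ (⊤ : ℕ∞) fun z : ℝ × R3 => deriv (fun s => g (s, z.2)) z.1 := by
  have : (fun z : ℝ × R3 => deriv (fun s => g (s, z.2)) z.1)
      = fun z => fderiv ℝ g z (1, 0) := by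
    funext z; exact (hasDerivAt_time hg z.1 z.2).deriv
  rw [this]; exact contDiff_fderiv_apply hg _

end Partials

/-! ## Smoothness and periodicity of `vel` and `force` -/

theorem vel_contDiff_comp (L : Fin 3 → List TermCode) (i : Fin 3) :
    ContDiff ℝ (⊤ : ℕ∞) fun z : ℝ × R3 => vel L z.1 z.2 i := by
  have h : ContDiff ℝ (⊤ : ℕ∞) fun z : ℝ × R3 => ![z.1, z.2 0, z.2 1, z.2 2] := by
    rw [contDiff_pi]
    intro j
    fin_cases j
    · exact contDiff_fst
    · exact (contDiff_apply ℝ ℝ (0 : Fin 3)).comp contDiff_snd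
    · exact (contDiff_apply ℝ ℝ (1 : Fin 3)).comp contDiff_snd
    · exact (contDiff_apply ℝ ℝ (2 : Fin 3)).comp contDiff_snd
  exact (evalTerms_contDiff (L i)).comp h

theorem vel_contDiff (L : Fin 3 → List TermCode) :
    ContDiff ℝ (⊤ : ℕ∞) fun z : ℝ × R3 => vel L z.1 z.2 := by
  rw [contDiff_pi]; exact vel_contDiff_comp L

theorem force_contDiff (ν : ℝ) (L : Fin 3 → List TermCode) :
    ContDiff ℝ (⊤ : ℕ∞) fun z : ℝ × R3 => force ν L z.1 z.2 := by
  rw [contDiff_pi]
  intro i
  have h1 := contDiff_time (vel_contDiff_comp L i)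
  have h2 : ∀ j, ContDiff ℝ (⊤ : ℕ∞) fun z : ℝ × R3 =>
      pd j (pd j (fun y => vel L z.1 y i)) z.2 := fun j =>
    contDiff_pd_joint (contDiff_pd_joint (vel_contDiff_comp L i) j) j
  unfold force
  exact h1.sub (contDiff_const.mul (ContDiff.sum fun j _ => h2 j))

theorem pd_periodic {g : R3 → ℝ} (hg : Periodic3 g) (i : Fin 3) : Periodic3 (pd i g) := by
  intro x k
  have h : (fun y : R3 => g (y + fun j => (k j : ℝ))) = g := by
    funext y; exact hg y k
  unfold pd
  have h2 := fderiv_comp_add_right (𝕜 := ℝ) (f := g) (x := x) (fun j => (k j : ℝ))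
  rw [h] at h2
  have e : (fun i => x i + (k i : ℝ)) = x + fun j => (k j : ℝ) := rfl
  rw [e, ← h2]

/-- Space factors of kinds `0` and `1` are periodic. -/
def PerFac (F : FacCode) : Prop := F.1 = 0 ∨ F.1 = 1

theorem evalFac_periodic {F : FacCode} (hF : PerFac F) (s : ℝ) (m : ℤ) :
    evalFac F (s + m) = evalFac F s := by
  obtain ⟨k, a, b, c₁, d₁, c₂, d₂⟩ := F
  rcases hF with h | h
  · simp only at h; subst h; rfl
  · simp only at h; subst h
    rw [evalFac_kind1, evalFac_kind1, rep_add_int]

theorem vel_periodic {L : Fin 3 → List TermCode}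
    (hL : ∀ i, ∀ τ ∈ L i, PerFac τ.2.2.1 ∧ PerFac τ.2.2.2.1 ∧ PerFac τ.2.2.2.2) (t : ℝ) :
    Periodic3 (vel L t) := by
  intro x k
  funext i
  unfold vel evalTerms
  congr 1
  apply List.map_congr_left
  intro τ hτ
  obtain ⟨h1, h2, h3⟩ := hL i τ hτ
  unfold evalTerm
  simp only [Matrix.cons_val_zero, Matrix.cons_val_one, Matrix.cons_val]
  rw [evalFac_periodic h1, evalFac_periodic h2, evalFac_periodic h3]

theorem force_periodic {ν : ℝ} {L : Fin 3 → List TermCode}
    (hL : ∀ t, Periodic3 (vel L t)) (t : ℝ) : Periodic3 (force ν L t) := by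
  intro x k
  funext i
  unfold force
  have h1 : (fun s => vel L s (fun i => x i + (k i : ℝ)) i) = fun s => vel L s x i := by
    funext s; rw [hL s x k]
  have h2 : Periodic3 (fun y => vel L t y i) := by
    intro y k'; dsimp only; rw [hL t y k']
  rw [h1]
  congr 2
  refine Finset.sum_congr rfl fun j _ => ?_
  exact pd_periodic (pd_periodic h2 j) j x k

theorem velTerms_per (a : TMCode × List ℕ) : ∀ i, ∀ τ ∈ velTerms i a,
    PerFac τ.2.2.1 ∧ PerFac τ.2.2.2.1 ∧ PerFac τ.2.2.2.2 := by
  intro i τ hτ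
  fin_cases i
  · simp only [velTerms, List.mem_cons, List.mem_map] at hτ
    rcases hτ with rfl | ⟨j, _, rfl⟩
    · exact ⟨Or.inl rfl, Or.inl rfl, Or.inl rfl⟩
    · exact ⟨Or.inl rfl, Or.inl rfl, Or.inr rfl⟩
  · simp only [velTerms, List.mem_cons, List.mem_map] at hτ
    rcases hτ with rfl | ⟨j, _, rfl⟩
    · exact ⟨Or.inl rfl, Or.inl rfl, Or.inl rfl⟩
    · exact ⟨Or.inl rfl, Or.inl rfl, Or.inr rfl⟩
  · simp only [velTerms, List.mem_append, List.mem_cons, List.mem_map] at hτ
    rcases hτ with ⟨j, _, rfl⟩ | ⟨j, _, rfl⟩ | rfl | rfl | ⟨j, _, rfl⟩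
    · exact ⟨Or.inr rfl, Or.inr rfl, Or.inl rfl⟩
    · exact ⟨Or.inr rfl, Or.inr rfl, Or.inl rfl⟩
    · exact ⟨Or.inl rfl, Or.inr rfl, Or.inl rfl⟩
    · exact ⟨Or.inr rfl, Or.inl rfl, Or.inl rfl⟩
    · exact ⟨Or.inr rfl, Or.inr rfl, Or.inl rfl⟩

theorem uField_periodic (a : TMCode × List ℕ) (t : ℝ) : Periodic3 (uField a t) :=
  vel_periodic (velTerms_per a) t

/-- The force of a machine code and an input. -/
noncomputable def fField (ν : ℝ) (a : TMCode × List ℕ) : ℝ → R3 → R3 :=
  force ν fun i => velTerms i a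

theorem uField_smooth (a : TMCode × List ℕ) : SmoothField (uField a) :=
  ⟨vel_contDiff _, uField_periodic a⟩

theorem fField_smooth (ν : ℝ) (a : TMCode × List ℕ) : SmoothField (fField ν a) :=
  ⟨force_contDiff ν _, force_periodic (uField_periodic a)⟩

/-! ## Periodicity in time -/

theorem evalFac_start_late {t : ℝ} (ht : 1 / 16 ≤ t) : evalFac startFac t = 0 := by
  rw [evalFac_start]; exact bump_of_one_le (by linarith)

theorem evalFac_time_add_one (k : ℕ) (t : ℝ) :
    evalFac (timeFac k) (t + 1) = evalFac (timeFac k) t := by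
  have := evalFac_periodic (F := timeFac k) (Or.inr rfl) t 1
  simpa using this

theorem uField_add_one (a : TMCode × List ℕ) {t : ℝ} (ht : 1 / 16 ≤ t) (x : R3) :
    uField a (t + 1) x = uField a t x := by
  funext i
  fin_cases i
  · show uField a (t + 1) x 0 = uField a t x 0
    rw [uField_zero, uField_zero, evalFac_start_late ht, evalFac_start_late (by linarith),
      evalFac_time_add_one]
  · show uField a (t + 1) x 1 = uField a t x 1
    rw [uField_one, uField_one, evalFac_start_late ht, evalFac_start_late (by linarith),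
      evalFac_time_add_one]
  · show uField a (t + 1) x 2 = uField a t x 2
    rw [uField_two, uField_two, evalFac_time_add_one, evalFac_time_add_one,
      evalFac_time_add_one]

theorem uField_input (c : TMCode) (w w' : List ℕ) {t : ℝ} (ht : 1 / 16 ≤ t) (x : R3) :
    uField (c, w) t x = uField (c, w') t x := by
  funext i
  fin_cases i
  · show uField _ t x 0 = uField _ t x 0
    rw [uField_zero, uField_zero, evalFac_start_late ht]
  · show uField _ t x 1 = uField _ t x 1
    rw [uField_one, uField_one, evalFac_start_late ht]; ring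
  · show uField _ t x 2 = uField _ t x 2
    rw [uField_two, uField_two]

theorem fField_add_one (ν : ℝ) (a : TMCode × List ℕ) {t : ℝ} (ht : 1 ≤ t) (x : R3) :
    fField ν a (t + 1) x = fField ν a t x := by
  funext i
  show deriv (fun s => uField a s x i) (t + 1)
      - ν * ∑ j, pd j (pd j (fun y => uField a (t + 1) y i)) x
    = deriv (fun s => uField a s x i) t - ν * ∑ j, pd j (pd j (fun y => uField a t y i)) x
  have h1 : deriv (fun s => uField a s x i) (t + 1) = deriv (fun s => uField a s x i) t := by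
    rw [← deriv_comp_add_const]
    apply Filter.EventuallyEq.deriv_eq
    filter_upwards [lt_mem_nhds (show (1 / 16 : ℝ) < t by linarith)] with s hs
    rw [uField_add_one a hs.le]
  have h2 : (fun y => uField a (t + 1) y i) = fun y => uField a t y i := by
    funext y; rw [uField_add_one a (by linarith)]
  rw [h1, h2]

theorem fField_input (ν : ℝ) (c : TMCode) (w w' : List ℕ) {t : ℝ} (ht : 1 ≤ t) (x : R3) :
    fField ν (c, w) t x = fField ν (c, w') t x := by
  funext i
  show deriv (fun s => uField (c, w) s x i) t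
      - ν * ∑ j, pd j (pd j (fun y => uField (c, w) t y i)) x
    = deriv (fun s => uField (c, w') s x i) t
      - ν * ∑ j, pd j (pd j (fun y => uField (c, w') t y i)) x
  have h1 : deriv (fun s => uField (c, w) s x i) t = deriv (fun s => uField (c, w') s x i) t := by
    apply Filter.EventuallyEq.deriv_eq
    filter_upwards [lt_mem_nhds (show (1 / 16 : ℝ) < t by linarith)] with s hs
    rw [uField_input c w w' hs.le]
  have h2 : (fun y => uField (c, w) t y i) = fun y => uField (c, w') t y i := by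
    funext y; rw [uField_input c w w' (by linarith)]
  rw [h1, h2]

/-! ## The Navier–Stokes equations -/

theorem pd_zero (i : Fin 3) (x : R3) : pd i (fun _ => (0 : ℝ)) x = 0 := by
  unfold pd; simp

theorem uField_initial (a : TMCode × List ℕ) (x : R3) : uField a 0 x = 0 := by
  rw [uField_eq a 0 0 x (by norm_num) (by norm_num), bump_of_nonpos (by norm_num), zero_smul]

theorem uField_contDiff_slice (a : TMCode × List ℕ) (t : ℝ) :
    ContDiff ℝ (⊤ : ℕ∞) (uField a t) := by
  have h1 : ContDiff ℝ (⊤ : ℕ∞) (fun x : R3 => ((t, x) : ℝ × R3)) := by fun_prop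
  have h2 := ContDiff.comp (g := fun z : ℝ × R3 => uField a z.1 z.2)
    (f := fun x : R3 => ((t, x) : ℝ × R3)) (uField_smooth a).1 h1
  have h3 : (fun z : ℝ × R3 => uField a z.1 z.2) ∘ (fun x : R3 => ((t, x) : ℝ × R3))
      = uField a t := rfl
  rwa [h3] at h2

theorem isClassicalSolution (ν : ℝ) (a : TMCode × List ℕ) {T : ℝ} (hT : 0 < T) :
    IsClassicalSolution ν T (fField ν a) (uField a) (fun _ _ => 0) := by
  have hsm := (uField_smooth a).1
  have hc : ∀ i, ContDiff ℝ (⊤ : ℕ∞) fun z : ℝ × R3 => uField a z.1 z.2 i :=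
    fun i => vel_contDiff_comp _ i
  have hud : UniqueDiffOn ℝ (Icc (0 : ℝ) T) := uniqueDiffOn_Icc hT
  refine
    { periodic_u := fun t _ => uField_periodic a t
      periodic_p := fun t _ x k => rfl
      cont_u := hsm.continuous.continuousOn
      diff_time := ?_
      cont_time := ?_
      diff_space := ?_
      cont_space := ?_
      cont_space_two := ?_
      diff_pressure := fun t _ => contDiff_const
      cont_pressure := continuousOn_const
      cont_grad_pressure := ?_
      mean_pressure := fun t _ => by simp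
      initial := uField_initial a
      div_free := fun t ht x => (uField_window a).div ht.1 x
      momentum := ?_ }
  · intro t _ x
    exact (hasDerivAt_time hsm t x).differentiableAt.differentiableWithinAt
  · have h1 := (contDiff_time hsm).continuous.continuousOn (s := Icc (0 : ℝ) T ×ˢ univ)
    refine h1.congr ?_
    intro z hz
    exact ((hasDerivAt_time hsm z.1 z.2).differentiableAt).derivWithin (hud z.1 hz.1)
  · intro t _
    exact contDiff_infty.1 (uField_contDiff_slice a t) 2
  · intro i j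
    exact (contDiff_pd_joint (hc j) i).continuous.continuousOn
  · intro i j k
    exact (contDiff_pd_joint (contDiff_pd_joint (hc k) j) i).continuous.continuousOn
  · intro i
    have : (fun z : ℝ × R3 => pd i ((fun (_ : ℝ) (_ : R3) => (0 : ℝ)) z.1) z.2) = fun _ => 0 := by
      funext z; exact pd_zero i z.2
    rw [this]; exact continuousOn_const
  · intro t ht x j
    rw [(uField_window a).transport ht.1 x j]
    have h1 : derivWithin (fun s => uField a s x j) (Icc 0 T) t
        = deriv (fun s => uField a s x j) t :=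
      ((hasDerivAt_time (hc j) t x).differentiableAt).derivWithin (hud t ht)
    have h2 : fField ν a t x j = deriv (fun s => uField a s x j) t
        - ν * ∑ i, pd i (pd i (fun y => uField a t y j)) x := rfl
    have h3 : pd j (fun _ : R3 => (0 : ℝ)) x = 0 := pd_zero j x
    rw [h1, h2, h3]; ring

/-- The trajectory of the origin. -/
theorem trajectory_exists (a : TMCode × List ℕ) : ∃ X, IsTrajectory (uField a) 0 X := by
  refine ⟨path (Vf a) 0, ?_, ?_⟩
  · rw [path_zero]; rfl
  · intro t ht
    exact ((uField_window a).path_hasDerivAt 0 ht).hasDerivWithinAt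

/-- Every trajectory of the origin detects halting. -/
theorem trajectory_halting (M : TM) (w : List (Fin (M.m + 1))) {X : ℝ → R3}
    (hX : IsTrajectory (uField (M.code, w.map Fin.val)) 0 X) :
    (∃ t, 0 ≤ t ∧ toTorus (X t) ∈ detector) ↔ M.HaltsOn w := by
  obtain ⟨h0, h1⟩ := hX
  have hk : ∀ i, ∃ k : ℤ, (k : ℝ) = X 0 i := by
    intro i
    have h2 : ((X 0 i : ℝ) : UnitAddCircle) = 0 := congrFun h0 i
    rw [AddCircle.coe_eq_zero_iff] at h2
    obtain ⟨k, hk⟩ := h2
    exact ⟨k, by simpa using hk⟩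
  choose k hk using hk
  set Y : ℝ → R3 := fun t i => X t i - k i with hY
  have hXY : ∀ t, X t = fun i => Y t i + ((k i : ℤ) : ℝ) := by
    intro t; funext i; simp [hY]
  have hY0 : Y 0 = 0 := by
    funext i; simp [hY, hk i]
  have hYd : ∀ t, 0 ≤ t → HasDerivWithinAt Y
      (uField (M.code, w.map Fin.val) t (Y t)) (Ici 0) t := by
    intro t ht
    have h2 := h1 t ht
    have h3 : uField (M.code, w.map Fin.val) t (X t) = uField (M.code, w.map Fin.val) t (Y t) := by
      rw [hXY t]; exact uField_periodic _ t (Y t) k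
    rw [h3] at h2
    exact h2.sub_const (fun i => ((k i : ℤ) : ℝ))
  have hto : ∀ t, toTorus (X t) = toTorus (Y t) := by
    intro t; funext i
    show ((X t i : ℝ) : UnitAddCircle) = ((Y t i : ℝ) : UnitAddCircle)
    rw [hXY t]
    show (((Y t i + (k i : ℝ) : ℝ)) : UnitAddCircle) = _
    rw [AddCircle.coe_add]
    have : (((k i : ℤ) : ℝ) : UnitAddCircle) = 0 := by
      rw [AddCircle.coe_eq_zero_iff]; exact ⟨k i, by simp⟩
    rw [this, add_zero]
  rw [← halting_iff M w hY0 hYd]
  simp_rw [hto]

end Vale.Agent.P113
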