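import Vale.Agent.Lib.P113.Gates

/-! # The trajectories of the velocity field -/

open Set

namespace Vale.Agent.P113

/-- The spatial part of a term. -/
noncomputable def sp (τ : TermCode) (x : R3) : ℝ :=
  ratVal τ.1 * evalFac τ.2.2.1 (x 0) * evalFac τ.2.2.2.1 (x 1) * evalFac τ.2.2.2.2 (x 2)

theorem evalTerm_eq (τ : TermCode) (t : ℝ) (x : R3) :
    evalTerm τ ![t, x 0, x 1, x 2] = evalFac τ.2.1 t * sp τ x := by
  unfold evalTerm sp
  simp only [Matrix.cons_val_zero, Matrix.cons_val_one, Matrix.cons_val]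
  ring

theorem evalTerms_append (L L' : List TermCode) (w : Fin 4 → ℝ) :
    evalTerms (L ++ L') w = evalTerms L w + evalTerms L' w := by
  simp [evalTerms]

theorem evalTerms_cons (τ : TermCode) (L : List TermCode) (w : Fin 4 → ℝ) :
    evalTerms (τ :: L) w = evalTerm τ w + evalTerms L w := by
  simp [evalTerms]

theorem evalTerms_map {ι : Type} (l : List ι) (f : ι → TermCode) (F : FacCode)
    (hF : ∀ i, (f i).2.1 = F) (t : ℝ) (x : R3) :
    evalTerms (l.map f) ![t, x 0, x 1, x 2] = evalFac F t * (l.map fun i => sp (f i) x).sum := by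
  induction l with
  | nil => simp [evalTerms]
  | cons i l ih =>
    rw [List.map_cons, evalTerms_cons, evalTerm_eq, hF, ih, List.map_cons, List.sum_cons]
    ring

/-- Spatial part of phase 1. -/
noncomputable def H1 (c : TMCode) (x : R3) : ℝ :=
  ((List.range (rules c).length).map fun j => sp (t1 c j) x).sum
    + ((haltDigits c).map fun σ => sp (tHalt c σ) x).sum

/-- Spatial part of phase 2. -/
noncomputable def H2 (c : TMCode) (x : R3) : ℝ :=
  ((List.range (rules c).length).map fun j => sp (t2 c j) x).sum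

/-- Spatial part of phase 3. -/
noncomputable def H3 (c : TMCode) (x : R3) : ℝ := sp (t3y c) x + sp (t3x c) x

/-- Spatial part of phase 4. -/
noncomputable def H4 (c : TMCode) (x : R3) : ℝ :=
  ((List.range (rules c).length).map fun j => sp (t4 c j) x).sum

/-- Spatial part of phase 5. -/
noncomputable def H5 (c : TMCode) (x : R3) : ℝ :=
  ((List.range (rules c).length).map fun j => sp (t5 c j) x).sum

/-- The velocity field of a machine code and an input. -/
noncomputable def uField (a : TMCode × List ℕ) : ℝ → R3 → R3 := vel fun i => velTerms i a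

theorem uField_zero (a : TMCode × List ℕ) (t : ℝ) (x : R3) :
    uField a t x 0 = evalFac startFac t * sp (tStartX a.1) x
      + evalFac (timeFac 2) t * H2 a.1 x := by
  show evalTerms (velTerms 0 a) _ = _
  unfold velTerms H2
  simp only
  rw [evalTerms_cons, evalTerm_eq, evalTerms_map _ _ (timeFac 2) (fun _ => rfl)]
  rfl

theorem uField_one (a : TMCode × List ℕ) (t : ℝ) (x : R3) :
    uField a t x 1 = evalFac startFac t * sp (tStartY a.1 a.2) x
      + evalFac (timeFac 4) t * H4 a.1 x := by
  show evalTerms (velTerms 1 a) _ = _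
  unfold velTerms H4
  simp only
  rw [evalTerms_cons, evalTerm_eq, evalTerms_map _ _ (timeFac 4) (fun _ => rfl)]
  rfl

theorem uField_two (a : TMCode × List ℕ) (t : ℝ) (x : R3) :
    uField a t x 2 = evalFac (timeFac 1) t * H1 a.1 x + evalFac (timeFac 3) t * H3 a.1 x
      + evalFac (timeFac 5) t * H5 a.1 x := by
  show evalTerms (velTerms 2 a) _ = _
  unfold velTerms H1 H3 H5
  simp only
  rw [evalTerms_append, evalTerms_append, evalTerms_cons, evalTerms_cons,
    evalTerms_map _ _ (timeFac 1) (fun _ => rfl), evalTerms_map _ _ (timeFac 1) (fun _ => rfl),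
    evalTerms_map _ _ (timeFac 5) (fun _ => rfl), evalTerm_eq, evalTerm_eq]
  show _ = _
  have e1 : (t3y a.1).2.1 = timeFac 3 := rfl
  have e2 : (t3x a.1).2.1 = timeFac 3 := rfl
  rw [e1, e2]
  ring

/-- The displacement during window `N`. -/
noncomputable def Vf (a : TMCode × List ℕ) (N : ℕ) (x : R3) : R3 :=
  if N = 0 then ![ratVal (tStartX a.1).1, ratVal (tStartY a.1 a.2).1, 0]
  else if N % 16 = 1 then ![0, 0, H1 a.1 x]
  else if N % 16 = 2 then ![H2 a.1 x, 0, 0]
  else if N % 16 = 3 then ![0, 0, H3 a.1 x]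
  else if N % 16 = 4 then ![0, H4 a.1 x, 0]
  else if N % 16 = 5 then ![0, 0, H5 a.1 x]
  else 0

theorem sp_tStartX (c : TMCode) (x : R3) : sp (tStartX c) x = ratVal (tStartX c).1 := by
  simp [sp, tStartX, evalFac_one]

theorem sp_tStartY (c : TMCode) (w : List ℕ) (x : R3) :
    sp (tStartY c w) x = ratVal (tStartY c w).1 := by
  simp [sp, tStartY, evalFac_one]

theorem uField_eq (a : TMCode × List ℕ) (N : ℕ) (t : ℝ) (x : R3) (h1 : (N : ℝ) / 16 ≤ t)
    (h2 : t ≤ ((N : ℝ) + 1) / 16) : uField a t x = bump (16 * t - N) • Vf a N x := by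
  funext i
  fin_cases i
  · show uField a t x 0 = bump (16 * t - N) * Vf a N x 0
    rw [uField_zero, evalFac_time_window (by norm_num) h1 h2, evalFac_start_window h1 h2,
      sp_tStartX]
    unfold Vf
    by_cases h0 : N = 0
    · subst h0; simp
    · rw [if_neg h0, if_neg h0]
      split_ifs with a1 a2 a3 a4 a5 a6 <;> first | omega | simp
  · show uField a t x 1 = bump (16 * t - N) * Vf a N x 1
    rw [uField_one, evalFac_time_window (by norm_num) h1 h2, evalFac_start_window h1 h2,
      sp_tStartY]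
    unfold Vf
    by_cases h0 : N = 0
    · subst h0; simp
    · rw [if_neg h0, if_neg h0]
      split_ifs with a1 a2 a3 a4 a5 a6 <;> first | omega | simp
  · show uField a t x 2 = bump (16 * t - N) * Vf a N x 2
    rw [uField_two, evalFac_time_window (by norm_num) h1 h2,
      evalFac_time_window (by norm_num) h1 h2, evalFac_time_window (by norm_num) h1 h2]
    unfold Vf
    by_cases h0 : N = 0
    · subst h0; simp
    · rw [if_neg h0]
      split_ifs with a1 a2 a3 a4 a5 a6 <;> first | omega | simp

theorem H1_congr (c : TMCode) {x y : R3} (h0 : x 0 = y 0) (h1 : x 1 = y 1) : H1 c x = H1 c y := by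
  unfold H1 sp t1 tHalt
  simp only [h0, h1, evalFac_one]

theorem H3_congr (c : TMCode) {x y : R3} (h0 : x 0 = y 0) (h1 : x 1 = y 1) : H3 c x = H3 c y := by
  unfold H3 sp t3x t3y
  simp only [h0, h1, evalFac_one]

theorem H5_congr (c : TMCode) {x y : R3} (h0 : x 0 = y 0) (h1 : x 1 = y 1) : H5 c x = H5 c y := by
  unfold H5 sp t5
  simp only [h0, h1, evalFac_one]

theorem H2_congr (c : TMCode) {x y : R3} (h2 : x 2 = y 2) : H2 c x = H2 c y := by
  unfold H2 sp t2
  simp only [h2, evalFac_one]

theorem H4_congr (c : TMCode) {x y : R3} (h2 : x 2 = y 2) : H4 c x = H4 c y := by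
  unfold H4 sp t4
  simp only [h2, evalFac_one]

theorem Vf_shear (a : TMCode × List ℕ) (N : ℕ) : IsShear (Vf a N) := by
  unfold Vf
  split_ifs with h0 h1 h2 h3 h4 h5
  · exact ⟨univ, fun x j hj => absurd (mem_univ j) hj, fun x y _ => rfl⟩
  · refine ⟨{2}, fun x j hj => ?_, fun x y h => ?_⟩
    · fin_cases j <;> simp_all
    · dsimp only
      rw [H1_congr a.1 (h 0 (by simp)) (h 1 (by simp))]
  · refine ⟨{0}, fun x j hj => ?_, fun x y h => ?_⟩
    · fin_cases j <;> simp_all
    · dsimp only
      rw [H2_congr a.1 (h 2 (by simp))]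
  · refine ⟨{2}, fun x j hj => ?_, fun x y h => ?_⟩
    · fin_cases j <;> simp_all
    · dsimp only
      rw [H3_congr a.1 (h 0 (by simp)) (h 1 (by simp))]
  · refine ⟨{1}, fun x j hj => ?_, fun x y h => ?_⟩
    · fin_cases j <;> simp_all
    · dsimp only
      rw [H4_congr a.1 (h 2 (by simp))]
  · refine ⟨{2}, fun x j hj => ?_, fun x y h => ?_⟩
    · fin_cases j <;> simp_all
    · dsimp only
      rw [H5_congr a.1 (h 0 (by simp)) (h 1 (by simp))]
  · exact ⟨univ, fun x j hj => absurd (mem_univ j) hj, fun x y _ => rfl⟩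

theorem uField_window (a : TMCode × List ℕ) : WindowField (uField a) (Vf a) :=
  ⟨Vf_shear a, uField_eq a⟩

/-! ## Evaluation of the displacements at encoded points -/

theorem Incompat.symm {p p' : List ℕ} (h : Incompat p p') : Incompat p' p := by
  obtain ⟨i, a, a', h1, h2, h3⟩ := h
  exact ⟨i, a', a, h2, h1, h3.symm⟩

theorem Incompat2.symm {P P' : List ℕ × List ℕ} (h : Incompat2 P P') : Incompat2 P' P :=
  h.imp Incompat.symm Incompat.symm

theorem sum_map_range_single {n : ℕ} (f : ℕ → ℝ) {j : ℕ} (hj : j < n)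
    (h : ∀ i < n, i ≠ j → f i = 0) : ((List.range n).map f).sum = f j := by
  have e : ((List.range n).map f).sum = ∑ i ∈ Finset.range n, f i := rfl
  rw [e, Finset.sum_eq_single j]
  · intro i hi hne; exact h i (Finset.mem_range.1 hi) hne
  · intro h'; exact absurd (Finset.mem_range.2 hj) h'

theorem sum_map_eq_zero {ι : Type} (l : List ι) (f : ι → ℝ) (h : ∀ i ∈ l, f i = 0) :
    (l.map f).sum = 0 := by
  apply List.sum_eq_zero
  intro x hx
  obtain ⟨i, hi, rfl⟩ := List.mem_map.1 hx
  exact h i hi

theorem ruleAt_mem (c : TMCode) {j : ℕ} (hj : j < (rules c).length) : ruleAt c j ∈ rules c := by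
  unfold ruleAt
  rw [List.getD_eq_getElem _ _ hj]
  exact List.getElem_mem hj

theorem exists_ruleAt (c : TMCode) {r : Rule} (hr : r ∈ rules c) :
    ∃ j < (rules c).length, ruleAt c j = r := by
  obtain ⟨j, hj, h⟩ := List.mem_iff_getElem.1 hr
  exact ⟨j, hj, by unfold ruleAt; rw [List.getD_eq_getElem _ _ hj, h]⟩

theorem pairwise_ruleAt {c : TMCode} {R : Rule → Rule → Prop} (hs : ∀ r r', R r r' → R r' r)
    (h : (rules c).Pairwise R) {i j : ℕ} (hi : i < (rules c).length) (hj : j < (rules c).length)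
    (hne : i ≠ j) : R (ruleAt c i) (ruleAt c j) := by
  unfold ruleAt
  rw [List.getD_eq_getElem _ _ hi, List.getD_eq_getElem _ _ hj]
  rcases Nat.lt_or_gt_of_ne hne with h1 | h1
  · exact List.pairwise_iff_getElem.1 h i j hi hj h1
  · exact hs _ _ (List.pairwise_iff_getElem.1 h j i hj hi h1)

variable (M : TM)

theorem numDigits_pos (c : TMCode) : 0 < numDigits c := by unfold numDigits; positivity

theorem base_pos_nat (c : TMCode) : 0 < base c := by
  unfold base; have := numDigits_pos c; omega

/-- Separation of sources. -/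
theorem src_ne {i j : ℕ} (hi : i < (rules M.code).length) (hj : j < (rules M.code).length)
    (hne : i ≠ j) : Incompat2 (ruleAt M.code i).1 (ruleAt M.code j).1 :=
  pairwise_ruleAt (R := fun r r' => Incompat2 r.1 r'.1) (fun _ _ h => h.symm) (rules_src M) hi hj hne

/-- Separation of targets. -/
theorem tgt_ne {i j : ℕ} (hi : i < (rules M.code).length) (hj : j < (rules M.code).length)
    (hne : i ≠ j) : Incompat2 (ruleAt M.code i).2 (ruleAt M.code j).2 :=
  pairwise_ruleAt (R := fun r r' => Incompat2 r.2 r'.2) (fun _ _ h => h.symm) (rules_tgt M) hi hj hne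

theorem rule_bounds {r : Rule} (hr : r ∈ rules M.code) :
    (∀ e ∈ r.1.1, e < numDigits M.code) ∧ (∀ e ∈ r.1.2, e < numDigits M.code) ∧
    (∀ e ∈ r.2.1, e < numDigits M.code) ∧ (∀ e ∈ r.2.2, e < numDigits M.code) := by
  have h := (rules_wf M r hr).1
  refine ⟨fun e he => h e ?_, fun e he => h e ?_, fun e he => h e ?_, fun e he => h e ?_⟩ <;>
    simp [he]

/-- Plateau factors: product of two plateaus vanishes at an incompatible block. -/
theorem two_out {K : ℕ} (hK : 0 < K) {P Q : List ℕ × List ℕ} (hP1 : ∀ e ∈ P.1, e < K)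
    (hP2 : ∀ e ∈ P.2, e < K) (hQ1 : ∀ e ∈ Q.1, e < K) (hQ2 : ∀ e ∈ Q.2, e < K)
    (hl1 : P.1.length ≤ 3) (hl2 : P.2.length ≤ 3) (h : Incompat2 P Q) (a b a' b' : QCode)
    {v w : ℝ} (hv : v ∈ Icc (0 : ℝ) (1 / 2)) (hw : w ∈ Icc (0 : ℝ) (1 / 2)) :
    evalFac (prefFac (2 * K) P.1 a b) (pval (2 * K) Q.1 v)
      * evalFac (prefFac (2 * K) P.2 a' b') (pval (2 * K) Q.2 w) = 0 := by
  rcases h with h | h
  · rw [prefFac_out hK hP1 hQ1 hl1 h a b hv, zero_mul]
  · rw [prefFac_out hK hP2 hQ2 hl2 h a' b' hw, mul_zero]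

/-- Phase 1 at a rule block. -/
theorem H1_rule {j : ℕ} (hj : j < (rules M.code).length) {v w : ℝ}
    (hv : v ∈ Icc (0 : ℝ) (1 / 2)) (hw : w ∈ Icc (0 : ℝ) (1 / 2)) {x : R3}
    (hx : x 0 = pval (base M.code) (ruleAt M.code j).1.1 v)
    (hy : x 1 = pval (base M.code) (ruleAt M.code j).1.2 w) :
    H1 M.code x = slotPt (rules M.code).length j
      (pval (base M.code) (ruleAt M.code j).2.1 v) := by
  have hK := numDigits_pos M.code
  have hr := ruleAt_mem M.code hj
  have hb := rule_bounds M hr
  have hw' := rules_wf M _ hr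
  unfold H1
  rw [sum_map_range_single (fun j => sp (t1 M.code j) x) hj, sum_map_eq_zero, add_zero]
  · show ratVal (qn 1) * evalFac (prefFac (base M.code) _ _ _) (x 0)
      * evalFac (prefFac (base M.code) _ _ _) (x 1) * evalFac oneFac (x 2) = _
    rw [evalFac_one, ratVal_qn, hx, hy]
    unfold base
    rw [prefFac_in hK hb.1 hw'.2.1 _ _ hv, prefFac_in hK hb.2.1 hw'.2.2.1 _ _ hw,
      ratVal_qn, ratVal_qn, load_val (by omega)]
    push_cast; ring
  · intro σ hσ
    have h1 := (rules_halt M _ hr σ hσ).symm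
    have h2 := haltDigits_lt M σ hσ
    show ratVal _ * evalFac (prefFac (base M.code) [σ] _ _) (x 0)
      * evalFac (prefFac (base M.code) _ _ _) (x 1) * evalFac oneFac (x 2) = _
    rw [hx]
    unfold base
    rw [prefFac_out hK (by simpa using h2) hb.1 (by simp) h1 _ _ hv]; ring
  · intro i hi hne
    have hri := ruleAt_mem M.code hi
    have hbi := rule_bounds M hri
    have hwi := rules_wf M _ hri
    have h3 := two_out hK hbi.1 hbi.2.1 hb.1 hb.2.1 hwi.2.1 hwi.2.2.1 (src_ne M hi hj hne)
      (loadA (base M.code) (rules M.code).length i (ruleAt M.code i).1.1 (ruleAt M.code i).2.1)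
      (loadB (base M.code) (rules M.code).length (ruleAt M.code i).1.1 (ruleAt M.code i).2.1)
      (qn 1) (qn 0) hv hw
    show ratVal (qn 1) * evalFac (prefFac (base M.code) _ _ _) (x 0)
      * evalFac (prefFac (base M.code) _ _ _) (x 1) * evalFac oneFac (x 2) = _
    rw [hx, hy, mul_assoc (ratVal (qn 1))]
    have h4 : base M.code = 2 * numDigits M.code := rfl
    rw [h4] at h3 ⊢
    rw [h3]; ring

/-- Phase 1 at a halting block. -/
theorem H1_halt {x : R3} (h : IsHaltPt M.code (x 0) (x 1)) : H1 M.code x = 5 / 8 := by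
  obtain ⟨σ, hσ, v, hv, hx, hy⟩ := h
  have hK := numDigits_pos M.code
  have hσK := haltDigits_lt M σ hσ
  have hσ1 : ∀ e ∈ [σ], e < numDigits M.code := by simpa using hσK
  unfold H1
  rw [sum_map_eq_zero, zero_add]
  · have hnd := haltDigits_nodup M
    have key : ∀ l : List ℕ, l.Nodup → (∀ τ ∈ l, τ < numDigits M.code) →
        (l.map fun τ => sp (tHalt M.code τ) x).sum = if σ ∈ l then 5 / 8 else 0 := by
      intro l
      induction l with
      | nil => intro _ _; simp
      | cons τ l ih =>
        intro hnd hlt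
        rw [List.map_cons, List.sum_cons, ih (List.nodup_cons.1 hnd).2
          (fun τ' h => hlt τ' (by simp [h]))]
        have hτ := hlt τ (by simp)
        have e0 : sp (tHalt M.code τ) x = if τ = σ then 5 / 8 else 0 := by
          show ratVal (5, 0, 7) * evalFac (prefFac (base M.code) [τ] _ _) (x 0)
            * evalFac (prefFac (base M.code) [] _ _) (x 1) * evalFac oneFac (x 2) = _
          rw [hx, evalFac_one]
          unfold base
          split_ifs with hτσ
          · subst hτσ
            have e1 : evalFac (prefFac (2 * numDigits M.code) [] (qn 1) (qn 0)) (x 1) = 1 := by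
              have := prefFac_in (p := []) hK (by simp) (by simp) (qn 1) (qn 0) hy
              rw [pval_nil] at this
              rw [this, ratVal_qn, ratVal_qn]; simp
            rw [prefFac_in hK hσ1 (by simp) _ _ hv, e1, ratVal_qn, ratVal_qn]
            simp only [ratVal]; norm_num
          · rw [prefFac_out hK (by simpa using hτ) hσ1 (by simp)
              ⟨0, τ, σ, by simp, by simp, hτσ⟩ _ _ hv]
            ring
        rw [e0]
        by_cases hτσ : τ = σ
        · subst hτσ
          have : τ ∉ l := (List.nodup_cons.1 hnd).1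
          simp [this]
        · have : σ ≠ τ := fun h => hτσ h.symm
          simp [hτσ, this]
    rw [key _ hnd (fun τ hτ => haltDigits_lt M τ hτ), if_pos hσ]
  · intro j hj
    have hj' : j < (rules M.code).length := by simpa using hj
    have hr := ruleAt_mem M.code hj'
    have hb := rule_bounds M hr
    have hw' := rules_wf M _ hr
    show ratVal _ * evalFac (prefFac (base M.code) _ _ _) (x 0)
      * evalFac (prefFac (base M.code) _ _ _) (x 1) * evalFac oneFac (x 2) = _
    rw [hx]
    unfold base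
    rw [prefFac_out hK hb.1 hσ1 hw'.2.1 (rules_halt M _ hr σ hσ) _ _ hv]; ring

/-- Phase 2 at a slot. -/
theorem H2_slot {j : ℕ} (hj : j < (rules M.code).length) {v : ℝ}
    (hv : v ∈ Icc (0 : ℝ) (1 / 2)) {x : R3}
    (hx : x 2 = slotPt (rules M.code).length j
      (pval (base M.code) (ruleAt M.code j).2.1 v)) :
    H2 M.code x = pval (base M.code) (ruleAt M.code j).2.1 v
      - pval (base M.code) (ruleAt M.code j).1.1 v := by
  have hK := numDigits_pos M.code
  have hr := ruleAt_mem M.code hj
  have hb := rule_bounds M hr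
  have hξ : pval (base M.code) (ruleAt M.code j).2.1 v ∈ Icc (0 : ℝ) (1 / 2) :=
    pval_mem hK hb.2.2.1 hv
  unfold H2
  rw [sum_map_range_single (fun j => sp (t2 M.code j) x) hj]
  · show ratVal (qn 1) * evalFac oneFac (x 0) * evalFac oneFac (x 1)
      * evalFac (slotFac _ _ _ _) (x 2) = _
    rw [evalFac_one, evalFac_one, ratVal_qn, hx, slotFac_in hj _ _ hξ, move_val (base_pos_nat _)]
    push_cast; ring
  · intro i hi hne
    show ratVal (qn 1) * evalFac oneFac (x 0) * evalFac oneFac (x 1)
      * evalFac (slotFac _ _ _ _) (x 2) = _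
    rw [hx, slotFac_out hj hne _ _ hξ]; ring

/-- Phase 4 at a slot. -/
theorem H4_slot {j : ℕ} (hj : j < (rules M.code).length) {w : ℝ}
    (hw : w ∈ Icc (0 : ℝ) (1 / 2)) {x : R3}
    (hx : x 2 = slotPt (rules M.code).length j
      (pval (base M.code) (ruleAt M.code j).1.2 w)) :
    H4 M.code x = pval (base M.code) (ruleAt M.code j).2.2 w
      - pval (base M.code) (ruleAt M.code j).1.2 w := by
  have hK := numDigits_pos M.code
  have hr := ruleAt_mem M.code hj
  have hb := rule_bounds M hr
  have hξ : pval (base M.code) (ruleAt M.code j).1.2 w ∈ Icc (0 : ℝ) (1 / 2) :=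
    pval_mem hK hb.2.1 hw
  unfold H4
  rw [sum_map_range_single (fun j => sp (t4 M.code j) x) hj]
  · show ratVal (qm 1) * evalFac oneFac (x 0) * evalFac oneFac (x 1)
      * evalFac (slotFac _ _ _ _) (x 2) = _
    rw [evalFac_one, evalFac_one, ratVal_qm, hx, slotFac_in hj _ _ hξ, move_val (base_pos_nat _)]
    push_cast; ring
  · intro i hi hne
    show ratVal (qm 1) * evalFac oneFac (x 0) * evalFac oneFac (x 1)
      * evalFac (slotFac _ _ _ _) (x 2) = _
    rw [hx, slotFac_out hj hne _ _ hξ]; ring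

theorem idFac_eval {s : ℝ} (hs : s ∈ Icc (0 : ℝ) (1 / 2)) : evalFac idFac s = s := by
  unfold idFac
  rw [evalFac_kind1, rep_small hs, cut_small hs]
  unfold atom
  simp only [ratVal_qn]
  norm_num
  rw [fab_of_one_le le_rfl]; ring

/-- Phase 3. -/
theorem H3_eval (c : TMCode) {x : R3} (h0 : x 0 ∈ Icc (0 : ℝ) (1 / 2))
    (h1 : x 1 ∈ Icc (0 : ℝ) (1 / 2)) :
    H3 c x = (x 1 - x 0) / (4 * (((rules c).length : ℝ) + 1)) := by
  show ratVal (1, 0, 4 * ((rules c).length + 1) - 1) * evalFac oneFac (x 0)
      * evalFac idFac (x 1) * evalFac oneFac (x 2)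
    + ratVal (0, 1, 4 * ((rules c).length + 1) - 1) * evalFac idFac (x 0)
      * evalFac oneFac (x 1) * evalFac oneFac (x 2) = _
  rw [ratVal_sub_one (by positivity), ratVal_sub_one (by positivity), idFac_eval h0,
    idFac_eval h1]
  simp only [evalFac_one]
  push_cast
  ring

/-- Phase 5 at a target block. -/
theorem H5_rule {j : ℕ} (hj : j < (rules M.code).length) {v w : ℝ}
    (hv : v ∈ Icc (0 : ℝ) (1 / 2)) (hw : w ∈ Icc (0 : ℝ) (1 / 2)) {x : R3}
    (hx : x 0 = pval (base M.code) (ruleAt M.code j).2.1 v)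
    (hy : x 1 = pval (base M.code) (ruleAt M.code j).2.2 w) :
    H5 M.code x = - slotPt (rules M.code).length j
      (pval (base M.code) (ruleAt M.code j).1.2 w) := by
  have hK := numDigits_pos M.code
  have hr := ruleAt_mem M.code hj
  have hb := rule_bounds M hr
  have hw' := rules_wf M _ hr
  unfold H5
  rw [sum_map_range_single (fun j => sp (t5 M.code j) x) hj]
  · show ratVal (qm 1) * evalFac (prefFac (base M.code) _ _ _) (x 0)
      * evalFac (prefFac (base M.code) _ _ _) (x 1) * evalFac oneFac (x 2) = _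
    rw [evalFac_one, ratVal_qm, hx, hy]
    unfold base
    rw [prefFac_in hK hb.2.2.1 hw'.2.2.2.1 _ _ hv, prefFac_in hK hb.2.2.2 hw'.2.2.2.2 _ _ hw,
      ratVal_qn, ratVal_qn, load_val (by omega)]
    push_cast; ring
  · intro i hi hne
    have hri := ruleAt_mem M.code hi
    have hbi := rule_bounds M hri
    have hwi := rules_wf M _ hri
    have h3 := two_out hK hbi.2.2.1 hbi.2.2.2 hb.2.2.1 hb.2.2.2 hwi.2.2.2.1 hwi.2.2.2.2
      (tgt_ne M hi hj hne) (qn 1) (qn 0)
      (loadA (base M.code) (rules M.code).length i (ruleAt M.code i).2.2 (ruleAt M.code i).1.2)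
      (loadB (base M.code) (rules M.code).length (ruleAt M.code i).2.2 (ruleAt M.code i).1.2)
      hv hw
    show ratVal (qm 1) * evalFac (prefFac (base M.code) _ _ _) (x 0)
      * evalFac (prefFac (base M.code) _ _ _) (x 1) * evalFac oneFac (x 2) = _
    rw [hx, hy, mul_assoc (ratVal (qm 1))]
    have h4 : base M.code = 2 * numDigits M.code := rfl
    rw [h4] at h3 ⊢
    rw [h3]; ring

end Vale.Agent.P113
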