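import Vale.Agent.Lib.P113.Gates
import Vale.Agent.Lib.P113.QCode

/-! # Primitive recursiveness of the list of terms of the velocity field -/

namespace Vale.Agent.P113

instance instPrimcodableTMCode : Primcodable TMCode := inferInstance
instance instPrimcodableRule : Primcodable Rule := inferInstance

/-! ### Combinators in functional form -/

section
variable {α β γ : Type} [Primcodable α] [Primcodable β] [Primcodable γ]

theorem pg_pair {f : α → β} {g : α → γ} (hf : Primrec f) (hg : Primrec g) :
    Primrec (fun x => (f x, g x)) := Primrec.pair hf hg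

theorem pg_fst {f : α → β × γ} (hf : Primrec f) : Primrec (fun x => (f x).1) :=
  Primrec.fst.comp hf

theorem pg_snd {f : α → β × γ} (hf : Primrec f) : Primrec (fun x => (f x).2) :=
  Primrec.snd.comp hf

theorem pg_cons {f : α → β} {g : α → List β} (hf : Primrec f) (hg : Primrec g) :
    Primrec (fun x => f x :: g x) := Primrec.list_cons.comp hf hg

theorem pg_single {f : α → β} (hf : Primrec f) : Primrec (fun x => [f x]) :=
  pg_cons hf (Primrec.const [])

theorem pg_append {f g : α → List β} (hf : Primrec f) (hg : Primrec g) :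
    Primrec (fun x => f x ++ g x) := Primrec.list_append.comp hf hg

theorem pg_getD {f : α → List β} {g : α → ℕ} (hf : Primrec f) (hg : Primrec g) (d : β) :
    Primrec (fun x => (f x).getD (g x) d) := (Primrec.list_getD d).comp hf hg

theorem pg_length {f : α → List β} (hf : Primrec f) : Primrec (fun x => (f x).length) :=
  Primrec.list_length.comp hf

theorem pg_range {f : α → ℕ} (hf : Primrec f) : Primrec (fun x => List.range (f x)) :=
  Primrec.list_range.comp hf

theorem pg_map {f : α → List β} {g : α → β → γ} (hf : Primrec f)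
    (hg : Primrec (fun p : α × β => g p.1 p.2)) : Primrec (fun x => (f x).map (g x)) :=
  Primrec.list_map hf hg.to₂

theorem pg_flatMap {f : α → List β} {g : α → β → List γ} (hf : Primrec f)
    (hg : Primrec (fun p : α × β => g p.1 p.2)) : Primrec (fun x => (f x).flatMap (g x)) :=
  Primrec.list_flatMap hf hg.to₂

theorem pg_filter {f : α → List β} {g : α → β → Bool} (hf : Primrec f)
    (hg : Primrec (fun p : α × β => g p.1 p.2)) : Primrec (fun x => (f x).filter (g x)) := by
  have h : Primrec (fun x => (f x).flatMap (fun b => bif g x b then [b] else [])) := by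
    refine pg_flatMap (g := fun x b => bif g x b then [b] else []) hf ?_
    exact Primrec.cond hg (pg_single Primrec.snd) (Primrec.const [])
  refine h.of_eq fun x => ?_
  generalize f x = l
  induction l with
  | nil => rfl
  | cons b l ih =>
    rw [List.flatMap_cons, ih, List.filter_cons]
    cases g x b <;> rfl

theorem pg_ite {p : α → Prop} [DecidablePred p] {f g : α → β} (hp : PrimrecPred p)
    (hf : Primrec f) (hg : Primrec g) : Primrec (fun x => if p x then f x else g x) :=
  Primrec.ite hp hf hg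

theorem pg_lt {f g : α → ℕ} (hf : Primrec f) (hg : Primrec g) :
    PrimrecPred (fun x => f x < g x) := Primrec.nat_lt.comp hf hg

theorem pg_eq {f g : α → β} (hf : Primrec f) (hg : Primrec g) :
    PrimrecPred (fun x => f x = g x) := Primrec.eq.comp hf hg

theorem pg_div {f g : α → ℕ} (hf : Primrec f) (hg : Primrec g) :
    Primrec (fun x => f x / g x) := Primrec.nat_div.comp hf hg

theorem pg_mod {f g : α → ℕ} (hf : Primrec f) (hg : Primrec g) :
    Primrec (fun x => f x % g x) := Primrec.nat_mod.comp hf hg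

theorem pg_foldl {f : α → List β} {g : α → γ} {h : α → γ → β → γ} (hf : Primrec f)
    (hg : Primrec g) (hh : Primrec (fun p : α × γ × β => h p.1 p.2.1 p.2.2)) :
    Primrec (fun x => (f x).foldl (h x) (g x)) :=
  Primrec.list_foldl (h := fun a p => h a p.1 p.2) hf hg hh.to₂

end

/-! ### The rules -/

section
variable {α : Type} [Primcodable α]

theorem pg_qn {f : α → ℕ} (hf : Primrec f) : Primrec (fun x => qn (f x)) :=
  pg_pair hf (Primrec.const (0, 0))

theorem pg_qm {f : α → ℕ} (hf : Primrec f) : Primrec (fun x => qm (f x)) :=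
  pg_pair (Primrec.const 0) (pg_pair hf (Primrec.const 0))

theorem pg_q {f g h : α → ℕ} (hf : Primrec f) (hg : Primrec g) (hh : Primrec h) :
    Primrec (fun x => ((f x, g x, h x) : QCode)) := pg_pair hf (pg_pair hg hh)

theorem pg_numDigits {c : α → TMCode} (hc : Primrec c) : Primrec (fun x => numDigits (c x)) :=
  pr_mul (pr_succ (pr_mul (Primrec.const 3) (pr_succ (pg_fst hc))))
    (pr_succ (pg_fst (pg_snd hc)))

theorem pg_base {c : α → TMCode} (hc : Primrec c) : Primrec (fun x => base (c x)) :=
  pr_mul (Primrec.const 2) (pg_numDigits hc)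

theorem pg_isHalt {c : α → TMCode} {q : α → ℕ} (hc : Primrec c) (hq : Primrec q) :
    Primrec (fun x => isHalt (c x) (q x)) :=
  pg_getD (pg_fst (pg_snd (pg_snd (pg_snd hc)))) hq false

theorem pg_lookup {c : α → TMCode} {q s : α → ℕ} (hc : Primrec c) (hq : Primrec q)
    (hs : Primrec s) : Primrec (fun x => lookup (c x) (q x) (s x)) :=
  pg_getD (pg_getD (pg_snd (pg_snd (pg_snd (pg_snd hc)))) hq []) hs (0, 0, 0)

theorem pg_haltDigits {c : α → TMCode} (hc : Primrec c) :
    Primrec (fun x => haltDigits (c x)) :=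
  pg_filter (g := fun x σ => isHalt (c x) (σ / 3))
    (pg_range (pr_mul (Primrec.const 3) (pr_succ (pg_fst hc))))
    (pg_isHalt (hc.comp Primrec.fst) (pg_div Primrec.snd (Primrec.const 3)))

theorem pg_numOf {B : α → ℕ} {p : α → List ℕ} (hB : Primrec B) (hp : Primrec p) :
    Primrec (fun x => numOf (B x) (p x)) :=
  pg_foldl (h := fun x a e => a * B x + e) hp (Primrec.const 0)
    (pr_add (pr_mul (pg_fst Primrec.snd) (hB.comp Primrec.fst)) (pg_snd Primrec.snd))


theorem pg_pow {f g : α → ℕ} (hf : Primrec f) (hg : Primrec g) :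
    Primrec (fun x => f x ^ g x) := pr_pow hf hg

theorem pg_src {σ e : α → ℕ} (hσ : Primrec σ) (he : Primrec e) :
    Primrec (fun x => (if σ x % 3 = 0 then ([σ x, e x], []) else ([σ x], [e x]) :
      List ℕ × List ℕ)) :=
  pg_ite (pg_eq (pg_mod hσ (Primrec.const 3)) (Primrec.const 0))
    (pg_pair (pg_cons hσ (pg_single he)) (Primrec.const []))
    (pg_pair (pg_single hσ) (pg_single he))

theorem pg_ruleFor {c : α → TMCode} {σ e : α → ℕ} (hc : Primrec c) (hσ : Primrec σ)
    (he : Primrec e) : Primrec (fun x => ruleFor (c x) (σ x) (e x)) := by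
  have hq : Primrec (fun x => σ x / 3) := pg_div hσ (Primrec.const 3)
  have hd : Primrec (fun x => σ x % 3) := pg_mod hσ (Primrec.const 3)
  have hK : Primrec (fun x => (c x).2.1 + 1) := pr_succ (pg_fst (pg_snd hc))
  have hsrc := pg_src hσ he
  have hr : Primrec (fun x => lookup (c x) (σ x / 3) (e x)) := pg_lookup hc hq he
  have hr1 := pg_fst hr
  have hr2 := pg_fst (pg_snd hr)
  have hr3 := pg_snd (pg_snd hr)
  have hρ : Primrec (fun x => (σ x + 1) * ((c x).2.1 + 1) + e x) :=
    pr_add (pr_mul (pr_succ hσ) hK) he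
  have h3 : Primrec (fun x => 3 * (lookup (c x) (σ x / 3) (e x)).1) :=
    pr_mul (Primrec.const 3) hr1
  have a1 := pg_single (pg_pair hsrc (pg_pair (pg_single h3) (pg_cons hr2 (pg_single hρ))))
  have a2 := pg_single (pg_pair hsrc (pg_pair (pg_cons (pr_add h3 (Primrec.const 1))
    (pg_single hρ)) (pg_single hr2)))
  have a3 := pg_single (pg_pair hsrc (pg_pair (pg_cons (pr_add h3 (Primrec.const 2))
    (pg_cons hr2 (pg_single hρ))) (Primrec.const ([] : List ℕ))))
  have a4 := pg_single (pg_pair hsrc (pg_pair (pg_single hσ) (pg_single he)))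
  have a5 := pg_single (pg_pair hsrc (pg_pair (pg_cons hσ (pg_single he))
    (Primrec.const ([] : List ℕ))))
  have hnil : Primrec (fun _ : α => ([] : List Rule)) := Primrec.const []
  have hH : PrimrecPred (fun x => isHalt (c x) (σ x / 3) = true) :=
    pg_eq (pg_isHalt hc hq) (Primrec.const true)
  exact pg_ite hH hnil (pg_ite (pg_lt he hK)
    (pg_ite (pg_eq hr3 (Primrec.const 0)) a1 (pg_ite (pg_eq hr3 (Primrec.const 1)) a2 a3))
    (pg_ite (pg_eq hd (Primrec.const 1)) hnil (pg_ite (pg_eq hd (Primrec.const 0)) a4 a5)))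

theorem rules_primrec : Primrec rules := by
  refine pg_flatMap (f := fun c : TMCode => List.range (3 * (c.1 + 1)))
    (g := fun c σ => (List.range (numDigits c)).flatMap fun e => ruleFor c σ e)
    (pg_range (pr_mul (Primrec.const 3) (pr_succ Primrec.fst))) ?_
  refine pg_flatMap (f := fun p : TMCode × ℕ => List.range (numDigits p.1))
    (g := fun p e => ruleFor p.1 p.2 e) (pg_range (pg_numDigits Primrec.fst)) ?_
  exact pg_ruleFor (pg_fst Primrec.fst) (pg_snd Primrec.fst) Primrec.snd

theorem pg_rules {c : α → TMCode} (hc : Primrec c) : Primrec (fun x => rules (c x)) :=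
  rules_primrec.comp hc

theorem pg_ruleAt {c : α → TMCode} {j : α → ℕ} (hc : Primrec c) (hj : Primrec j) :
    Primrec (fun x => ruleAt (c x) (j x)) :=
  pg_getD (pg_rules hc) hj (([], []), ([], []))

/-! ### Factors -/

theorem pg_fac {k : α → ℕ} {a b c₁ d₁ c₂ d₂ : α → QCode} (hk : Primrec k) (ha : Primrec a)
    (hb : Primrec b) (hc₁ : Primrec c₁) (hd₁ : Primrec d₁) (hc₂ : Primrec c₂)
    (hd₂ : Primrec d₂) :
    Primrec (fun x => ((k x, a x, b x, c₁ x, d₁ x, c₂ x, d₂ x) : FacCode)) :=
  pg_pair hk (pg_pair ha (pg_pair hb (pg_pair hc₁ (pg_pair hd₁ (pg_pair hc₂ hd₂)))))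

theorem pg_prefFac {B : α → ℕ} {p : α → List ℕ} {a b : α → QCode} (hB : Primrec B)
    (hp : Primrec p) (ha : Primrec a) (hb : Primrec b) :
    Primrec (fun x => prefFac (B x) (p x) (a x) (b x)) := by
  have hN : Primrec (fun x => numOf (B x) (p x)) := pg_numOf hB hp
  have h3 : Primrec (fun x => 4 * B x ^ 3) :=
    pr_mul (Primrec.const 4) (pr_pow hB (Primrec.const 3))
  have hl : Primrec (fun x => B x ^ (3 - (p x).length)) :=
    pr_pow hB (pr_sub (Primrec.const 3) (pg_length hp))
  have h4 : Primrec (fun x => 4 * B x ^ (3 - (p x).length) * numOf (B x) (p x)) :=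
    pr_mul (pr_mul (Primrec.const 4) hl) hN
  have h5 : Primrec (fun x => 4 * B x ^ (3 - (p x).length) * numOf (B x) (p x)
      + 2 * B x ^ (3 - (p x).length) + 1) :=
    pr_succ (pr_add h4 (pr_mul (Primrec.const 2) hl))
  exact pg_fac (Primrec.const 1) ha hb (pg_qn h3)
    (pg_q (Primrec.const 1) h4 (Primrec.const 0)) (pg_qm h3) (pg_qn h5)

theorem pg_slotFac {n j : α → ℕ} {a b : α → QCode} (hn : Primrec n) (hj : Primrec j)
    (ha : Primrec a) (hb : Primrec b) :
    Primrec (fun x => slotFac (n x) (j x) (a x) (b x)) := by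
  have h1 : Primrec (fun x => 32 * (n x + 1)) := pr_mul (Primrec.const 32) (pr_succ hn)
  have h2 : Primrec (fun x => 8 * (j x + 1)) := pr_mul (Primrec.const 8) (pr_succ hj)
  exact pg_fac (Primrec.const 1) ha hb (pg_qn h1)
    (pg_q (Primrec.const 1) h2 (Primrec.const 0)) (pg_qm h1)
    (pg_qn (pr_add h2 (Primrec.const 5)))

theorem pg_loadA {B n j : α → ℕ} {p p' : α → List ℕ} (hB : Primrec B) (hn : Primrec n)
    (hj : Primrec j) (hp : Primrec p) (hp' : Primrec p') :
    Primrec (fun x => loadA (B x) (n x) (j x) (p x) (p' x)) := by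
  have hl : Primrec (fun x => B x ^ (p' x).length) := pr_pow hB (pg_length hp')
  exact pg_q (pr_add (pr_mul (pr_succ hj) hl) (pg_numOf hB hp')) (pg_numOf hB hp)
    (pr_sub (pr_mul (pr_mul (Primrec.const 4) (pr_succ hn)) hl) (Primrec.const 1))

theorem pg_loadB {B n : α → ℕ} {p p' : α → List ℕ} (hB : Primrec B) (hn : Primrec n)
    (hp : Primrec p) (hp' : Primrec p') :
    Primrec (fun x => loadB (B x) (n x) (p x) (p' x)) := by
  have hl : Primrec (fun x => B x ^ (p' x).length) := pr_pow hB (pg_length hp')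
  exact pg_q (pr_pow hB (pg_length hp)) (Primrec.const 0)
    (pr_sub (pr_mul (pr_mul (Primrec.const 4) (pr_succ hn)) hl) (Primrec.const 1))

theorem pg_moveA {B j : α → ℕ} {p p' : α → List ℕ} (hB : Primrec B)
    (hj : Primrec j) (hp : Primrec p) (hp' : Primrec p') :
    Primrec (fun x => moveA (B x) (j x) (p x) (p' x)) := by
  have hl : Primrec (fun x => B x ^ (p x).length) := pr_pow hB (pg_length hp)
  have hl' : Primrec (fun x => B x ^ (p' x).length) := pr_pow hB (pg_length hp')
  exact pg_q (pr_add (pr_mul (pr_succ hj) hl') (pg_numOf hB hp'))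
    (pr_add (pr_mul (pr_succ hj) hl) (pg_numOf hB hp)) (pr_sub hl (Primrec.const 1))

theorem pg_moveB {B n : α → ℕ} {p p' : α → List ℕ} (hB : Primrec B) (hn : Primrec n)
    (hp : Primrec p) (hp' : Primrec p') :
    Primrec (fun x => moveB (B x) (n x) (p x) (p' x)) := by
  have hl : Primrec (fun x => B x ^ (p x).length) := pr_pow hB (pg_length hp)
  have hl' : Primrec (fun x => B x ^ (p' x).length) := pr_pow hB (pg_length hp')
  have h4 : Primrec (fun x => 4 * (n x + 1)) := pr_mul (Primrec.const 4) (pr_succ hn)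
  exact pg_q (pr_mul h4 hl) (pr_mul h4 hl') (pr_sub hl (Primrec.const 1))

/-! ### Terms -/

theorem pg_term {q : α → QCode} {F G H I : α → FacCode} (hq : Primrec q) (hF : Primrec F)
    (hG : Primrec G) (hH : Primrec H) (hI : Primrec I) :
    Primrec (fun x => ((q x, F x, G x, H x, I x) : TermCode)) :=
  pg_pair hq (pg_pair hF (pg_pair hG (pg_pair hH hI)))

theorem pg_t1 {c : α → TMCode} {j : α → ℕ} (hc : Primrec c) (hj : Primrec j) :
    Primrec (fun x => t1 (c x) (j x)) := by
  have hB := pg_base hc
  have hn := pg_length (pg_rules hc)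
  have hr := pg_ruleAt hc hj
  exact pg_term (Primrec.const (qn 1)) (Primrec.const (timeFac 1))
    (pg_prefFac hB (pg_fst (pg_fst hr))
      (pg_loadA hB hn hj (pg_fst (pg_fst hr)) (pg_fst (pg_snd hr)))
      (pg_loadB hB hn (pg_fst (pg_fst hr)) (pg_fst (pg_snd hr))))
    (pg_prefFac hB (pg_snd (pg_fst hr)) (Primrec.const (qn 1)) (Primrec.const (qn 0)))
    (Primrec.const oneFac)

theorem pg_tHalt {c : α → TMCode} {σ : α → ℕ} (hc : Primrec c) (hσ : Primrec σ) :
    Primrec (fun x => tHalt (c x) (σ x)) := by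
  have hB := pg_base hc
  exact pg_term (Primrec.const (5, 0, 7)) (Primrec.const (timeFac 1))
    (pg_prefFac hB (pg_single hσ) (Primrec.const (qn 1)) (Primrec.const (qn 0)))
    (pg_prefFac hB (Primrec.const []) (Primrec.const (qn 1)) (Primrec.const (qn 0)))
    (Primrec.const oneFac)

theorem pg_t2 {c : α → TMCode} {j : α → ℕ} (hc : Primrec c) (hj : Primrec j) :
    Primrec (fun x => t2 (c x) (j x)) := by
  have hB := pg_base hc
  have hn := pg_length (pg_rules hc)
  have hr := pg_ruleAt hc hj
  exact pg_term (Primrec.const (qn 1)) (Primrec.const (timeFac 2))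
    (Primrec.const oneFac) (Primrec.const oneFac)
    (pg_slotFac hn hj
      (pg_moveA hB hj (pg_fst (pg_fst hr)) (pg_fst (pg_snd hr)))
      (pg_moveB hB hn (pg_fst (pg_fst hr)) (pg_fst (pg_snd hr))))

theorem pg_t3y {c : α → TMCode} (hc : Primrec c) : Primrec (fun x => t3y (c x)) := by
  have hn := pg_length (pg_rules hc)
  exact pg_term (pg_q (Primrec.const 1) (Primrec.const 0)
      (pr_sub (pr_mul (Primrec.const 4) (pr_succ hn)) (Primrec.const 1)))
    (Primrec.const (timeFac 3)) (Primrec.const oneFac) (Primrec.const idFac)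
    (Primrec.const oneFac)

theorem pg_t3x {c : α → TMCode} (hc : Primrec c) : Primrec (fun x => t3x (c x)) := by
  have hn := pg_length (pg_rules hc)
  exact pg_term (pg_q (Primrec.const 0) (Primrec.const 1)
      (pr_sub (pr_mul (Primrec.const 4) (pr_succ hn)) (Primrec.const 1)))
    (Primrec.const (timeFac 3)) (Primrec.const idFac) (Primrec.const oneFac)
    (Primrec.const oneFac)

theorem pg_t4 {c : α → TMCode} {j : α → ℕ} (hc : Primrec c) (hj : Primrec j) :
    Primrec (fun x => t4 (c x) (j x)) := by
  have hB := pg_base hc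
  have hn := pg_length (pg_rules hc)
  have hr := pg_ruleAt hc hj
  exact pg_term (Primrec.const (qm 1)) (Primrec.const (timeFac 4))
    (Primrec.const oneFac) (Primrec.const oneFac)
    (pg_slotFac hn hj
      (pg_moveA hB hj (pg_snd (pg_snd hr)) (pg_snd (pg_fst hr)))
      (pg_moveB hB hn (pg_snd (pg_snd hr)) (pg_snd (pg_fst hr))))

theorem pg_t5 {c : α → TMCode} {j : α → ℕ} (hc : Primrec c) (hj : Primrec j) :
    Primrec (fun x => t5 (c x) (j x)) := by
  have hB := pg_base hc
  have hn := pg_length (pg_rules hc)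
  have hr := pg_ruleAt hc hj
  exact pg_term (Primrec.const (qm 1)) (Primrec.const (timeFac 5))
    (pg_prefFac hB (pg_fst (pg_snd hr)) (Primrec.const (qn 1)) (Primrec.const (qn 0)))
    (pg_prefFac hB (pg_snd (pg_snd hr))
      (pg_loadA hB hn hj (pg_snd (pg_snd hr)) (pg_snd (pg_fst hr)))
      (pg_loadB hB hn (pg_snd (pg_snd hr)) (pg_snd (pg_fst hr))))
    (Primrec.const oneFac)

theorem pg_tStartX {c : α → TMCode} (hc : Primrec c) : Primrec (fun x => tStartX (c x)) := by
  exact pg_term (pg_q (pr_succ (pr_mul (Primrec.const 3) (pg_fst (pg_snd (pg_snd hc)))))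
      (Primrec.const 0) (pr_sub (pg_base hc) (Primrec.const 1)))
    (Primrec.const startFac) (Primrec.const oneFac) (Primrec.const oneFac)
    (Primrec.const oneFac)

theorem pg_tStartY {c : α → TMCode} {w : α → List ℕ} (hc : Primrec c) (hw : Primrec w) :
    Primrec (fun x => tStartY (c x) (w x)) := by
  exact pg_term (pg_q (pg_numOf (pg_base hc) hw)
      (Primrec.const 0) (pr_sub (pr_pow (pg_base hc) (pg_length hw)) (Primrec.const 1)))
    (Primrec.const startFac) (Primrec.const oneFac) (Primrec.const oneFac)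
    (Primrec.const oneFac)

end

/-- The list of terms of each component of the velocity is primitive recursive in the machine
and the input. -/
theorem velTerms_primrec (i : Fin 3) : Primrec (velTerms i) := by
  have hc : Primrec (fun a : TMCode × List ℕ => a.1) := Primrec.fst
  have hw : Primrec (fun a : TMCode × List ℕ => a.2) := Primrec.snd
  have hR : Primrec (fun a : TMCode × List ℕ => List.range (rules a.1).length) :=
    pg_range (pg_length (pg_rules hc))
  have hc' : Primrec (fun p : (TMCode × List ℕ) × ℕ => p.1.1) := pg_fst Primrec.fst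
  have hj' : Primrec (fun p : (TMCode × List ℕ) × ℕ => p.2) := Primrec.snd
  have m1 : Primrec (fun a : TMCode × List ℕ =>
      (List.range (rules a.1).length).map (t1 a.1)) :=
    pg_map (g := fun (a : TMCode × List ℕ) j => t1 a.1 j) hR (pg_t1 hc' hj')
  have m2 : Primrec (fun a : TMCode × List ℕ =>
      (List.range (rules a.1).length).map (t2 a.1)) :=
    pg_map (g := fun (a : TMCode × List ℕ) j => t2 a.1 j) hR (pg_t2 hc' hj')
  have m4 : Primrec (fun a : TMCode × List ℕ =>
      (List.range (rules a.1).length).map (t4 a.1)) :=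
    pg_map (g := fun (a : TMCode × List ℕ) j => t4 a.1 j) hR (pg_t4 hc' hj')
  have m5 : Primrec (fun a : TMCode × List ℕ =>
      (List.range (rules a.1).length).map (t5 a.1)) :=
    pg_map (g := fun (a : TMCode × List ℕ) j => t5 a.1 j) hR (pg_t5 hc' hj')
  have mH : Primrec (fun a : TMCode × List ℕ => (haltDigits a.1).map (tHalt a.1)) :=
    pg_map (g := fun (a : TMCode × List ℕ) j => tHalt a.1 j) (pg_haltDigits hc)
      (pg_tHalt hc' hj')
  match i with
  | 0 => exact pg_cons (pg_tStartX hc) m2
  | 1 => exact pg_cons (pg_tStartY hc hw) m4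
  | 2 => exact pg_append m1 (pg_append mH (pg_cons (pg_t3y hc) (pg_cons (pg_t3x hc) m5)))

end Vale.Agent.P113
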