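import Vale.Agent.Lib.P113.Defs

/-!
# P113: sanity checks for the definitions

None of these is used in the result; they show that the codes of machines lose nothing, that the
notions are not vacuous, and that a program determines the force it is a program for.
-/

open Set

namespace Vale.Agent.P113

theorem Move.code_injective : Function.Injective Move.code := by
  intro a b h
  cases a <;> cases b <;> simp_all [Move.code]

/-- The code of a machine determines the machine. -/
theorem TM.code_injective : Function.Injective TM.code := by
  rintro ⟨n, m, start, halting, step⟩ ⟨n', m', start', halting', step'⟩ h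
  simp only [TM.code, Prod.mk.injEq] at h
  obtain ⟨hn, hm, hs, hh, ht⟩ := h
  subst hn
  subst hm
  have h1 : start = start' := Fin.ext hs
  have h2 : halting = halting' := List.ofFn_injective hh
  have h3 : step = step' := by
    have h4 := List.ofFn_injective ht
    funext q s
    have h5 := congrFun h4 q
    have h6 := congrFun (List.ofFn_injective h5) s
    simp only [Prod.mk.injEq] at h6
    obtain ⟨ha, hb, hc⟩ := h6
    exact Prod.ext (Fin.ext ha) (Prod.ext (Fin.ext hb) (Move.code_injective hc))
  subst h1 h2 h3
  rfl

theorem word_map_injective (m : ℕ) :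
    Function.Injective (fun w : List (Fin (m + 1)) => w.map Fin.val) :=
  List.map_injective_iff.2 Fin.val_injective

/-- A machine that halts at once. -/
def haltingMachine : TM where
  n := 0
  m := 0
  start := 0
  halting := fun _ => true
  step := fun q s => (q, s, Move.stay)

/-- A machine that never halts. -/
def loopingMachine : TM where
  n := 0
  m := 0
  start := 0
  halting := fun _ => false
  step := fun q s => (q, s, Move.right)

/-- A machine with two states that halts exactly on the words whose first letter is the
nonblank symbol. -/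
def firstLetterMachine : TM where
  n := 2
  m := 1
  start := 0
  halting := fun q => q == 1
  step := fun q s => if q = 0 then (if s = 1 then (1, s, Move.stay) else (2, s, Move.right))
    else (q, s, Move.left)

theorem haltingMachine_halts (w) : haltingMachine.HaltsOn w := ⟨0, rfl⟩

theorem loopingMachine_not_halts (w) : ¬ loopingMachine.HaltsOn w := by
  rintro ⟨k, hk⟩
  exact absurd hk (by simp [loopingMachine])

theorem firstLetterMachine_halts (w : List (Fin 2)) : firstLetterMachine.HaltsOn (1 :: w) :=
  ⟨1, rfl⟩

theorem firstLetterMachine_next (c : Config firstLetterMachine) (h : c.state = (2 : Fin 3)) :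
    (firstLetterMachine.next c).state = (2 : Fin 3) := by
  show (firstLetterMachine.step c.state (c.tape c.head)).1 = (2 : Fin 3)
  rw [h]
  rfl

theorem firstLetterMachine_not_halts : ¬ firstLetterMachine.HaltsOn [] := by
  rintro ⟨k, hk⟩
  have h : ∀ k, ((firstLetterMachine.next^[k + 1]) (firstLetterMachine.init [])).state
      = (2 : Fin 3) := by
    intro k
    induction k with
    | zero => rfl
    | succ k ih =>
      rw [Function.iterate_succ', Function.comp_apply]
      exact firstLetterMachine_next _ ih
  cases k with
  | zero => exact absurd hk (by decide)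
  | succ k =>
    rw [h k] at hk
    exact absurd hk (by decide)

theorem isComputableReal_one : IsComputableReal 1 := by
  refine ⟨fun _ => (1, 0, 0), Computable.const _, fun k => ?_⟩
  have : (0 : ℝ) ≤ 1 / ((k : ℝ) + 1) := by positivity
  simpa [ratVal] using this

/-- Every rational number has a code. -/
theorem exists_ratVal (r : ℚ) : ∃ c : QCode, ratVal c = r := by
  refine ⟨(r.num.toNat, (-r.num).toNat, r.den - 1), ?_⟩
  have hd : 1 ≤ r.den := r.pos
  have h1 : ((r.den - 1 : ℕ) : ℝ) + 1 = r.den := by
    rw [Nat.cast_sub hd]
    simp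
  have h2 : ((r.num.toNat : ℕ) : ℝ) - (((-r.num).toNat : ℕ) : ℝ) = (r.num : ℝ) := by
    have := Int.toNat_sub_toNat_neg r.num
    exact_mod_cast this
  unfold ratVal
  simp only
  rw [h1, h2]
  exact (Rat.cast_def r).symm

@[simp] theorem mixedDeriv_zero (g : (Fin 4 → ℝ) → ℝ) : mixedDeriv (0, 0, 0, 0) g = g := rfl

/-- A program determines the continuous field it is a program for. -/
theorem IsProgramFor.unique {c : Nat.Partrec.Code} {f g : ℝ → R3 → R3}
    (hf : IsProgramFor c f) (hg : IsProgramFor c g)
    (cf : Continuous fun z : ℝ × R3 => f z.1 z.2) (cg : Continuous fun z : ℝ × R3 => g z.1 z.2) :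
    f = g := by
  -- equality at rational points
  have hq : ∀ (i : Fin 3) (t x y z : QCode),
      f (ratVal t) ![ratVal x, ratVal y, ratVal z] i
        = g (ratVal t) ![ratVal x, ratVal y, ratVal z] i := by
    intro i t x y z
    have key : ∀ k : ℕ, |f (ratVal t) ![ratVal x, ratVal y, ratVal z] i
        - g (ratVal t) ![ratVal x, ratVal y, ratVal z] i| ≤ 2 * (1 / ((k : ℝ) + 1)) := by
      intro k
      obtain ⟨r, hr, hr'⟩ := hf i (0, 0, 0, 0) t x y z k
      obtain ⟨s, hs, hs'⟩ := hg i (0, 0, 0, 0) t x y z k
      have hrs : r = s := Encodable.encode_injective (Part.mem_unique hr hs)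
      subst hrs
      simp only [mixedDeriv_zero, Matrix.cons_val_zero, Matrix.cons_val_one,
        Matrix.cons_val] at hr' hs'
      have := abs_sub_le (f (ratVal t) ![ratVal x, ratVal y, ratVal z] i) (ratVal r)
        (g (ratVal t) ![ratVal x, ratVal y, ratVal z] i)
      rw [abs_sub_comm _ (ratVal r)] at this
      linarith
    have hlim : Filter.Tendsto (fun k : ℕ => 2 * (1 / ((k : ℝ) + 1))) Filter.atTop
        (nhds (2 * 0)) := tendsto_one_div_add_atTop_nhds_zero_nat.const_mul 2
    have h0 := ge_of_tendsto' hlim key
    rw [mul_zero] at h0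
    exact sub_eq_zero.1 (abs_nonpos_iff.1 h0)
  -- density
  have hF : (fun z : ℝ × R3 => f z.1 z.2) = fun z : ℝ × R3 => g z.1 z.2 := by
    refine Continuous.ext_on (s := {z : ℝ × R3 | (∃ q : ℚ, z.1 = q) ∧ ∀ i, ∃ q : ℚ, z.2 i = q})
      ?_ cf cg ?_
    · have h1 : DenseRange ((↑) : ℚ → ℝ) := Rat.denseRange_cast
      have h2 : DenseRange (fun q : Fin 3 → ℚ => fun i => ((q i : ℚ) : ℝ)) := by
        have := DenseRange.piMap (ι := Fin 3) (fun _ => h1)
        exact this
      have h3 := h1.prodMap h2
      refine h3.mono ?_
      rintro _ ⟨⟨q, r⟩, rfl⟩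
      exact ⟨⟨q, rfl⟩, fun i => ⟨r i, rfl⟩⟩
    · rintro ⟨t, x⟩ ⟨⟨q, hq1⟩, hx⟩
      obtain ⟨t', ht'⟩ := exists_ratVal q
      choose r hr using hx
      obtain ⟨x0, h0⟩ := exists_ratVal (r 0)
      obtain ⟨x1, h1⟩ := exists_ratVal (r 1)
      obtain ⟨x2, h2⟩ := exists_ratVal (r 2)
      have hxe : x = ![ratVal x0, ratVal x1, ratVal x2] := by
        funext i
        fin_cases i
        · simpa [h0] using hr 0
        · simpa [h1] using hr 1
        · simpa [h2] using hr 2
      have hte : t = ratVal t' := by rw [ht']; exact hq1
      funext i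
      simp only [hte, hxe]
      exact hq i t' x0 x1 x2
  funext t x
  exact congrFun hF (t, x)

end Vale.Agent.P113
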