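import Vale.Agent.Lib.P113.Eff1

/-! # Smoothness of finite sums of product functions -/

open Set

namespace Vale.Agent.P113

theorem contDiff_evalTerm (τ : TermCode) : ContDiff ℝ (⊤ : ℕ∞) (evalTerm τ) := by
  have h : ∀ (F : FacCode) (i : Fin 4),
      ContDiff ℝ (⊤ : ℕ∞) (fun w : Fin 4 → ℝ => evalFac F (w i)) := fun F i =>
    (evalFac_contDiff F).comp (contDiff_apply ℝ ℝ i)
  unfold evalTerm
  exact ((((contDiff_const).mul (h _ 0)).mul (h _ 1)).mul (h _ 2)).mul (h _ 3)

theorem contDiff_evalTerms (L : List TermCode) : ContDiff ℝ (⊤ : ℕ∞) (evalTerms L) := by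
  induction L with
  | nil => exact contDiff_const (c := (0 : ℝ))
  | cons τ L ih =>
    have : evalTerms (τ :: L) = fun w => evalTerm τ w + evalTerms L w := by
      funext w
      simp [evalTerms]
    rw [this]
    exact (contDiff_evalTerm τ).add ih

end Vale.Agent.P113
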