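import Vale.Agent.Lib.P113.Fab

/-! Symbolic descriptions of velocity fields, and the force they define. -/

open Set

namespace Vale.Agent.P113

/-- Code of a function of one variable: `(kind, a, b, c₁, d₁, c₂, d₂)`. -/
abbrev FacCode : Type := ℕ × QCode × QCode × QCode × QCode × QCode × QCode

/-- Code of a product function of four variables `(t, x, y, z)`, with a rational coefficient. -/
abbrev TermCode : Type := QCode × FacCode × FacCode × FacCode × FacCode

instance instPrimcodableFacCode : Primcodable FacCode := inferInstance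
instance instPrimcodableTermCode : Primcodable TermCode := inferInstance

/-- The representative modulo `1` in `[-1/4, 3/4)`. -/
noncomputable def rep (s : ℝ) : ℝ := Int.fract (s + 1 / 4) - 1 / 4

/-- `(a + b s) fab(c₁ s + d₁) fab(c₂ s + d₂)`. -/
noncomputable def atom (a b c₁ d₁ c₂ d₂ s : ℝ) : ℝ :=
  (a + b * s) * fab (c₁ * s + d₁) * fab (c₂ * s + d₂)

/-- A fixed cut-off: `1` on `[-1/16, 9/16]`, `0` outside `[-1/8, 5/8]`. -/
noncomputable def cut (s : ℝ) : ℝ := fab (16 * s + 2) * fab (10 - 16 * s)

/-- The function with a given code: constant `1` (kind `0`), a `1`-periodic function (kind `1`),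
or a non-periodic function (other kinds). -/
noncomputable def evalFac (F : FacCode) (s : ℝ) : ℝ :=
  match F with
  | (0, _) => 1
  | (1, a, b, c₁, d₁, c₂, d₂) =>
      atom (ratVal a) (ratVal b) (ratVal c₁) (ratVal d₁) (ratVal c₂) (ratVal d₂) (rep s)
        * cut (rep s)
  | (_, a, b, c₁, d₁, c₂, d₂) =>
      atom (ratVal a) (ratVal b) (ratVal c₁) (ratVal d₁) (ratVal c₂) (ratVal d₂) s

/-- The function of four variables with a given code. -/
noncomputable def evalTerm (τ : TermCode) (w : Fin 4 → ℝ) : ℝ :=
  ratVal τ.1 * evalFac τ.2.1 (w 0) * evalFac τ.2.2.1 (w 1) * evalFac τ.2.2.2.1 (w 2)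
    * evalFac τ.2.2.2.2 (w 3)

/-- Finite sums. -/
noncomputable def evalTerms (L : List TermCode) (w : Fin 4 → ℝ) : ℝ :=
  (L.map fun τ => evalTerm τ w).sum

/-- The velocity field with a given code. -/
noncomputable def vel (L : Fin 3 → List TermCode) (t : ℝ) (x : R3) : R3 :=
  fun i => evalTerms (L i) ![t, x 0, x 1, x 2]

/-- The force `∂ₜu - ν Δu`. -/
noncomputable def force (ν : ℝ) (L : Fin 3 → List TermCode) (t : ℝ) (x : R3) : R3 :=
  fun i => deriv (fun s => vel L s x i) t - ν * ∑ j, pd j (pd j (fun y => vel L t y i)) x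

end Vale.Agent.P113
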