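import Vale.Agent.Lib.P113.Defs

/-!
# P113, part A: uniqueness of classical solutions

Energy estimate for the difference of two classical solutions of the forced Navier-Stokes
equations on the torus.
-/

open Set MeasureTheory Filter Topology

namespace Vale.Agent.P113

/-! ## Calculus of `pd` -/

theorem pd_mul {f g : R3 → ℝ} {x : R3} (i : Fin 3) (hf : DifferentiableAt ℝ f x)
    (hg : DifferentiableAt ℝ g x) :
    pd i (fun y => f y * g y) x = f x * pd i g x + g x * pd i f x := by
  unfold pd
  rw [fderiv_fun_mul hf hg]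
  simp

theorem pd_sub {f g : R3 → ℝ} {x : R3} (i : Fin 3) (hf : DifferentiableAt ℝ f x)
    (hg : DifferentiableAt ℝ g x) :
    pd i (fun y => f y - g y) x = pd i f x - pd i g x := by
  unfold pd
  rw [fderiv_fun_sub hf hg]
  simp

theorem pd_sum {ι : Type*} {s : Finset ι} {f : ι → R3 → ℝ} {x : R3} (i : Fin 3)
    (hf : ∀ j ∈ s, DifferentiableAt ℝ (f j) x) :
    pd i (fun y => ∑ j ∈ s, f j y) x = ∑ j ∈ s, pd i (f j) x := by
  unfold pd
  rw [fderiv_fun_sum hf]
  simp

theorem contDiff_pd {g : R3 → ℝ} (n : ℕ) (i : Fin 3) (hg : ContDiff ℝ (n + 1 : ℕ) g) :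
    ContDiff ℝ n (pd i g) := by
  unfold pd
  have : ContDiff ℝ n (fderiv ℝ g) := hg.fderiv_right (by norm_cast)
  exact this.clm_apply contDiff_const

theorem continuous_pd {g : R3 → ℝ} (i : Fin 3) (hg : ContDiff ℝ 1 g) :
    Continuous (pd i g) := by
  have := contDiff_pd 0 i (g := g) (by simpa using hg)
  exact this.continuous

theorem periodic_pd {g : R3 → ℝ} (i : Fin 3) (hg : Periodic3 g) : Periodic3 (pd i g) := by
  intro x k
  unfold pd
  have h1 : (fun y : R3 => g (y + fun i => (k i : ℝ))) = g := by
    funext y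
    exact hg y k
  have h2 := fderiv_comp_add_right (𝕜 := ℝ) (f := g) (x := x) (fun i => (k i : ℝ))
  rw [h1] at h2
  rw [h2]
  rfl

/-- The integral of a partial derivative of a periodic function over the unit cube vanishes. -/
theorem integral_pd_eq_zero {g : R3 → ℝ} (i : Fin 3) (hg : ContDiff ℝ 1 g)
    (hper : Periodic3 g) : ∫ x in Icc (0 : R3) 1, pd i g x = 0 := by
  have hdiff : Differentiable ℝ g := hg.differentiable (by norm_num)
  have key := integral_divergence_of_hasFDerivAt_off_countable' (n := 2) (E := ℝ)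
    (0 : Fin 3 → ℝ) 1 (fun _ => by simp)
    (fun j => if j = i then g else fun _ => 0)
    (fun j => if j = i then fderiv ℝ g else fun _ => 0) ∅ countable_empty
    (fun j => by
      by_cases h : j = i
      · simp only [h, if_true]; exact hg.continuous.continuousOn
      · simp only [h, if_false]; exact continuousOn_const)
    (fun x _ j => by
      by_cases h : j = i
      · simp only [h, if_true]; exact (hdiff x).hasFDerivAt
      · simp only [h, if_false]; exact hasFDerivAt_const _ _)
    (by
      have : (fun x => ∑ j : Fin 3, (if j = i then fderiv ℝ g else fun _ => 0) x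
          (Pi.single j 1)) = pd i g := by
        funext x
        rw [Finset.sum_eq_single i]
        · simp [pd]
        · intro j _ hj
          simp [hj]
        · simp
      rw [this]
      exact (continuous_pd i hg).continuousOn.integrableOn_compact isCompact_Icc)
  have lhs : (fun x => ∑ j : Fin 3, (if j = i then fderiv ℝ g else fun _ => 0) x
      (Pi.single j 1)) = pd i g := by
    funext x
    rw [Finset.sum_eq_single i]
    · simp [pd]
    · intro j _ hj
      simp [hj]
    · simp
  rw [lhs] at key
  rw [key]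
  apply Finset.sum_eq_zero
  intro j _
  by_cases h : j = i
  · subst h
    simp only [if_true]
    rw [sub_eq_zero]
    congr 1
    funext x
    have := hper (j.insertNth (0 : ℝ) x) (Pi.single j 1)
    simp only [Pi.one_apply, Pi.zero_apply]
    rw [← this]
    congr 1
    funext l
    refine Fin.succAboveCases j ?_ ?_ l
    · simp
    · intro m
      simp
  · simp [h]

/-! ## The spatial estimate -/

theorem Periodic3.mul {f g : R3 → ℝ} (hf : Periodic3 f) (hg : Periodic3 g) :
    Periodic3 (fun x => f x * g x) := fun x k => by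
  show f _ * g _ = _
  rw [hf x k, hg x k]

theorem Periodic3.sub {f g : R3 → ℝ} (hf : Periodic3 f) (hg : Periodic3 g) :
    Periodic3 (fun x => f x - g x) := fun x k => by
  show f _ - g _ = _
  rw [hf x k, hg x k]

theorem Periodic3.sum {ι : Type*} {s : Finset ι} {f : ι → R3 → ℝ}
    (hf : ∀ j ∈ s, Periodic3 (f j)) : Periodic3 (fun x => ∑ j ∈ s, f j x) := fun x k => by
  show ∑ j ∈ s, f j _ = _
  exact Finset.sum_congr rfl fun j hj => hf j hj x k

theorem Periodic3.comp {f : R3 → R3} (hf : Periodic3 f) (j : Fin 3) :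
    Periodic3 (fun x => f x j) := fun x k => by
  show f _ j = _
  rw [hf x k]

/-- Pointwise identity behind the energy estimate. -/
theorem energy_identity {a b : R3 → R3} {P : R3 → ℝ} {ν : ℝ} (ha : ContDiff ℝ 2 a)
    (hb : ContDiff ℝ 2 b) (hP : ContDiff ℝ 1 P)
    (diva : ∀ x, ∑ i, pd i (fun y => a y i) x = 0)
    (divb : ∀ x, ∑ i, pd i (fun y => b y i) x = 0) (x : R3) :
    ∑ j, (b x j - a x j) *
        (-(∑ i, b x i * pd i (fun y => b y j) x - ∑ i, a x i * pd i (fun y => a y j) x)
          - pd j P x
          + ν * ∑ i, pd i (pd i (fun y => b y j - a y j)) x)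
      = - ∑ i, pd i (fun y => b y i * (∑ j, (b y j - a y j) * (b y j - a y j)) / 2) x
        - ∑ j, pd j (fun y => (b y j - a y j) * P y) x
        + ν * ∑ i, ∑ j, pd i (fun y => (b y j - a y j) * pd i (fun y => b y j - a y j) y) x
        - ν * ∑ i, ∑ j, (pd i (fun y => b y j - a y j) x) ^ 2
        - ∑ i, ∑ j, (b x i - a x i) * (b x j - a x j) * pd i (fun y => a y j) x := by
  have da : ∀ j, ContDiff ℝ 2 (fun y => a y j) := fun j => contDiff_pi.1 ha j
  have db : ∀ j, ContDiff ℝ 2 (fun y => b y j) := fun j => contDiff_pi.1 hb j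
  have dw : ∀ j, ContDiff ℝ 2 (fun y => b y j - a y j) := fun j => (db j).sub (da j)
  have Da : ∀ j, DifferentiableAt ℝ (fun y => a y j) x :=
    fun j => ((da j).differentiable (by norm_num)) x
  have Db : ∀ j, DifferentiableAt ℝ (fun y => b y j) x :=
    fun j => ((db j).differentiable (by norm_num)) x
  have Dw : ∀ j, DifferentiableAt ℝ (fun y => b y j - a y j) x :=
    fun j => ((dw j).differentiable (by norm_num)) x
  have DP : DifferentiableAt ℝ P x := (hP.differentiable (by norm_num)) x
  have Dpw : ∀ i j, DifferentiableAt ℝ (fun y => pd i (fun y => b y j - a y j) y) x :=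
    fun i j => ((contDiff_pd 1 i (by exact_mod_cast dw j)).differentiable (by norm_num)) x
  have Dsq : ∀ j, DifferentiableAt ℝ (fun y => (b y j - a y j) * (b y j - a y j)) x :=
    fun j => (Dw j).mul (Dw j)
  -- expand the three divergence terms
  have e1 : ∀ i, pd i (fun y => b y i * (∑ j, (b y j - a y j) * (b y j - a y j)) / 2) x
      = b x i * (∑ j, (b x j - a x j) * pd i (fun y => b y j - a y j) x)
        + (∑ j, (b x j - a x j) * (b x j - a x j)) / 2 * pd i (fun y => b y i) x := by
    intro i
    have h0 : (fun y => b y i * (∑ j, (b y j - a y j) * (b y j - a y j)) / 2)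
        = fun y => b y i * ((∑ j, (b y j - a y j) * (b y j - a y j)) * (1 / 2)) := by
      funext y; ring
    have hS : DifferentiableAt ℝ (fun y => ∑ j, (b y j - a y j) * (b y j - a y j)) x :=
      DifferentiableAt.fun_sum fun j _ => Dsq j
    rw [h0, pd_mul i (Db i) (hS.fun_mul (differentiableAt_const _)),
      pd_mul i hS (differentiableAt_const _), pd_sum i (fun j _ => Dsq j)]
    have hc : pd i (fun _ => (1 / 2 : ℝ)) x = 0 := by simp [pd]
    rw [hc]
    simp_rw [pd_mul i (Dw _) (Dw _)]
    rw [mul_zero, zero_add]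
    congr 1
    · congr 1
      rw [Finset.mul_sum]
      refine Finset.sum_congr rfl fun j _ => ?_
      ring
    · ring
  have e2 : ∀ j, pd j (fun y => (b y j - a y j) * P y) x
      = (b x j - a x j) * pd j P x + P x * (pd j (fun y => b y j) x - pd j (fun y => a y j) x) := by
    intro j
    rw [pd_mul j (Dw j) DP, pd_sub j (Db j) (Da j)]
  have e3 : ∀ i j, pd i (fun y => (b y j - a y j) * pd i (fun y => b y j - a y j) y) x
      = (b x j - a x j) * pd i (pd i (fun y => b y j - a y j)) x
        + (pd i (fun y => b y j - a y j) x) ^ 2 := by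
    intro i j
    rw [pd_mul i (Dw j) (Dpw i j)]
    ring_nf
  have e4 : ∀ i j, pd i (fun y => b y j - a y j) x
      = pd i (fun y => b y j) x - pd i (fun y => a y j) x := fun i j => pd_sub i (Db j) (Da j)
  simp_rw [e1, e2, e3]
  have hda := diva x
  have hdb := divb x
  simp_rw [e4]
  simp only [Fin.sum_univ_three] at hda hdb ⊢
  have hda' : pd 2 (fun y => a y 2) x = - pd 0 (fun y => a y 0) x - pd 1 (fun y => a y 1) x := by
    linarith
  have hdb' : pd 2 (fun y => b y 2) x = - pd 0 (fun y => b y 0) x - pd 1 (fun y => b y 1) x := by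
    linarith
  rw [hda', hdb']
  ring

/-- The integrated energy estimate at a fixed time. -/
theorem energy_integral {a b : R3 → R3} {P : R3 → ℝ} {ν M : ℝ} (hν : 0 ≤ ν)
    (ha : ContDiff ℝ 2 a) (hb : ContDiff ℝ 2 b) (hP : ContDiff ℝ 1 P)
    (pera : Periodic3 a) (perb : Periodic3 b) (perP : Periodic3 P)
    (diva : ∀ x, ∑ i, pd i (fun y => a y i) x = 0)
    (divb : ∀ x, ∑ i, pd i (fun y => b y i) x = 0)
    (hM : ∀ x ∈ Icc (0 : R3) 1, ∀ i j, |pd i (fun y => a y j) x| ≤ M) :
    ∫ x in Icc (0 : R3) 1, ∑ j, (b x j - a x j) *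
        (-(∑ i, b x i * pd i (fun y => b y j) x - ∑ i, a x i * pd i (fun y => a y j) x)
          - pd j P x
          + ν * ∑ i, pd i (pd i (fun y => b y j - a y j)) x)
      ≤ 3 * M * ∫ x in Icc (0 : R3) 1, ∑ j, (b x j - a x j) ^ 2 := by
  have da : ∀ j, ContDiff ℝ 2 (fun y => a y j) := fun j => contDiff_pi.1 ha j
  have db : ∀ j, ContDiff ℝ 2 (fun y => b y j) := fun j => contDiff_pi.1 hb j
  have dw : ∀ j, ContDiff ℝ 2 (fun y => b y j - a y j) := fun j => (db j).sub (da j)
  have dw1 : ∀ j, ContDiff ℝ 1 (fun y => b y j - a y j) := fun j => (dw j).of_le (by norm_num)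
  have db1 : ∀ j, ContDiff ℝ 1 (fun y => b y j) := fun j => (db j).of_le (by norm_num)
  have da1 : ∀ j, ContDiff ℝ 1 (fun y => a y j) := fun j => (da j).of_le (by norm_num)
  have dpw : ∀ i j, ContDiff ℝ 1 (pd i (fun y => b y j - a y j)) :=
    fun i j => contDiff_pd 1 i (by exact_mod_cast dw j)
  have pw : ∀ j, Periodic3 (fun y => b y j - a y j) := fun j => (perb.comp j).sub (pera.comp j)
  -- the three families of divergence terms
  set g : Fin 3 → R3 → ℝ :=
    fun i y => b y i * (∑ j, (b y j - a y j) * (b y j - a y j)) / 2 with hg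
  set h : Fin 3 → R3 → ℝ := fun j y => (b y j - a y j) * P y with hh
  set k : Fin 3 → Fin 3 → R3 → ℝ :=
    fun i j y => (b y j - a y j) * pd i (fun y => b y j - a y j) y with hk
  have cg : ∀ i, ContDiff ℝ 1 (g i) := fun i =>
    ((db1 i).mul (ContDiff.sum fun j _ => (dw1 j).mul (dw1 j))).div_const 2
  have ch : ∀ j, ContDiff ℝ 1 (h j) := fun j => (dw1 j).mul hP
  have ck : ∀ i j, ContDiff ℝ 1 (k i j) := fun i j => (dw1 j).mul (dpw i j)
  have pg : ∀ i, Periodic3 (g i) := fun i x l => by
    have h1 := (perb.comp i).mul (Periodic3.sum (s := Finset.univ)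
      fun j _ => (pw j).mul (pw j)) x l
    show _ / 2 = _ / 2
    exact congrArg (· / 2) h1
  have ph : ∀ j, Periodic3 (h j) := fun j => (pw j).mul perP
  have pk : ∀ i j, Periodic3 (k i j) := fun i j => (pw j).mul (periodic_pd i (pw j))
  set D : R3 → ℝ := fun x => - ∑ i, pd i (g i) x - ∑ j, pd j (h j) x
      + ν * ∑ i, ∑ j, pd i (k i j) x with hD
  have cpg : ∀ i, Continuous (pd i (g i)) := fun i => continuous_pd i (cg i)
  have cph : ∀ i, Continuous (pd i (h i)) := fun i => continuous_pd i (ch i)
  have cpk : ∀ i j, Continuous (pd i (k i j)) := fun i j => continuous_pd i (ck i j)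
  have cD : Continuous D := by
    refine ((continuous_finsetSum _ fun i _ => cpg i).neg.sub
      (continuous_finsetSum _ fun i _ => cph i)).add
      (continuous_const.mul (continuous_finsetSum _ fun i _ =>
        continuous_finsetSum _ fun j _ => cpk i j))
  have iC : ∀ {F : R3 → ℝ}, Continuous F → IntegrableOn F (Icc (0 : R3) 1) := fun hF =>
    hF.continuousOn.integrableOn_compact isCompact_Icc
  have intD : ∫ x in Icc (0 : R3) 1, D x = 0 := by
    have h1 : ∫ x in Icc (0 : R3) 1, ∑ i, pd i (g i) x = 0 := by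
      rw [integral_finsetSum _ fun i _ => iC (cpg i)]
      exact Finset.sum_eq_zero fun i _ => integral_pd_eq_zero i (cg i) (pg i)
    have h2 : ∫ x in Icc (0 : R3) 1, ∑ i, pd i (h i) x = 0 := by
      rw [integral_finsetSum _ fun i _ => iC (cph i)]
      exact Finset.sum_eq_zero fun i _ => integral_pd_eq_zero i (ch i) (ph i)
    have h3 : ∫ x in Icc (0 : R3) 1, ∑ i, ∑ j, pd i (k i j) x = 0 := by
      rw [integral_finsetSum _ fun i _ => iC (continuous_finsetSum _ fun j _ => cpk i j)]
      refine Finset.sum_eq_zero fun i _ => ?_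
      rw [integral_finsetSum _ fun j _ => iC (cpk i j)]
      exact Finset.sum_eq_zero fun j _ => integral_pd_eq_zero i (ck i j) (pk i j)
    have c1 := continuous_finsetSum Finset.univ fun i _ => cpg i
    have c2 := continuous_finsetSum Finset.univ fun i _ => cph i
    have c3 := continuous_finsetSum Finset.univ fun i _ =>
      continuous_finsetSum Finset.univ fun j _ => cpk i j
    have i1 : IntegrableOn (fun x => - ∑ i, pd i (g i) x) (Icc (0 : R3) 1) := iC c1.neg
    have i2 : IntegrableOn (fun x => - ∑ i, pd i (g i) x - ∑ j, pd j (h j) x)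
      (Icc (0 : R3) 1) := iC (c1.neg.sub c2)
    have i3 : IntegrableOn (fun x => ν * ∑ i, ∑ j, pd i (k i j) x) (Icc (0 : R3) 1) :=
      iC (continuous_const.mul c3)
    show ∫ x in Icc (0 : R3) 1, (- ∑ i, pd i (g i) x - ∑ j, pd j (h j) x
      + ν * ∑ i, ∑ j, pd i (k i j) x) = 0
    rw [integral_add i2 i3, integral_sub i1 (iC c2), integral_neg, integral_const_mul, h1, h2, h3]
    simp
  have cpw : ∀ i j, Continuous (pd i (fun y => b y j - a y j)) := fun i j =>
    continuous_pd i (dw1 j)
  have cpa : ∀ i j, Continuous (pd i (fun y => a y j)) := fun i j => continuous_pd i (da1 j)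
  have cw : ∀ j, Continuous (fun y => b y j - a y j) := fun j => (dw1 j).continuous
  have cS : Continuous (fun x => ∑ j, (b x j - a x j) ^ 2) :=
    continuous_finsetSum _ fun j _ => (cw j).pow 2
  have cR : Continuous (fun x => D x - ν * ∑ i, ∑ j, (pd i (fun y => b y j - a y j) x) ^ 2
        - ∑ i, ∑ j, (b x i - a x i) * (b x j - a x j) * pd i (fun y => a y j) x) := by
    refine (cD.sub (continuous_const.mul (continuous_finsetSum _ fun i _ =>
        continuous_finsetSum _ fun j _ => (cpw i j).pow 2))).sub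
        (continuous_finsetSum _ fun i _ => continuous_finsetSum _ fun j _ =>
          ((cw i).mul (cw j)).mul (cpa i j))
  have hL : (fun x => ∑ j, (b x j - a x j) *
        (-(∑ i, b x i * pd i (fun y => b y j) x - ∑ i, a x i * pd i (fun y => a y j) x)
          - pd j P x
          + ν * ∑ i, pd i (pd i (fun y => b y j - a y j)) x))
      = fun x => D x - ν * ∑ i, ∑ j, (pd i (fun y => b y j - a y j) x) ^ 2
        - ∑ i, ∑ j, (b x i - a x i) * (b x j - a x j) * pd i (fun y => a y j) x := by
    funext x
    exact energy_identity ha hb hP diva divb x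
  rw [hL]
  calc ∫ x in Icc (0 : R3) 1, (D x - ν * ∑ i, ∑ j, (pd i (fun y => b y j - a y j) x) ^ 2
        - ∑ i, ∑ j, (b x i - a x i) * (b x j - a x j) * pd i (fun y => a y j) x)
      ≤ ∫ x in Icc (0 : R3) 1, (D x + 3 * M * ∑ j, (b x j - a x j) ^ 2) := by
        refine setIntegral_mono_on (iC cR) (iC (cD.add (continuous_const.mul cS)))
          measurableSet_Icc fun x hx => ?_
        have h1 : 0 ≤ ν * ∑ i, ∑ j, (pd i (fun y => b y j - a y j) x) ^ 2 :=
          mul_nonneg hν (Finset.sum_nonneg fun i _ => Finset.sum_nonneg fun j _ => sq_nonneg _)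
        have h2 : ∀ i j, -((b x i - a x i) * (b x j - a x j) * pd i (fun y => a y j) x)
            ≤ M * (((b x i - a x i) ^ 2 + (b x j - a x j) ^ 2) / 2) := by
          intro i j
          have hM0 := hM x hx i j
          have hM1 : 0 ≤ M := (abs_nonneg _).trans hM0
          calc -((b x i - a x i) * (b x j - a x j) * pd i (fun y => a y j) x)
              ≤ |(b x i - a x i) * (b x j - a x j) * pd i (fun y => a y j) x| := neg_le_abs _
            _ = |(b x i - a x i)| * |(b x j - a x j)| * |pd i (fun y => a y j) x| := by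
                rw [abs_mul, abs_mul]
            _ ≤ |(b x i - a x i)| * |(b x j - a x j)| * M := by gcongr
            _ ≤ M * (((b x i - a x i) ^ 2 + (b x j - a x j) ^ 2) / 2) := by
                rw [mul_comm _ M]
                refine mul_le_mul_of_nonneg_left ?_ hM1
                nlinarith [sq_nonneg (|(b x i - a x i)| - |(b x j - a x j)|),
                  sq_abs (b x i - a x i), sq_abs (b x j - a x j)]
        have h3 : - ∑ i, ∑ j, (b x i - a x i) * (b x j - a x j) * pd i (fun y => a y j) x
            ≤ ∑ i, ∑ j, M * (((b x i - a x i) ^ 2 + (b x j - a x j) ^ 2) / 2) := by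
          rw [← Finset.sum_neg_distrib]
          refine Finset.sum_le_sum fun i _ => ?_
          rw [← Finset.sum_neg_distrib]
          exact Finset.sum_le_sum fun j _ => h2 i j
        have h4 : ∑ i, ∑ j, M * (((b x i - a x i) ^ 2 + (b x j - a x j) ^ 2) / 2)
            = 3 * M * ∑ j, (b x j - a x j) ^ 2 := by
          simp only [Fin.sum_univ_three]
          ring
        linarith
    _ = 3 * M * ∫ x in Icc (0 : R3) 1, ∑ j, (b x j - a x j) ^ 2 := by
        have i3 : IntegrableOn (fun x => 3 * M * ∑ j, (b x j - a x j) ^ 2) (Icc (0 : R3) 1) :=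
          iC (continuous_const.mul cS)
        rw [integral_add (iC cD) i3, intD, zero_add, integral_const_mul]

/-! ## Zero integrals and periodicity -/

theorem Icc_subset_closure_interior :
    Icc (0 : R3) 1 ⊆ closure (interior (Icc (0 : R3) 1)) := by
  have hne : (interior (Icc (0 : R3) 1)).Nonempty := by
    refine ⟨fun _ => 1 / 2, ?_⟩
    rw [← pi_univ_Icc, interior_pi_set finite_univ]
    intro i _
    show (1 / 2 : ℝ) ∈ interior (Icc (0 : ℝ) 1)
    rw [interior_Icc]
    constructor <;> norm_num
  rw [(convex_Icc (𝕜 := ℝ) (0 : R3) 1).closure_interior_eq_closure_of_nonempty_interior hne]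
  exact subset_closure

/-- Every point of `ℝ³` is a translate of a point of the unit cube. -/
theorem exists_mem_cube (x : R3) : ∃ (y : R3) (k : Fin 3 → ℤ), y ∈ Icc (0 : R3) 1 ∧
    x = fun i => y i + k i := by
  refine ⟨fun i => Int.fract (x i), fun i => ⌊x i⌋, ⟨fun i => Int.fract_nonneg _,
    fun i => (Int.fract_lt_one _).le⟩, ?_⟩
  funext i
  exact (Int.fract_add_floor (x i)).symm

theorem eq_zero_of_integral_eq_zero {g : R3 → ℝ} (hc : Continuous g) (h0 : ∀ x, 0 ≤ g x)
    (hper : Periodic3 g) (hint : ∫ x in Icc (0 : R3) 1, g x = 0) (x : R3) : g x = 0 := by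
  have h1 : g =ᵐ[volume.restrict (Icc (0 : R3) 1)] 0 :=
    (setIntegral_eq_zero_iff_of_nonneg_ae (Eventually.of_forall fun x => h0 x)
      (hc.continuousOn.integrableOn_compact isCompact_Icc)).1 hint
  have h2 := Measure.eqOn_of_ae_eq h1 hc.continuousOn continuousOn_const
    Icc_subset_closure_interior
  obtain ⟨y, k, hy, rfl⟩ := exists_mem_cube x
  rw [hper y k]
  exact h2 hy

theorem eq_zero_of_pd_eq_zero {g : R3 → ℝ} (hc : ContDiff ℝ 1 g) (h0 : ∀ i x, pd i g x = 0)
    (hint : ∫ x in Icc (0 : R3) 1, g x = 0) (x : R3) : g x = 0 := by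
  have h1 : ∀ x, fderiv ℝ g x = 0 := by
    intro x
    ext v
    have hv : v = ∑ i, v i • (Pi.single i (1 : ℝ) : R3) := by
      funext j
      simp [Finset.sum_apply, Pi.single_apply]
    rw [hv, map_sum]
    simp only [map_smul]
    refine Finset.sum_eq_zero fun i _ => ?_
    have := h0 i x
    unfold pd at this
    rw [this, smul_zero]
  have h2 := is_const_of_fderiv_eq_zero (hc.differentiable (by norm_num)) h1
  have h3 : ∫ y in Icc (0 : R3) 1, g y = g x := by
    rw [setIntegral_congr_fun measurableSet_Icc (fun y _ => h2 y x)]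
    simp [Measure.real, Real.volume_Icc_pi]
  rw [← h3, hint]

/-! ## The theorem -/

theorem IsClassicalSolution.hasDerivWithinAt {ν T : ℝ} {f u : ℝ → R3 → R3} {p : ℝ → R3 → ℝ}
    (hu : IsClassicalSolution ν T f u p) {t : ℝ} (ht : t ∈ Icc 0 T) (x : R3) (j : Fin 3) :
    HasDerivWithinAt (fun s => u s x j) (derivWithin (fun s => u s x) (Icc 0 T) t j)
      (Icc 0 T) t :=
  hasDerivWithinAt_pi.1 (hu.diff_time t ht x).hasDerivWithinAt j

theorem IsClassicalSolution.derivWithin_eq {ν T : ℝ} (hT : 0 < T) {f u : ℝ → R3 → R3}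
    {p : ℝ → R3 → ℝ} (hu : IsClassicalSolution ν T f u p) {t : ℝ} (ht : t ∈ Icc 0 T) (x : R3)
    (j : Fin 3) : derivWithin (fun s => u s x j) (Icc 0 T) t
      = derivWithin (fun s => u s x) (Icc 0 T) t j :=
  (hu.hasDerivWithinAt ht x j).derivWithin (uniqueDiffOn_Icc hT t ht)

/-- Uniqueness of classical solutions: the velocity. -/
theorem classical_unique_velocity {ν T : ℝ} (hν : 0 < ν) (hT : 0 < T) {f u v : ℝ → R3 → R3}
    {p q : ℝ → R3 → ℝ} (hu : IsClassicalSolution ν T f u p)
    (hv : IsClassicalSolution ν T f v q) : ∀ t ∈ Icc 0 T, ∀ x, v t x = u t x := by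
  set Q : Set R3 := Icc (0 : R3) 1 with hQ
  have hQc : IsCompact Q := isCompact_Icc
  set K : Set (ℝ × R3) := Icc 0 T ×ˢ Q with hK
  have hKc : IsCompact K := isCompact_Icc.prod hQc
  have hKsub : K ⊆ Icc 0 T ×ˢ univ := prod_mono Subset.rfl (subset_univ _)
  -- bound for the gradient of `u`
  have hb : ∀ i j : Fin 3, ∃ C, ∀ z ∈ K, ‖pd i (fun y => u z.1 y j) z.2‖ ≤ C := fun i j =>
    hKc.exists_bound_of_continuousOn ((hu.cont_space i j).mono hKsub)
  choose C hC using hb
  set M : ℝ := ∑ i, ∑ j, |C i j| with hMdef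
  have hM : ∀ t ∈ Icc 0 T, ∀ x ∈ Icc (0 : R3) 1, ∀ i j, |pd i (fun y => u t y j) x| ≤ M := by
    intro t ht x hx i j
    have h1 : |pd i (fun y => u t y j) x| ≤ C i j := hC i j (t, x) ⟨ht, hx⟩
    have h2 : |C i j| ≤ ∑ j, |C i j| :=
      Finset.single_le_sum (f := fun j => |C i j|) (fun j _ => abs_nonneg _) (Finset.mem_univ j)
    have h3 : ∑ j, |C i j| ≤ M :=
      Finset.single_le_sum (f := fun i => ∑ j, |C i j|)
        (fun i _ => Finset.sum_nonneg fun j _ => abs_nonneg _) (Finset.mem_univ i)
    exact h1.trans ((le_abs_self _).trans (h2.trans h3))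
  -- the energy density and its time derivative
  set W : ℝ → R3 → ℝ := fun t x => ∑ j, (v t x j - u t x j) ^ 2 with hW
  set Du : ℝ → R3 → R3 := fun t x => derivWithin (fun s => u s x) (Icc 0 T) t with hDu
  set Dv : ℝ → R3 → R3 := fun t x => derivWithin (fun s => v s x) (Icc 0 T) t with hDv
  set W' : ℝ → R3 → ℝ :=
    fun t x => ∑ j, 2 * ((v t x j - u t x j) * (Dv t x j - Du t x j)) with hW'
  have cu : ContinuousOn (fun z : ℝ × R3 => u z.1 z.2) (Icc 0 T ×ˢ univ) := hu.cont_u
  have cv : ContinuousOn (fun z : ℝ × R3 => v z.1 z.2) (Icc 0 T ×ˢ univ) := hv.cont_u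
  have cuj := continuousOn_pi.1 cu
  have cvj := continuousOn_pi.1 cv
  have cDuj := continuousOn_pi.1 hu.cont_time
  have cDvj := continuousOn_pi.1 hv.cont_time
  have cW : ContinuousOn (fun z : ℝ × R3 => W z.1 z.2) (Icc 0 T ×ˢ univ) :=
    continuousOn_finsetSum _ fun j _ => ((cvj j).sub (cuj j)).pow 2
  have cW' : ContinuousOn (fun z : ℝ × R3 => W' z.1 z.2) (Icc 0 T ×ˢ univ) :=
    continuousOn_finsetSum _ fun j _ =>
      continuousOn_const.mul (((cvj j).sub (cuj j)).mul ((cDvj j).sub (cDuj j)))
  have slice : ∀ {G : ℝ → R3 → ℝ},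
      ContinuousOn (fun z : ℝ × R3 => G z.1 z.2) (Icc 0 T ×ˢ univ) →
      ∀ t ∈ Icc 0 T, Continuous (G t) := by
    intro G hG t ht
    have : ContinuousOn (fun x => G t x) univ :=
      hG.comp (by fun_prop : Continuous fun x : R3 => (t, x)).continuousOn
        fun x _ => ⟨ht, mem_univ _⟩
    exact continuousOn_univ.1 this
  have sliceT : ∀ {G : ℝ → R3 → ℝ},
      ContinuousOn (fun z : ℝ × R3 => G z.1 z.2) (Icc 0 T ×ˢ univ) →
      ∀ x, ContinuousOn (fun t => G t x) (Icc 0 T) := by
    intro G hG x
    exact hG.comp (by fun_prop : Continuous fun t : ℝ => (t, x)).continuousOn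
      fun t ht => ⟨ht, mem_univ _⟩
  obtain ⟨B, hB⟩ := hKc.exists_bound_of_continuousOn (cW.mono hKsub)
  obtain ⟨B', hB'⟩ := hKc.exists_bound_of_continuousOn (cW'.mono hKsub)
  have intc : ∀ c : ℝ, IntegrableOn (fun _ : R3 => c) Q := fun c =>
    (continuous_const).continuousOn.integrableOn_compact hQc
  set E : ℝ → ℝ := fun t => ∫ x in Q, W t x with hE
  have hEcont : ContinuousOn E (Icc 0 T) := by
    refine continuousOn_of_dominated (bound := fun _ => B) ?_ ?_ (intc B) ?_
    · intro t ht
      exact (slice cW t ht).aestronglyMeasurable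
    · intro t ht
      refine (ae_restrict_iff' measurableSet_Icc).2 (Eventually.of_forall fun x hx => ?_)
      exact hB (t, x) ⟨ht, hx⟩
    · exact Eventually.of_forall fun x => sliceT cW x
  have hEderiv : ∀ t ∈ Ioo 0 T, HasDerivAt E (∫ x in Q, W' t x) t := by
    intro t ht
    have htn : Ioo 0 T ∈ 𝓝 t := Ioo_mem_nhds ht.1 ht.2
    refine (hasDerivAt_integral_of_dominated_loc_of_deriv_le (bound := fun _ => B')
      htn ?_ ?_ ?_ ?_ (intc B') ?_).2
    · filter_upwards [htn] with s hs
      exact (slice cW s (Ioo_subset_Icc_self hs)).aestronglyMeasurable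
    · exact (slice cW t (Ioo_subset_Icc_self ht)).continuousOn.integrableOn_compact hQc
    · exact (slice cW' t (Ioo_subset_Icc_self ht)).aestronglyMeasurable
    · refine (ae_restrict_iff' measurableSet_Icc).2 (Eventually.of_forall fun x hx s hs => ?_)
      exact hB' (s, x) ⟨Ioo_subset_Icc_self hs, hx⟩
    · refine Eventually.of_forall fun x s hs => ?_
      have hs' : s ∈ Icc 0 T := Ioo_subset_Icc_self hs
      have hn : Icc 0 T ∈ 𝓝 s := Icc_mem_nhds hs.1 hs.2
      have h1 : ∀ j ∈ (Finset.univ : Finset (Fin 3)),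
          HasDerivAt (fun s => (v s x j - u s x j) ^ 2)
          (2 * ((v s x j - u s x j) * (Dv s x j - Du s x j))) s := by
        intro j _
        have hd := (((hv.hasDerivWithinAt hs' x j).hasDerivAt hn).sub
          ((hu.hasDerivWithinAt hs' x j).hasDerivAt hn)).pow 2
        have he : 2 * ((v s x j - u s x j) * (Dv s x j - Du s x j))
            = ((2 : ℕ) : ℝ) * (v s x j - u s x j) ^ (2 - 1) *
              (derivWithin (fun s => v s x) (Icc 0 T) s j
                - derivWithin (fun s => u s x) (Icc 0 T) s j) := by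
          simp only [hDv, hDu]
          norm_num
          ring
        rw [he]
        exact hd
      exact HasDerivAt.fun_sum h1
  -- the energy inequality
  have hineq : ∀ t ∈ Ioo 0 T, ∫ x in Q, W' t x ≤ 6 * M * E t := by
    intro t ht
    have ht' : t ∈ Icc 0 T := Ioo_subset_Icc_self ht
    have dua : ∀ j, ContDiff ℝ 2 (fun y => u t y j) :=
      fun j => contDiff_pi.1 (hu.diff_space t ht') j
    have dva : ∀ j, ContDiff ℝ 2 (fun y => v t y j) :=
      fun j => contDiff_pi.1 (hv.diff_space t ht') j
    have key := energy_integral (a := u t) (b := v t) (P := fun x => q t x - p t x) hν.le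
      (hu.diff_space t ht') (hv.diff_space t ht')
      ((hv.diff_pressure t ht').sub (hu.diff_pressure t ht'))
      (hu.periodic_u t ht') (hv.periodic_u t ht')
      ((hv.periodic_p t ht').sub (hu.periodic_p t ht'))
      (hu.div_free t ht') (hv.div_free t ht') (hM t ht')
    have heq : ∀ x, W' t x = 2 * ∑ j, (v t x j - u t x j) *
        (-(∑ i, v t x i * pd i (fun y => v t y j) x - ∑ i, u t x i * pd i (fun y => u t y j) x)
          - pd j (fun x => q t x - p t x) x
          + ν * ∑ i, pd i (pd i (fun y => v t y j - u t y j)) x) := by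
      intro x
      rw [hW', Finset.mul_sum]
      refine Finset.sum_congr rfl fun j _ => ?_
      have mu := hu.momentum t ht' x j
      have mv := hv.momentum t ht' x j
      rw [hu.derivWithin_eq hT ht' x j] at mu
      rw [hv.derivWithin_eq hT ht' x j] at mv
      have hp : pd j (fun x => q t x - p t x) x = pd j (q t) x - pd j (p t) x :=
        pd_sub j ((hv.diff_pressure t ht').differentiable (by norm_num) x)
          ((hu.diff_pressure t ht').differentiable (by norm_num) x)
      have hpp : ∀ i, pd i (pd i (fun y => v t y j - u t y j)) x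
          = pd i (pd i (fun y => v t y j)) x - pd i (pd i (fun y => u t y j)) x := by
        intro i
        have h1 : pd i (fun y => v t y j - u t y j)
            = fun x => pd i (fun y => v t y j) x - pd i (fun y => u t y j) x := by
          funext x
          exact pd_sub i ((dva j).differentiable (by norm_num) x)
            ((dua j).differentiable (by norm_num) x)
        rw [h1]
        exact pd_sub i
          ((contDiff_pd 1 i (by exact_mod_cast dva j)).differentiable (by norm_num) x)
          ((contDiff_pd 1 i (by exact_mod_cast dua j)).differentiable (by norm_num) x)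
      simp_rw [hpp]
      rw [hp, Finset.sum_sub_distrib]
      have : Dv t x j - Du t x j
          = -(∑ i, v t x i * pd i (fun y => v t y j) x
              - ∑ i, u t x i * pd i (fun y => u t y j) x)
            - (pd j (q t) x - pd j (p t) x)
            + ν * (∑ i, pd i (pd i (fun y => v t y j)) x
              - ∑ i, pd i (pd i (fun y => u t y j)) x) := by
        simp only [hDv, hDu]
        linarith
      rw [this]
    have : ∫ x in Q, W' t x = 2 * ∫ x in Icc (0 : R3) 1, ∑ j, (v t x j - u t x j) *
        (-(∑ i, v t x i * pd i (fun y => v t y j) x - ∑ i, u t x i * pd i (fun y => u t y j) x)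
          - pd j (fun x => q t x - p t x) x
          + ν * ∑ i, pd i (pd i (fun y => v t y j - u t y j)) x) := by
      rw [← integral_const_mul]
      exact integral_congr_ae (Eventually.of_forall heq)
    rw [this]
    have hEt : E t = ∫ x in Icc (0 : R3) 1, ∑ j, (v t x j - u t x j) ^ 2 := rfl
    rw [hEt]
    linarith
  -- Gronwall
  set F : ℝ → ℝ := fun t => E t * Real.exp (-(6 * M) * t) with hF
  have hFderiv : ∀ t ∈ Ioo 0 T, HasDerivAt F
      ((∫ x in Q, W' t x) * Real.exp (-(6 * M) * t)
        + E t * (Real.exp (-(6 * M) * t) * (-(6 * M)))) t := by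
    intro t ht
    have h1 : HasDerivAt (fun t : ℝ => -(6 * M) * t) (-(6 * M)) t := by
      simpa using (hasDerivAt_id t).const_mul (-(6 * M))
    exact (hEderiv t ht).mul h1.exp
  have hanti : AntitoneOn F (Icc 0 T) := by
    refine antitoneOn_of_deriv_nonpos (convex_Icc 0 T)
      (hEcont.mul (by fun_prop : Continuous fun t : ℝ => Real.exp (-(6 * M) * t)).continuousOn)
      ?_ ?_
    · rw [interior_Icc]
      exact fun t ht => (hFderiv t ht).differentiableAt.differentiableWithinAt
    · rw [interior_Icc]
      intro t ht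
      rw [(hFderiv t ht).deriv]
      have h1 := hineq t ht
      have h2 : 0 < Real.exp (-(6 * M) * t) := Real.exp_pos _
      nlinarith
  have hE0 : E 0 = 0 := by
    have : ∀ x, W 0 x = 0 := by
      intro x
      simp [hW, hu.initial x, hv.initial x]
    simp [hE, this]
  have hEle : ∀ t ∈ Icc 0 T, E t = 0 := by
    intro t ht
    have h1 := hanti (left_mem_Icc.2 hT.le) ht ht.1
    have h2 : F 0 = 0 := by simp [hF, hE0]
    rw [h2] at h1
    have h3 : 0 < Real.exp (-(6 * M) * t) := Real.exp_pos _
    have h4 : E t ≤ 0 := by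
      by_contra hcon
      push Not at hcon
      exact absurd h1 (not_le.2 (mul_pos hcon h3))
    have h5 : 0 ≤ E t := integral_nonneg fun x => Finset.sum_nonneg fun j _ => sq_nonneg _
    exact le_antisymm h4 h5
  intro t ht x
  have hper : Periodic3 (W t) := by
    intro x k
    simp only [hW]
    have h1 := hu.periodic_u t ht x k
    have h2 := hv.periodic_u t ht x k
    rw [h1, h2]
  have hz := eq_zero_of_integral_eq_zero (slice cW t ht)
    (fun x => Finset.sum_nonneg fun j _ => sq_nonneg _) hper (hEle t ht) x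
  funext j
  have h1 := (Finset.sum_eq_zero_iff_of_nonneg
    (fun j _ => sq_nonneg (v t x j - u t x j))).1 hz j (Finset.mem_univ j)
  have h2 : v t x j - u t x j = 0 := by
    exact pow_eq_zero_iff (by norm_num : (2 : ℕ) ≠ 0) |>.1 h1
  linarith

/-- Uniqueness of classical solutions. -/
theorem classical_unique {ν T : ℝ} (hν : 0 < ν) (hT : 0 < T) {f u v : ℝ → R3 → R3}
    {p q : ℝ → R3 → ℝ} (hu : IsClassicalSolution ν T f u p)
    (hv : IsClassicalSolution ν T f v q) :
    ∀ t ∈ Icc 0 T, ∀ x, v t x = u t x ∧ q t x = p t x := by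
  have hvel := classical_unique_velocity hν hT hu hv
  intro t ht x
  refine ⟨hvel t ht x, ?_⟩
  have hfun : v t = u t := funext fun x => hvel t ht x
  have hz : ∀ i x, pd i (fun x => q t x - p t x) x = 0 := by
    intro j x
    rw [pd_sub j ((hv.diff_pressure t ht).differentiable (by norm_num) x)
      ((hu.diff_pressure t ht).differentiable (by norm_num) x)]
    have mu := hu.momentum t ht x j
    have mv := hv.momentum t ht x j
    have hd : derivWithin (fun s => v s x j) (Icc 0 T) t
        = derivWithin (fun s => u s x j) (Icc 0 T) t :=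
      derivWithin_congr (fun s hs => by rw [hvel s hs x]) (by rw [hvel t ht x])
    rw [hd, hfun] at mv
    linarith
  have hint : ∫ x in Icc (0 : R3) 1, (q t x - p t x) = 0 := by
    have iC : ∀ {F : R3 → ℝ}, Continuous F → IntegrableOn F (Icc (0 : R3) 1) := fun hF =>
      hF.continuousOn.integrableOn_compact isCompact_Icc
    rw [integral_sub (iC (hv.diff_pressure t ht).continuous)
      (iC (hu.diff_pressure t ht).continuous), hv.mean_pressure t ht, hu.mean_pressure t ht,
      sub_zero]
  have := eq_zero_of_pd_eq_zero ((hv.diff_pressure t ht).sub (hu.diff_pressure t ht)) hz hint x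
  linarith

end Vale.Agent.P113
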